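import Vale.Agent.P028.Frac

namespace Vale.Agent.P028.Wide

open Finset
open scoped Classical

/-- Minor arcs: a well approximated coefficient with a large denominator. -/
lemma count_minor (α φ τ : ℝ) (hτ : 0 ≤ τ) (N : ℕ) (b : ℕ) (a : ℤ) (hb : 1 ≤ b) (R : ℝ) (hbR : (b:ℝ) ≤ R)
    (hRN : R ≤ N) (hco : IsCoprime (b:ℤ) a) (happ : |(b:ℝ) * α - a| ≤ 1 / R)
    (s : Finset ℕ) (hs : ∀ V ∈ s, 1 ≤ V ∧ V ≤ N ∧ ∃ z : ℤ, |(z:ℝ) + α * V - φ| < τ) :
    (s.card : ℝ) ≤ 4 * τ * N + 4 * (N:ℝ) / R + (N:ℝ) / b + 1 := by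
  have hb0 : (0:ℝ) < b := by exact_mod_cast hb
  have hR : 0 < R := lt_of_lt_of_le hb0 hbR
  have hN : (b:ℝ) ≤ N := hbR.trans hRN
  have hs' : ∀ V : ℕ, ∃ z : ℤ, V ∈ s → |(z:ℝ) + α * V - φ| < τ := fun V => by
    by_cases h : V ∈ s
    · obtain ⟨z, hz⟩ := (hs V h).2.2; exact ⟨z, fun _ => hz⟩
    · exact ⟨0, fun h' => absurd h' h⟩
  choose z hz using hs'
  set L := (b:ℝ) * τ + (b:ℝ) / R
  have hL : 0 ≤ L := by positivity
  have hblock : ∀ i : ℕ, (((s.filter (fun V => (V - 1) / b = i)).card : ℕ) : ℝ) ≤ 2 * L + 1 := by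
    intro i
    set T := s.filter (fun V => (V - 1) / b = i)
    set c := ((b:ℝ) * α - a) * ((i * b + 1 : ℕ) : ℝ) - (b:ℝ) * φ
    have hrange : ∀ V ∈ T, i * b + 1 ≤ V ∧ V < i * b + 1 + b := fun V hV => by
      obtain ⟨h1, h2⟩ := Finset.mem_filter.1 hV
      have h1' := (hs V h1).1
      have e := Nat.div_add_mod (V - 1) b
      rw [h2, Nat.mul_comm] at e
      have := Nat.mod_lt (V - 1) (by omega : b > 0)
      omega
    have hc : T.card = (T.image (fun V => z V * (b:ℤ) + a * (V:ℤ))).card := by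
      refine (Finset.card_image_of_injOn fun x hx y hy he => ?_).symm
      simp only [Finset.mem_coe] at hx hy
      have hd : (b:ℤ) ∣ (x:ℤ) - y := hco.dvd_of_dvd_mul_left ⟨z y - z x, by linear_combination he⟩
      obtain ⟨h1, h2⟩ := hrange x hx
      obtain ⟨h3, h4⟩ := hrange y hy
      by_contra hne
      have := Int.natAbs_le_of_dvd_ne_zero hd (by omega)
      omega
    rw [hc]
    refine card_int_near _ c L hL fun k hk => ?_
    obtain ⟨V, hV, rfl⟩ := Finset.mem_image.1 hk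
    obtain ⟨h1, h2⟩ := hrange V hV
    have hz' := hz V (Finset.mem_filter.1 hV).1
    have e : ((z V * (b:ℤ) + a * (V:ℤ) : ℤ):ℝ) + c
        = (b:ℝ) * ((z V : ℝ) + α * V - φ) - ((b:ℝ) * α - a) * ((V:ℝ) - ((i * b + 1 : ℕ):ℝ)) := by
      simp only [c]; push_cast; ring
    rw [e]
    refine lt_of_le_of_lt (abs_sub _ _) ?_
    rw [abs_mul, abs_mul, abs_of_pos hb0]
    have hd1 : |(V:ℝ) - ((i * b + 1 : ℕ):ℝ)| ≤ b := by
      have a1 : ((i * b + 1 : ℕ):ℝ) ≤ V := by exact_mod_cast h1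
      have a2 : (V:ℝ) ≤ ((i * b + 1 : ℕ):ℝ) + b := by exact_mod_cast h2.le
      rw [abs_of_nonneg (by linarith)]; linarith
    have h3 := mul_le_mul happ hd1 (abs_nonneg _) (by positivity : 0 ≤ 1 / R)
    have h4 := mul_lt_mul_of_pos_left hz' hb0
    simp only [L]
    rw [one_div_mul_eq_div] at h3
    linarith
  have hmap : ∀ V ∈ s, (V - 1) / b ∈ Finset.range (N / b + 1) := fun V hV => by
    have := (hs V hV).2.1
    have : (V - 1) / b ≤ N / b := Nat.div_le_div_right (by omega)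
    exact Finset.mem_range.2 (by omega)
  rw [Finset.card_eq_sum_card_fiberwise hmap]
  push_cast
  refine (Finset.sum_le_sum fun i _ => hblock i).trans ?_
  rw [Finset.sum_const, Finset.card_range, nsmul_eq_mul]
  push_cast
  refine (mul_le_mul_of_nonneg_right (add_le_add (Nat.cast_div_le (α := ℝ)) le_rfl) (by linarith)).trans ?_
  have e1 : (N:ℝ) / b * L = N * τ + N / R := by simp only [L]; field_simp
  have h1 : (b:ℝ) * τ ≤ N * τ := mul_le_mul_of_nonneg_right hN hτ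
  have h2 : (b:ℝ) / R ≤ N / R := div_le_div_of_nonneg_right hN hR.le
  have e2 : ((N:ℝ) / b + 1) * (2 * L + 1) = 2 * ((N:ℝ) / b * L) + (N:ℝ) / b + 2 * L + 1 := by ring
  rw [e2, e1]
  have e3 : 4 * (N:ℝ) / R = 4 * ((N:ℝ) / R) := by ring
  rw [e3]
  simp only [L]
  linarith

/-- Major arcs: a fixed fraction with the degenerate line removed. -/
lemma count_major (γ : ℝ) (B : ℕ) (A : ℤ) (hB : 1 ≤ B) (hco : IsCoprime (B:ℤ) A) (M u : ℕ) (hM : 1 ≤ M)
    (τ : ℝ) (hτ : 0 ≤ τ) (N : ℕ) (mJ : ℕ) (hm : 1 ≤ mJ) (hmB : Nat.Coprime mJ B) (s : Finset ℕ)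
    (hs : ∀ V ∈ s, 1 ≤ V ∧ V ≤ N ∧ u < M * V ∧
      ∃ z : ℤ, |(z:ℝ) + γ * (((M * V : ℕ):ℝ) - u)| < τ ∧
        z * B + A * (((M * V : ℕ):ℤ) - u) ≠ 0 ∧ (mJ:ℤ) ∣ z * B + A * (((M * V : ℕ):ℤ) - u)) :
    (s.card : ℝ) ≤ 8 * τ * N / mJ + 2 * ((B:ℝ) * τ + (M:ℝ) * N * |(B:ℝ) * γ - A|)
      + (if (mJ:ℝ) ≤ (B:ℝ) * τ + (M:ℝ) * N * |(B:ℝ) * γ - A| then
          (Nat.gcd B M : ℝ) * min ((N:ℝ) / B) (4 * τ * N / ((B:ℝ) * τ + (M:ℝ) * N * |(B:ℝ) * γ - A|)) + 1
        else 0) := by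
  set ε := (B:ℝ) * γ - A with hε
  set R := (B:ℝ) * τ + (M:ℝ) * N * |ε| with hR
  set d := Nat.gcd B M with hd
  set F := min ((N:ℝ) / B) (4 * τ * N / R)
  have hR0 : 0 ≤ R := by positivity
  have hB0 : (0:ℝ) < B := by exact_mod_cast hB
  have hd0 : 0 < d := Nat.gcd_pos_of_pos_left _ hB
  have hF : 0 ≤ F := le_min (by positivity) (by positivity)
  have hmj0 : (0:ℝ) < mJ := by exact_mod_cast hm
  have hs' : ∀ V : ℕ, ∃ z : ℤ, V ∈ s → |(z:ℝ) + γ * (((M * V : ℕ):ℝ) - u)| < τ ∧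
        z * B + A * (((M * V : ℕ):ℤ) - u) ≠ 0 ∧ (mJ:ℤ) ∣ z * B + A * (((M * V : ℕ):ℤ) - u) := fun V => by
    by_cases h : V ∈ s
    · obtain ⟨z, hz⟩ := (hs V h).2.2.2; exact ⟨z, fun _ => hz⟩
    · exact ⟨0, fun h' => absurd h' h⟩
  choose z hz using hs'
  set J := fun V => z V * (B:ℤ) + A * (((M * V : ℕ):ℤ) - u) with hJ
  have hnear : ∀ V ∈ s, |((J V : ℤ):ℝ) + (((M * V : ℕ):ℝ) - u) * ε| < (B:ℝ) * τ := by
    intro V hV
    have e : ((J V : ℤ):ℝ) + (((M * V : ℕ):ℝ) - u) * ε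
        = (B:ℝ) * ((z V : ℝ) + γ * (((M * V : ℕ):ℝ) - u)) := by
      simp only [J, hε]; push_cast; ring
    rw [e, abs_mul, abs_of_pos hB0]
    exact mul_lt_mul_of_pos_left (hz V hV).1 hB0
  have hJR : ∀ V ∈ s, J V ≠ 0 ∧ |((J V : ℤ):ℝ)| < R ∧ (mJ:ℤ) ∣ J V := by
    intro V hV
    obtain ⟨h1, h2, h3, -⟩ := hs V hV
    refine ⟨(hz V hV).2.1, ?_, (hz V hV).2.2⟩
    have h := hnear V hV
    have hn : |(((M * V : ℕ):ℝ) - u) * ε| ≤ (M:ℝ) * N * |ε| := by
      rw [abs_mul]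
      refine mul_le_mul_of_nonneg_right ?_ (abs_nonneg _)
      have a1 : ((u:ℕ):ℝ) ≤ ((M * V : ℕ):ℝ) := by exact_mod_cast h3.le
      have a2 : ((M * V : ℕ):ℝ) ≤ (M:ℝ) * N := by exact_mod_cast Nat.mul_le_mul_left M h2
      have a3 : (0:ℝ) ≤ u := Nat.cast_nonneg _
      rw [abs_of_nonneg (by linarith)]; linarith
    have := abs_sub (((J V : ℤ):ℝ) + (((M * V : ℕ):ℝ) - u) * ε) ((((M * V : ℕ):ℝ) - u) * ε)
    rw [add_sub_cancel_right] at this
    simp only [hR]; linarith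
  by_cases hmR : (mJ:ℝ) ≤ R
  swap
  · rw [if_neg hmR]
    have : s = ∅ := Finset.eq_empty_iff_forall_notMem.2 fun V hV => by
      obtain ⟨h1, h2, h3⟩ := hJR V hV
      have h4 : (mJ:ℤ) ≤ |J V| := Int.le_of_dvd (abs_pos.2 h1) ((dvd_abs _ _).2 h3)
      have h5 : (mJ:ℝ) ≤ |((J V : ℤ):ℝ)| := by rw [← Int.cast_abs]; exact_mod_cast h4
      linarith
    rw [this, Finset.card_empty, Nat.cast_zero]
    positivity
  rw [if_pos hmR]
  have hRpos : 0 < R := lt_of_lt_of_le hmj0 hmR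
  -- the values of `J`
  have hJset : (((s.image J).card : ℕ):ℝ) ≤ 2 * R / ((d:ℝ) * mJ) + 1 := by
    have h := card_progression (s.image J) (d * mJ) (Nat.mul_pos hd0 hm) (2 * R) (by linarith) ?_
    · push_cast at h; exact h
    intro x hx y hy
    obtain ⟨V, hV, rfl⟩ := Finset.mem_image.1 hx
    obtain ⟨V', hV', rfl⟩ := Finset.mem_image.1 hy
    refine ⟨?_, ?_⟩
    · have c1 : (d:ℤ) ∣ J V - J V' := by
        have dB : (d:ℤ) ∣ (B:ℤ) := Int.natCast_dvd_natCast.2 (Nat.gcd_dvd_left _ _)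
        have dM : (d:ℤ) ∣ (M:ℤ) := Int.natCast_dvd_natCast.2 (Nat.gcd_dvd_right _ _)
        have e : J V - J V' = (B:ℤ) * (z V - z V') + (M:ℤ) * (A * ((V:ℤ) - V')) := by
          simp only [J]; push_cast; ring
        rw [e]
        exact dvd_add (dB.mul_right _) (dM.mul_right _)
      have c2 : (mJ:ℤ) ∣ J V - J V' := dvd_sub (hJR V hV).2.2 (hJR V' hV').2.2
      have hcop : IsCoprime (d:ℤ) (mJ:ℤ) := Int.isCoprime_iff_nat_coprime.2
        (by simpa using (hmB.symm.coprime_dvd_left (Nat.gcd_dvd_left B M)))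
      push_cast
      exact hcop.mul_dvd c1 c2
    · have := (abs_lt.1 (hJR V hV).2.1)
      have := (abs_lt.1 (hJR V' hV').2.1)
      linarith
  -- one fibre
  have hfib : ∀ j : ℤ, (((s.filter (fun V => J V = j)).card : ℕ):ℝ) ≤ (d:ℝ) * F + 1 := by
    intro j
    set T := s.filter (fun V => J V = j)
    have hc : T.card = (T.image (fun V : ℕ => (V:ℤ))).card :=
      (Finset.card_image_of_injective _ Nat.cast_injective).symm
    obtain ⟨B', hB'⟩ : d ∣ B := Nat.gcd_dvd_left _ _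
    have hB'0 : 0 < B' := Nat.pos_of_ne_zero fun h => by simp [h] at hB'; omega
    rw [hc]
    have hL : 0 ≤ min (N:ℝ) (4 * τ * B * N / R) := le_min (Nat.cast_nonneg _) (by positivity)
    refine (card_progression _ B' hB'0 _ hL ?_).trans (le_of_eq ?_)
    · intro x hx y hy
      obtain ⟨V, hV, rfl⟩ := Finset.mem_image.1 hx
      obtain ⟨V', hV', rfl⟩ := Finset.mem_image.1 hy
      obtain ⟨hV, hVj⟩ := Finset.mem_filter.1 hV
      obtain ⟨hV', hVj'⟩ := Finset.mem_filter.1 hV'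
      refine ⟨?_, ?_⟩
      · obtain ⟨M', hM'⟩ : d ∣ M := Nat.gcd_dvd_right _ _
        have hcop : Nat.Coprime B' M' := by
          have := Nat.coprime_div_gcd_div_gcd (m := B) (n := M) hd0
          rwa [← hd, show B / d = B' by rw [hB']; exact Nat.mul_div_cancel_left _ hd0,
            show M / d = M' by rw [hM']; exact Nat.mul_div_cancel_left _ hd0] at this
        have h0 : (z V - z V') * (B:ℤ) + A * ((M:ℤ) * ((V:ℤ) - V')) = 0 := by
          have h := hVj.trans hVj'.symm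
          simp only [J] at h
          push_cast at h
          linear_combination h
        have h1 : (B:ℤ) ∣ (M:ℤ) * ((V:ℤ) - V') := hco.dvd_of_dvd_mul_left ⟨z V' - z V, by linear_combination h0⟩
        have h2 : (B':ℤ) ∣ (M':ℤ) * ((V:ℤ) - V') := by
          rw [hB', hM'] at h1
          push_cast at h1
          rw [mul_assoc] at h1
          exact Int.dvd_of_mul_dvd_mul_left (by exact_mod_cast hd0.ne') h1
        exact (Int.isCoprime_iff_nat_coprime.2 (by simpa using hcop)).dvd_of_dvd_mul_left h2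
      · refine le_min ?_ ?_
        · have a1 : ((V:ℤ):ℝ) ≤ N := by exact_mod_cast (hs V hV).2.1
          have a2 : (0:ℝ) ≤ ((V':ℤ):ℝ) := by exact_mod_cast (Nat.zero_le V')
          linarith
        · rw [le_div_iff₀ hRpos]
          have a1 := hnear V hV
          have a2 := hnear V' hV'
          rw [hVj] at a1
          rw [hVj'] at a2
          have h3 : |((V:ℝ) - V') * ((M:ℝ) * ε)| ≤ 2 * B * τ := by
            have h := abs_sub ((j:ℝ) + (((M * V : ℕ):ℝ) - u) * ε) ((j:ℝ) + (((M * V' : ℕ):ℝ) - u) * ε)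
            have e : (j:ℝ) + (((M * V : ℕ):ℝ) - u) * ε - ((j:ℝ) + (((M * V' : ℕ):ℝ) - u) * ε)
                = ((V:ℝ) - V') * ((M:ℝ) * ε) := by push_cast; ring
            rw [e] at h; linarith
          rw [abs_mul, abs_mul, Nat.abs_cast] at h3
          have h4 : (V:ℝ) - V' ≤ N := by
            have : (V:ℝ) ≤ N := by exact_mod_cast (hs V hV).2.1
            have : (0:ℝ) ≤ (V':ℝ) := Nat.cast_nonneg _
            linarith
          push_cast
          rcases le_or_gt ((V:ℝ) - V') 0 with hneg | hpos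
          · have : ((V:ℝ) - V') * R ≤ 0 := mul_nonpos_of_nonpos_of_nonneg hneg hR0
            have : 0 ≤ 4 * τ * B * N := by positivity
            linarith
          · rw [abs_of_pos hpos] at h3
            have h5 := mul_le_mul_of_nonneg_left h3 (Nat.cast_nonneg (α := ℝ) N)
            have h6 := mul_le_mul_of_nonneg_right h4 (by positivity : 0 ≤ (B:ℝ) * τ)
            have : 0 ≤ (B:ℝ) * τ * N := by positivity
            simp only [hR]
            linarith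
    · have hd' : (d:ℝ) ≠ 0 := by exact_mod_cast hd0.ne'
      have hB'' : (B:ℝ) = (d:ℝ) * B' := by exact_mod_cast hB'
      have hB'r : (0:ℝ) < B' := by exact_mod_cast hB'0
      simp only [F]
      rw [mul_min_of_nonneg _ _ (Nat.cast_nonneg d), ← min_div_div_right hB'r.le, hB'']
      congr 2 <;> field_simp
  rw [Finset.card_eq_sum_card_fiberwise (t := s.image J) (f := J) fun V hV => Finset.mem_image_of_mem _ hV]
  push_cast
  refine (Finset.sum_le_sum fun j _ => hfib j).trans ?_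
  rw [Finset.sum_const, nsmul_eq_mul]
  refine (mul_le_mul_of_nonneg_right hJset (by positivity)).trans ?_
  have hm1 : (1:ℝ) ≤ mJ := by exact_mod_cast hm
  have hd1 : (1:ℝ) ≤ d := by exact_mod_cast hd0
  have e1 : (2 * R / ((d:ℝ) * mJ) + 1) * ((d:ℝ) * F + 1)
      = 2 * (R * F) / mJ + 2 * R / ((d:ℝ) * mJ) + ((d:ℝ) * F + 1) := by field_simp
  have h1 : R * F ≤ 4 * τ * N := by
    refine (mul_le_mul_of_nonneg_left (min_le_right _ _) hR0).trans (le_of_eq ?_)
    field_simp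
  have h2 : 2 * R / ((d:ℝ) * mJ) ≤ 2 * R :=
    div_le_self (by linarith) (one_le_mul_of_one_le_of_one_le hd1 hm1)
  have h3 : 2 * (R * F) / mJ ≤ 8 * τ * N / mJ := div_le_div_of_nonneg_right (by linarith) hmj0.le
  rw [e1]
  linarith

end Vale.Agent.P028.Wide
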