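import Vale.Agent.P028.Wide.Config

namespace Vale.Agent.P028.Wide

open Finset
open scoped Classical

lemma mu_le_wT {G T : Finset ℕ} (hG : ∀ p ∈ G, p.Prime) (hT : T ⊆ G) {x : ℕ} {ψx μx t K : ℝ}
    (hμ : μx ≤ ψx * lam x) (hψ : 0 ≤ ψx)
    (hlam : lam x ≤ ∏ p ∈ G \ T, (1 - 1 / (p:ℝ)))
    (hK : 0 < K) (hcof : K * ((∏ p ∈ T, p : ℕ) : ℝ) * ψx ≤ t) :
    μx ≤ t / K * wT G T := by
  have hprod : 0 ≤ ∏ p ∈ G \ T, (1 - 1 / (p:ℝ)) := Finset.prod_nonneg fun p hp => by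
    have h2 : (1:ℝ) ≤ p := by exact_mod_cast (hG p (Finset.mem_sdiff.1 hp).1).one_le
    have : 1 / (p:ℝ) ≤ 1 := by rw [div_le_one (by linarith)]; exact h2
    linarith
  have hT0 : (0:ℝ) < ((∏ p ∈ T, p : ℕ) : ℝ) := by
    exact_mod_cast Finset.prod_pos fun p hp => (hG p (hT hp)).pos
  have hψle : ψx ≤ t / K * (∏ p ∈ T, 1 / (p:ℝ)) := by
    rw [Finset.prod_div_distrib, Finset.prod_const_one, ← Nat.cast_prod, mul_one_div, le_div_iff₀ hT0,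
      le_div_iff₀ hK]
    linarith
  calc μx ≤ ψx * lam x := hμ
    _ ≤ ψx * ∏ p ∈ G \ T, (1 - 1 / (p:ℝ)) := mul_le_mul_of_nonneg_left hlam hψ
    _ ≤ t / K * (∏ p ∈ T, 1 / (p:ℝ)) * ∏ p ∈ G \ T, (1 - 1 / (p:ℝ)) :=
        mul_le_mul_of_nonneg_right hψle hprod
    _ = _ := by unfold wT; ring

lemma nbr_alg {sE MV MW c e U Vm t X Y g Γ : ℝ} (hsE : 0 ≤ sE) (hMV : 0 < MV) (hMW : 0 < MW)
    (hc : 0 < c) (he : 0 < e) (hU : 0 < U) (hVm : 0 < Vm) (ht : 0 ≤ t) (hg : 0 ≤ g) (hY : 0 ≤ Y)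
    (h1 : sE / MV ≤ t / (e * U) * Y) (h2 : sE / MW ≤ 2 * (t / (c * Vm) * X))
    (hXY : X * Y * (g / (c * e)) ≤ Γ * U * Vm) :
    sE * sE * g ≤ 2 * t ^ 2 * Γ * (MV * MW) := by
  have h3 := mul_le_mul h1 h2 (div_nonneg hsE hMW.le) (by positivity)
  rw [div_mul_div_comm, div_le_iff₀ (mul_pos hMV hMW)] at h3
  calc sE * sE * g ≤ t / (e * U) * Y * (2 * (t / (c * Vm) * X)) * (MV * MW) * g :=
        mul_le_mul_of_nonneg_right h3 hg
    _ = 2 * t ^ 2 / (U * Vm) * (X * Y * (g / (c * e))) * (MV * MW) := by field_simp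
    _ ≤ 2 * t ^ 2 / (U * Vm) * (Γ * U * Vm) * (MV * MW) :=
        mul_le_mul_of_nonneg_right (mul_le_mul_of_nonneg_left hXY (by positivity)) (mul_pos hMV hMW).le
    _ = _ := by field_simp

/-- The two neighbourhoods of extremal vertices in a structured graph. -/
lemma nbr_product {E : Finset (ℕ × ℕ)} (S : Conf E) {μ ψ : ℕ → ℝ} {Fc V W : Finset ℕ} {t Γ : ℝ}
    (Typ : ℕ → ℕ → Prop) (hμ : ∀ x, 0 ≤ μ x) (hψ : ∀ x, 0 ≤ ψ x) (hμψ : ∀ x, μ x ≤ ψ x * lam x)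
    (ht : 0 ≤ t)
    (hedge : ∀ x ∈ E, (cv x.1 x.2 : ℝ) * ψ x.1 ≤ t ∧ (cu x.1 x.2 : ℝ) * ψ x.2 ≤ t)
    (hE : 0 < EE μ S.E2 V W)
    (hdegV : ∀ q ∈ V, 0 < μ q →
        sg * EE μ S.E2 V W / mass μ V ≤ ∑ r ∈ W.filter (fun r => (q, r) ∈ S.E2), μ r)
    (hdegW : ∀ r ∈ W, 0 < μ r →
        sg * EE μ S.E2 V W / mass μ W ≤ ∑ q ∈ V.filter (fun q => (q, r) ∈ S.E2), μ q)
    (hΓ : 0 ≤ Γ)
    (hA : ∀ (r : ℕ) (N : ℕ) (A : Finset ℕ),
      (∀ q ∈ A, (q, r) ∈ S.E2 ∧ S.Uf q ≤ N ∧ ¬ Typ r q) →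
      (∑ q ∈ A, wT S.G (S.Tl q)) * (cgain Fc (S.c * S.e) / ((S.c : ℝ) * S.e)) ≤ Γ * N)
    (hB : ∀ (r q : ℕ) (A : Finset ℕ), (q, r) ∈ S.E2 → Typ r q →
      (∀ r' ∈ A, (q, r') ∈ S.E2 ∧ S.Vf r' ≤ S.Vf r) →
      (∑ r' ∈ A, wT S.G (S.Tr r')) * (cgain Fc (S.c * S.e) / ((S.c : ℝ) * S.e)) ≤ Γ * S.Vf r) :
    sg ^ 2 * EE μ S.E2 V W ^ 2 * cgain Fc (S.c * S.e) ≤ 2 * t ^ 2 * Γ * (mass μ V * mass μ W) := by
  obtain ⟨hMV, hMW⟩ := mass_pos_of_EE_pos hμ hE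
  have hc : (0:ℝ) < S.c := by exact_mod_cast S.hc
  have he : (0:ℝ) < S.e := by exact_mod_cast S.he
  have hg : 0 < cgain Fc (S.c * S.e) := Finset.prod_pos fun p hp => by
    have : (0:ℝ) < p := by exact_mod_cast Nat.pos_of_mem_primeFactors hp
    positivity
  set g := cgain Fc (S.c * S.e)
  set gs := g / ((S.c:ℝ) * S.e) with hgs
  have hgs0 : 0 < gs := by positivity
  have hG1 : ∀ p ∈ S.G, 1 ≤ p := fun p hp => (S.primeG p hp).one_le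
  -- the extremal right vertex
  set W' := W.filter (fun r => 0 < μ r ∧ ∃ q ∈ V, (q, r) ∈ S.E2 ∧ 0 < μ q) with hW'
  have hW'ne : W'.Nonempty := by
    obtain ⟨x, hx, hpos⟩ := Finset.exists_lt_of_sum_lt (f := fun _ => (0:ℝ))
      (g := fun x : ℕ × ℕ => μ x.1 * μ x.2) (by simpa [EE] using hE)
    obtain ⟨hxE, hx1, hx2⟩ := Finset.mem_filter.1 hx
    have h2 : 0 < μ x.2 := pos_of_mul_pos_right hpos (hμ _)
    exact ⟨x.2, Finset.mem_filter.2 ⟨hx2, h2, x.1, hx1, hxE, pos_of_mul_pos_left hpos (hμ _)⟩⟩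
  obtain ⟨r, hr, hrmax⟩ := Finset.exists_max_image W' S.Vf hW'ne
  obtain ⟨hrW, hμr, q0, hq0V, hq0E, -⟩ := Finset.mem_filter.1 hr
  set N := (V.filter (fun q => (q, r) ∈ S.E2)).filter (fun q => 0 < μ q) with hN
  have hNdeg : sg * EE μ S.E2 V W / mass μ W ≤ mass μ N := by
    refine (hdegW r hrW hμr).trans (le_of_eq ?_)
    refine (Finset.sum_filter_of_ne fun q _ hne => ?_).symm
    exact lt_of_le_of_ne (hμ q) (Ne.symm hne)
  have hNne : N.Nonempty := by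
    refine Finset.nonempty_of_sum_ne_zero (f := μ) (ne_of_gt (lt_of_lt_of_le ?_ hNdeg))
    exact div_pos (mul_pos sg_pos hE) hMW
  have hNmem : ∀ q ∈ N, q ∈ V ∧ (q, r) ∈ S.E2 ∧ 0 < μ q := fun q hq => by
    obtain ⟨h1, h2⟩ := Finset.mem_filter.1 hq
    exact ⟨(Finset.mem_filter.1 h1).1, (Finset.mem_filter.1 h1).2, h2⟩
  set Vm := S.Vf r
  have hVm : (1:ℝ) ≤ Vm := by exact_mod_cast (S.right _ hq0E).1
  have hμq : ∀ q ∈ N, μ q ≤ t / ((S.c:ℝ) * Vm) * wT S.G (S.Tl q) := fun q hq => by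
    obtain ⟨-, h2, -⟩ := hNmem q hq
    refine mu_le_wT S.primeG (S.left _ h2).2 (hμψ q) (hψ q) (S.lamL (q, r) h2) (by positivity) ?_
    have h := (hedge _ (S.sub h2)).1
    rw [S.cofV _ h2] at h
    push_cast at h ⊢
    exact h
  -- neighbourhood of a left vertex
  have hNu : ∀ u ∈ N, sg * EE μ S.E2 V W / mass μ V ≤
      t / ((S.e:ℝ) * S.Uf u) * ∑ r' ∈ (W.filter (fun r' => (u, r') ∈ S.E2)).filter (fun r' => 0 < μ r'),
        wT S.G (S.Tr r') := by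
    intro u hu
    obtain ⟨huV, huE, huμ⟩ := hNmem u hu
    have hUu : (1:ℝ) ≤ S.Uf u := by exact_mod_cast (S.left _ huE).1
    refine (hdegV u huV huμ).trans ?_
    rw [← Finset.sum_filter_of_ne (p := fun r' => 0 < μ r') (fun r' _ hne => lt_of_le_of_ne (hμ r') (Ne.symm hne)),
      Finset.mul_sum]
    refine Finset.sum_le_sum fun r' hr' => ?_
    have h2 := (Finset.mem_filter.1 (Finset.mem_filter.1 hr').1).2
    refine mu_le_wT S.primeG (S.right _ h2).2 (hμψ r') (hψ r') (S.lamR (u, r') h2) (by positivity) ?_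
    have h := (hedge _ (S.sub h2)).2
    rw [S.cofU _ h2] at h
    push_cast at h ⊢
    exact h
  have hVmax : ∀ u ∈ N, ∀ r' ∈ (W.filter (fun r' => (u, r') ∈ S.E2)).filter (fun r' => 0 < μ r'),
      (u, r') ∈ S.E2 ∧ S.Vf r' ≤ Vm := by
    intro u hu r' hr'
    obtain ⟨h1, h2⟩ := Finset.mem_filter.1 hr'
    obtain ⟨h1W, h1E⟩ := Finset.mem_filter.1 h1
    exact ⟨h1E, hrmax r' (Finset.mem_filter.2 ⟨h1W, h2, u, (hNmem u hu).1, h1E, (hNmem u hu).2.2⟩)⟩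
  have hfinal : ∀ (u : ℕ) (X Y : ℝ), u ∈ N → 0 ≤ X → 0 ≤ Y →
      mass μ N ≤ 2 * (t / ((S.c:ℝ) * Vm) * X) →
      (∑ r' ∈ (W.filter (fun r' => (u, r') ∈ S.E2)).filter (fun r' => 0 < μ r'), wT S.G (S.Tr r')) ≤ Y →
      X * Y * gs ≤ Γ * (S.Uf u : ℝ) * Vm →
      sg ^ 2 * EE μ S.E2 V W ^ 2 * g ≤ 2 * t ^ 2 * Γ * (mass μ V * mass μ W) := by
    intro u X Y hu hX hY hmass hY' hXY
    have hUu : (1:ℝ) ≤ S.Uf u := by exact_mod_cast (S.left _ (hNmem u hu).2.1).1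
    have h1 := (hNu u hu).trans (mul_le_mul_of_nonneg_left hY' (div_nonneg ht (mul_nonneg he.le (by linarith))))
    have h2 := hNdeg.trans hmass
    have h := nbr_alg (mul_pos sg_pos hE).le hMV hMW hc he (by linarith) (by linarith) ht hg.le hY h1 h2 hXY
    rwa [sq, sq, mul_mul_mul_comm]
  have hall : ∀ u ∈ N, (∑ r' ∈ (W.filter (fun r' => (u, r') ∈ S.E2)).filter (fun r' => 0 < μ r'),
      wT S.G (S.Tr r')) ≤ (Vm:ℝ) := fun u hu => by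
    refine sum_wT_le hG1 _ Vm S.Vf S.Tr (fun r' hr' => ⟨(S.right _ (hVmax u hu r' hr').1).1, (hVmax u hu r' hr').2⟩)
      (fun r' hr' => (S.right _ (hVmax u hu r' hr').1).2) fun x hx y hy => ?_
    exact S.injR _ (hVmax u hu x hx).1 _ (hVmax u hu y hy).1
  have hwsum : ∀ (A : Finset ℕ) (M : ℕ), A ⊆ N → (∀ q ∈ A, S.Uf q ≤ M) →
      ∑ q ∈ A, wT S.G (S.Tl q) ≤ (M:ℝ) := fun A M hA hM => by
    refine sum_wT_le hG1 _ M S.Uf S.Tl (fun q hq => ⟨(S.left _ (hNmem q (hA hq)).2.1).1, hM q hq⟩)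
      (fun q hq => (S.left _ (hNmem q (hA hq)).2.1).2) fun x hx y hy => ?_
    exact S.injL _ (hNmem x (hA hx)).2.1 _ (hNmem y (hA hy)).2.1
  have hmassle : ∀ A : Finset ℕ, A ⊆ N → mass μ A ≤ t / ((S.c:ℝ) * Vm) * ∑ q ∈ A, wT S.G (S.Tl q) :=
    fun A hA => by
      rw [Finset.mul_sum]; exact Finset.sum_le_sum fun q hq => hμq q (hA hq)
  have hsplit : mass μ N = mass μ (N.filter (fun q => Typ r q)) + mass μ (N.filter (fun q => ¬ Typ r q)) :=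
    (Finset.sum_filter_add_sum_filter_not N _ _).symm
  rcases le_or_gt (mass μ (N.filter (fun q => Typ r q))) (mass μ (N.filter (fun q => ¬ Typ r q))) with hcase | hcase
  · obtain ⟨u, hu, humax⟩ := Finset.exists_max_image N S.Uf hNne
    set A := N.filter (fun q => ¬ Typ r q)
    have hA0 : 0 ≤ ∑ q ∈ A, wT S.G (S.Tl q) := Finset.sum_nonneg fun q _ => wT_nonneg hG1 _
    refine hfinal u _ _ hu hA0 (Nat.cast_nonneg Vm) ?_ (hall u hu) ?_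
    · have := hmassle A (Finset.filter_subset _ _); linarith
    · have := hA r (S.Uf u) A (fun q hq => ⟨(hNmem q (Finset.mem_filter.1 hq).1).2.1,
        humax q (Finset.mem_filter.1 hq).1, (Finset.mem_filter.1 hq).2⟩)
      calc _ = (∑ q ∈ A, wT S.G (S.Tl q)) * gs * Vm := mul_right_comm _ _ _
        _ ≤ Γ * (S.Uf u : ℝ) * Vm := mul_le_mul_of_nonneg_right this (Nat.cast_nonneg _)
  · set A := N.filter (fun q => Typ r q)
    have hAne : A.Nonempty := Finset.nonempty_of_sum_ne_zero (f := μ)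
      (ne_of_gt (lt_of_le_of_lt (mass_nonneg hμ _) hcase))
    obtain ⟨u, hu, humax⟩ := Finset.exists_max_image A S.Uf hAne
    have huN := (Finset.mem_filter.1 hu).1
    refine hfinal u (S.Uf u : ℝ) _ huN (Nat.cast_nonneg _) (Finset.sum_nonneg fun x _ => wT_nonneg hG1 _) ?_
      le_rfl ?_
    · have h1 := hmassle A (Finset.filter_subset _ _)
      have h2 := mul_le_mul_of_nonneg_left (hwsum A (S.Uf u) (Finset.filter_subset _ _) humax)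
        (by positivity : 0 ≤ t / ((S.c:ℝ) * Vm))
      linarith
    · have := hB r u _ (hNmem u huN).2.1 (Finset.mem_filter.1 hu).2 (hVmax u huN)
      calc _ = (S.Uf u : ℝ) * ((∑ r' ∈ (W.filter (fun r' => (u, r') ∈ S.E2)).filter (fun r' => 0 < μ r'),
            wT S.G (S.Tr r')) * gs) := by ring
        _ ≤ (S.Uf u : ℝ) * (Γ * Vm) := mul_le_mul_of_nonneg_left this (Nat.cast_nonneg _)
        _ = _ := by ring

/-- The gcd graph inequality. -/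
theorem gcd_graph : ∃ (P0 : ℕ) (C L : ℝ), 0 < C ∧ 1 ≤ L ∧
    ∀ (μ ψ : ℕ → ℝ) (E : Finset (ℕ × ℕ)) (Fc V0 W0 : Finset ℕ) (t Γ : ℝ)
      (Typ : Conf E → ℕ → ℕ → Prop),
      (∀ x, 0 ≤ μ x) → (∀ x, 0 ≤ ψ x) → (∀ x, μ x ≤ ψ x * lam x) → 0 ≤ t → 0 ≤ Γ →
      (∀ x ∈ V0 ∪ W0, 0 < x) →
      (∀ x ∈ E, (cv x.1 x.2 : ℝ) * ψ x.1 ≤ t ∧ (cu x.1 x.2 : ℝ) * ψ x.2 ≤ t) →
      (∀ p ∈ Fc, p.Prime) → (∀ p, p.Prime → p < P0 → p ∈ Fc) →
      (∀ (S : Conf E) (r : ℕ) (N : ℕ) (A : Finset ℕ),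
        (∀ q ∈ A, (q, r) ∈ S.E2 ∧ S.Uf q ≤ N ∧ ¬ Typ S r q) →
        (∑ q ∈ A, wT S.G (S.Tl q)) * (cgain Fc (S.c * S.e) / ((S.c : ℝ) * S.e)) ≤ Γ * N) →
      (∀ (S : Conf E) (r q : ℕ) (A : Finset ℕ), (q, r) ∈ S.E2 → Typ S r q →
        (∀ r' ∈ A, (q, r') ∈ S.E2 ∧ S.Vf r' ≤ S.Vf r) →
        (∑ r' ∈ A, wT S.G (S.Tr r')) * (cgain Fc (S.c * S.e) / ((S.c : ℝ) * S.e)) ≤ Γ * S.Vf r) →
      EE μ E V0 W0 ^ ee ≤ C * L ^ Fc.card * (Γ * t ^ 2) * (mass μ V0 * mass μ W0) ^ (ee - 1) := by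
  obtain ⟨P0, L, -, hL, hstate⟩ := max_state
  refine ⟨P0, 2 ^ ee * 2 / sg ^ 2, L, by have := sg_pos; positivity, hL,
    fun μ ψ E Fc V0 W0 t Γ Typ hμ hψ hμψ ht hΓ hpos hedge hFc hsmall hA hB => ?_⟩
  have hsg := sg_pos
  have hee : 0 < ee := by norm_num [ee]
  rcases eq_or_lt_of_le (EE_nonneg hμ E V0 W0) with h0 | h0
  · rw [← h0, Real.zero_rpow hee.ne']
    have := mass_nonneg hμ V0; have := mass_nonneg hμ W0
    positivity
  set PP := (V0 ∪ W0).biUnion Nat.primeFactors ∪ Fc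
  have hPP : ∀ p ∈ PP, p.Prime := fun p hp => by
    rcases Finset.mem_union.1 hp with h | h
    · obtain ⟨x, -, hx⟩ := Finset.mem_biUnion.1 h; exact Nat.prime_of_mem_primeFactors hx
    · exact hFc p h
  obtain ⟨V, W, bs, hV, hW, hE, hq, hforced, hgood⟩ := hstate μ E Fc PP V0 W0 hμ hPP
    (fun p hp hlt => hsmall p (hPP p hp) hlt) h0
  obtain ⟨hVn, hWn⟩ := nonempty_of_EE_pos hμ hE
  obtain ⟨S, hS, hgain⟩ := exists_conf (E := E) (Fc := Fc) (L := L) (bs := bs) hPP (fun x hx => by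
    have hx' : x ∈ V0 ∪ W0 := Finset.union_subset_union hV hW hx
    exact ⟨hpos x hx', fun p hp => Finset.mem_union_left _ (Finset.mem_biUnion.2 ⟨x, hx', hp⟩)⟩) hVn hWn
  rw [← hS] at hgood
  have hE2 : 0 < EE μ S.E2 V W := by linarith
  obtain ⟨V2, W2, -, -, hE3, hq2, hdV, hdW⟩ := prune hμ hE2
  have hprod := nbr_product S (Typ S) hμ hψ hμψ ht hedge hE3 hdV hdW hΓ (hA S) (hB S)
  obtain ⟨hM2V, hM2W⟩ := mass_pos_of_EE_pos hμ hE3
  obtain ⟨hMV, hMW⟩ := mass_pos_of_EE_pos hμ hE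
  set g := cgain Fc (S.c * S.e)
  have hg : 0 < g := Finset.prod_pos fun p hp => by
    have : (0:ℝ) < p := by exact_mod_cast Nat.pos_of_mem_primeFactors hp
    positivity
  -- bonus
  have hbon : ∏ p ∈ PP.filter (fun p => Fx p V ∧ Fx p W), bon Fc L p = L ^ Fc.card := by
    unfold bon
    rw [← Finset.prod_filter, Finset.prod_const]
    congr 2
    ext p
    simp only [Finset.mem_filter]
    exact ⟨fun h => h.2, fun h => ⟨⟨Finset.mem_union_right _ h, hforced p (Finset.mem_union_right _ h) h⟩, h⟩⟩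
  rw [hbon] at hgain
  have hqual2 : qual μ S.E2 V2 W2 ≤ EE μ S.E2 V2 W2 ^ 2 / (mass μ V2 * mass μ W2) := by
    set X := EE μ S.E2 V2 W2
    set M := mass μ V2 * mass μ W2
    have hM : 0 < M := mul_pos hM2V hM2W
    have hXM : X ≤ M := EE_le_mass hμ _ _ _
    unfold qual
    rw [show ee = 2 + (ee - 2) by ring, Real.rpow_add hE3, show 2 + (ee - 2) - 1 = 1 + (ee - 2) by ring,
      Real.rpow_add hM, Real.rpow_one, Real.rpow_two, ← div_mul_div_comm]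
    refine mul_le_of_le_one_right (by positivity) ?_
    rw [div_le_one (by positivity)]
    exact Real.rpow_le_rpow hE3.le hXM (by norm_num [ee])
  have hq3 : qual μ E V W ≤ 2 ^ ee * qual μ S.E2 V W := by
    unfold qual
    rw [← mul_div_assoc, ← Real.mul_rpow (by norm_num) (EE_nonneg hμ _ _ _)]
    exact div_le_div_of_nonneg_right (Real.rpow_le_rpow hE.le hgood hee.le) (by positivity)
  have hchain : qual μ E V0 W0 ≤ (2 ^ ee * 2 / sg ^ 2) * L ^ Fc.card * (Γ * t ^ 2) := by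
    have h1 : EE μ S.E2 V2 W2 ^ 2 / (mass μ V2 * mass μ W2) * g ≤ 2 * t ^ 2 * Γ / sg ^ 2 := by
      rw [div_mul_eq_mul_div, div_le_div_iff₀ (mul_pos hM2V hM2W) (by positivity)]
      linarith
    calc qual μ E V0 W0 ≤ qual μ E V W * (L ^ Fc.card * g) := by rw [← hgain]; exact hq
      _ ≤ 2 ^ ee * (EE μ S.E2 V2 W2 ^ 2 / (mass μ V2 * mass μ W2)) * (L ^ Fc.card * g) :=
          mul_le_mul_of_nonneg_right (hq3.trans (mul_le_mul_of_nonneg_left (hq2.trans hqual2) (by positivity)))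
            (by have : (0:ℝ) ≤ L := by linarith
                positivity)
      _ = 2 ^ ee * L ^ Fc.card * (EE μ S.E2 V2 W2 ^ 2 / (mass μ V2 * mass μ W2) * g) := by ring
      _ ≤ 2 ^ ee * L ^ Fc.card * (2 * t ^ 2 * Γ / sg ^ 2) :=
          mul_le_mul_of_nonneg_left h1 (by have : (0:ℝ) ≤ L := by linarith
                                           positivity)
      _ = _ := by ring
  obtain ⟨h0V, h0W⟩ := mass_pos_of_EE_pos hμ h0
  have := (div_le_iff₀ (by positivity)).1 hchain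
  exact this

end Vale.Agent.P028.Wide
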