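import Vale.Agent.P028.Wide.Structure

namespace Vale.Agent.P028.Wide

open Finset
open scoped Classical

/-- A product of prime powers over a fixed set of primes. -/
def pw (PP : Finset ℕ) (f : ℕ → ℕ) : ℕ := ∏ p ∈ PP, p ^ f p

lemma pw_pos {PP : Finset ℕ} (hPP : ∀ p ∈ PP, p.Prime) (f : ℕ → ℕ) : 0 < pw PP f :=
  Finset.prod_pos fun p hp => pow_pos (hPP p hp).pos _

lemma pw_mul (PP : Finset ℕ) (f g : ℕ → ℕ) : pw PP f * pw PP g = pw PP (fun p => f p + g p) := by
  unfold pw; rw [← Finset.prod_mul_distrib]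
  exact Finset.prod_congr rfl fun p _ => (pow_add _ _ _).symm

lemma factorization_pw {PP : Finset ℕ} (hPP : ∀ p ∈ PP, p.Prime) (f : ℕ → ℕ) (p : ℕ) :
    (pw PP f).factorization p = if p ∈ PP then f p else 0 := by
  induction PP using Finset.induction_on with
  | empty => simp [pw]
  | insert a s ha ih =>
    have hs : ∀ p ∈ s, p.Prime := fun p hp => hPP p (Finset.mem_insert_of_mem hp)
    have hap := hPP a (Finset.mem_insert_self _ _)
    have e : pw (insert a s) f = a ^ f a * pw s f := Finset.prod_insert ha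
    rw [e, Nat.factorization_mul (pow_ne_zero _ hap.ne_zero) (pw_pos hs f).ne', Finsupp.add_apply, ih hs,
      Nat.Prime.factorization_pow hap, Finsupp.single_apply]
    by_cases h : a = p
    · subst h; simp [ha]
    · simp [h, Ne.symm h]

lemma eq_pw {PP : Finset ℕ} (hPP : ∀ p ∈ PP, p.Prime) {n : ℕ} (hn : 0 < n)
    (hsub : n.primeFactors ⊆ PP) : n = pw PP (fun p => n.factorization p) := by
  refine Nat.eq_of_factorization_eq hn.ne' (pw_pos hPP _).ne' fun p => ?_
  rw [factorization_pw hPP]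
  by_cases h : p ∈ PP
  · rw [if_pos h]
  · rw [if_neg h]
    exact Finsupp.notMem_support_iff.1 fun h' => h (hsub (by simpa using h'))

/-- The gain attached to an integer. -/
noncomputable def cgain (Fc : Finset ℕ) (n : ℕ) : ℝ :=
  ∏ p ∈ n.primeFactors, ((p:ℝ) ^ n.factorization p) ^ th Fc p

lemma cgain_eq {PP : Finset ℕ} (hPP : ∀ p ∈ PP, p.Prime) (Fc : Finset ℕ) (f : ℕ → ℕ) :
    cgain Fc (pw PP f) = ∏ p ∈ PP, ((p:ℝ) ^ f p) ^ th Fc p := by
  have hsub : (pw PP f).primeFactors ⊆ PP := fun p hp => by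
    by_contra h
    have hpr := Nat.prime_of_mem_primeFactors hp
    have := Nat.Prime.factorization_pos_of_dvd hpr (pw_pos hPP f).ne' (Nat.dvd_of_mem_primeFactors hp)
    rw [factorization_pw hPP, if_neg h] at this
    omega
  unfold cgain
  rw [Finset.prod_subset hsub fun p hp hnot => ?_]
  · exact Finset.prod_congr rfl fun p hp => by rw [factorization_pw hPP, if_pos hp]
  · rw [Nat.factorization_eq_zero_of_not_dvd (fun hd => hnot (Nat.mem_primeFactors.2 ⟨hPP p hp, hd, (pw_pos hPP f).ne'⟩))]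
    simp

/-- The probability weight of a set of removed primes. -/
noncomputable def wT (G T : Finset ℕ) : ℝ :=
  (∏ p ∈ T, 1 / (p:ℝ)) * ∏ p ∈ G \ T, (1 - 1 / (p:ℝ))

lemma wT_nonneg {G : Finset ℕ} (hG : ∀ p ∈ G, 1 ≤ p) (T : Finset ℕ) : 0 ≤ wT G T := by
  refine mul_nonneg (Finset.prod_nonneg fun p _ => by positivity) (Finset.prod_nonneg fun p hp => ?_)
  have h1 : (1:ℝ) ≤ p := by exact_mod_cast hG p (Finset.mem_sdiff.1 hp).1
  have : 1 / (p:ℝ) ≤ 1 := by rw [div_le_one (by linarith)]; exact h1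
  linarith

lemma sum_wT (G : Finset ℕ) : ∑ T ∈ G.powerset, wT G T = 1 := by
  unfold wT
  rw [← Finset.prod_add (fun p : ℕ => 1 / (p:ℝ)) (fun p : ℕ => 1 - 1 / (p:ℝ)) G]
  simp

lemma sum_wT_le {G : Finset ℕ} (hG : ∀ p ∈ G, 1 ≤ p) (A : Finset ℕ) (N : ℕ) (U : ℕ → ℕ)
    (T : ℕ → Finset ℕ) (hU : ∀ x ∈ A, 1 ≤ U x ∧ U x ≤ N) (hT : ∀ x ∈ A, T x ⊆ G)
    (hinj : ∀ x ∈ A, ∀ y ∈ A, U x = U y → T x = T y → x = y) :
    ∑ x ∈ A, wT G (T x) ≤ N := by
  calc ∑ x ∈ A, wT G (T x) = ∑ z ∈ A.image (fun x => (U x, T x)), wT G z.2 := by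
        rw [Finset.sum_image fun x hx y hy e => hinj x hx y hy (Prod.mk.injEq _ _ _ _ ▸ e).1
          (Prod.mk.injEq _ _ _ _ ▸ e).2]
    _ ≤ ∑ z ∈ Finset.Icc 1 N ×ˢ G.powerset, wT G z.2 := by
        refine Finset.sum_le_sum_of_subset_of_nonneg (fun z hz => ?_) (fun z _ _ => wT_nonneg hG _)
        obtain ⟨x, hx, rfl⟩ := Finset.mem_image.1 hz
        exact Finset.mem_product.2 ⟨Finset.mem_Icc.2 (hU x hx), Finset.mem_powerset.2 (hT x hx)⟩
    _ = _ := by rw [Finset.sum_product]; simp [sum_wT]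

/-- The data carried by a structured edge set. -/
structure Conf (E : Finset (ℕ × ℕ)) where
  E2 : Finset (ℕ × ℕ)
  sub : E2 ⊆ E
  G : Finset ℕ
  primeG : ∀ p ∈ G, p.Prime
  c : ℕ
  e : ℕ
  hc : 0 < c
  he : 0 < e
  Uf : ℕ → ℕ
  Vf : ℕ → ℕ
  Tl : ℕ → Finset ℕ
  Tr : ℕ → Finset ℕ
  left : ∀ x ∈ E2, 1 ≤ Uf x.1 ∧ Tl x.1 ⊆ G
  right : ∀ x ∈ E2, 1 ≤ Vf x.2 ∧ Tr x.2 ⊆ G
  injL : ∀ x ∈ E2, ∀ y ∈ E2, Uf x.1 = Uf y.1 → Tl x.1 = Tl y.1 → x.1 = y.1
  injR : ∀ x ∈ E2, ∀ y ∈ E2, Vf x.2 = Vf y.2 → Tr x.2 = Tr y.2 → x.2 = y.2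
  lamL : ∀ x ∈ E2, lam x.1 ≤ ∏ p ∈ G \ Tl x.1, (1 - 1 / (p:ℝ))
  lamR : ∀ x ∈ E2, lam x.2 ≤ ∏ p ∈ G \ Tr x.2, (1 - 1 / (p:ℝ))
  cofU : ∀ x ∈ E2, cu x.1 x.2 = e * Uf x.1 * ∏ p ∈ Tr x.2, p
  cofV : ∀ x ∈ E2, cv x.1 x.2 = c * Vf x.2 * ∏ p ∈ Tl x.1, p
  dvdG : ∀ x ∈ E2, (∏ p ∈ G, p) ∣ x.1 * ∏ p ∈ Tl x.1, p

variable {μ : ℕ → ℝ} {E : Finset (ℕ × ℕ)} {Fc PP : Finset ℕ} {L : ℝ}

/-- A maximal state gives a configuration. -/
lemma exists_conf {V W : Finset ℕ} {bs : ℕ → ℕ} (hPP : ∀ p ∈ PP, p.Prime)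
    (hpf : ∀ x ∈ V ∪ W, 0 < x ∧ x.primeFactors ⊆ PP) (hVn : V.Nonempty) (hWn : W.Nonempty) :
    ∃ S : Conf E, S.E2 = goodEdges E PP V W bs ∧
      gain Fc L PP V W = (∏ p ∈ PP.filter (fun p => Fx p V ∧ Fx p W), bon Fc L p) * cgain Fc (S.c * S.e) := by
  obtain ⟨v0, hv0⟩ := hVn
  obtain ⟨w0, hw0⟩ := hWn
  set fixd : ℕ → Prop := fun p => Fx p V ∧ Fx p W
  set ef := fun p => if fixd p then exV p V - exV p W else 0
  set cf := fun p => if fixd p then exV p W - exV p V else 0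
  set up := fun (q p : ℕ) => if fixd p then 0 else q.factorization p - bs p
  set dn := fun (q p : ℕ) => if fixd p then 0 else bs p - q.factorization p
  set G := PP.filter (fun p => ¬ fixd p ∧ 1 ≤ bs p)
  set T := fun q : ℕ => G.filter (fun p => q.factorization p < bs p)
  have hmem : ∀ x ∈ goodEdges E PP V W bs, x.1 ∈ V ∧ x.2 ∈ W ∧
      ∀ p ∈ PP, ¬ fixd p → AllowedCell (bs p) (x.1.factorization p) (x.2.factorization p) :=
    fun x hx => (Finset.mem_filter.1 hx).2
  have hnear : ∀ x ∈ goodEdges E PP V W bs, ∀ p ∈ PP, ¬ fixd p →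
      (x.1.factorization p ≤ bs p + 1 ∧ bs p ≤ x.1.factorization p + 1) ∧
      (x.2.factorization p ≤ bs p + 1 ∧ bs p ≤ x.2.factorization p + 1) := by
    intro x hx p hp hf
    have h := (hmem x hx).2.2 p hp hf
    simp only [AllowedCell, Nat.dist] at h
    omega
  have hprod : ∀ q : ℕ, (∀ p ∈ PP, ¬ fixd p → bs p ≤ q.factorization p + 1) →
      ∏ p ∈ T q, p = pw PP (dn q) := by
    intro q hq
    simp only [T, G, Finset.filter_filter, Finset.prod_filter, pw]
    refine Finset.prod_congr rfl fun p hp => ?_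
    by_cases hf : fixd p
    · simp [dn, hf]
    · have := hq p hp hf
      simp only [dn, hf, not_false_eq_true, true_and, if_false]
      by_cases h2 : 1 ≤ bs p ∧ q.factorization p < bs p
      · rw [if_pos h2, show bs p - q.factorization p = 1 by omega, pow_one]
      · rw [if_neg h2, show bs p - q.factorization p = 0 by omega, pow_zero]
  have hfac : ∀ x ∈ V ∪ W, x = pw PP (fun p => x.factorization p) := fun x hx =>
    eq_pw hPP (hpf x hx).1 (hpf x hx).2
  have hrecover : ∀ q : ℕ, ∀ q' : ℕ, q ∈ V ∪ W → q' ∈ V ∪ W →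
      (∀ p ∈ PP, fixd p → q.factorization p = q'.factorization p) →
      (∀ p ∈ PP, ¬ fixd p → (q.factorization p ≤ bs p + 1 ∧ bs p ≤ q.factorization p + 1)) →
      (∀ p ∈ PP, ¬ fixd p → (q'.factorization p ≤ bs p + 1 ∧ bs p ≤ q'.factorization p + 1)) →
      pw PP (up q) = pw PP (up q') → T q = T q' → q = q' := by
    intro q q' hq hq' hfix hn hn' hU hTT
    rw [hfac q hq, hfac q' hq']
    refine Finset.prod_congr rfl fun p hp => ?_
    congr 1
    by_cases hf : fixd p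
    · exact hfix p hp hf
    · have e := congrArg (fun n : ℕ => n.factorization p) hU
      simp only [factorization_pw hPP, if_pos hp, up, if_neg hf] at e
      have h1 := hn p hp hf
      have h2 := hn' p hp hf
      have h3 : (p ∈ T q ↔ p ∈ T q') := by rw [hTT]
      simp only [T, G, Finset.mem_filter, hp, hf, not_false_eq_true, true_and] at h3
      show q.factorization p = q'.factorization p
      omega
  have hlam : ∀ q ∈ V ∪ W, (∀ p ∈ PP, ¬ fixd p → bs p ≤ q.factorization p + 1) →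
      lam q ≤ ∏ p ∈ G \ T q, (1 - 1 / (p:ℝ)) := by
    intro q hq _
    rw [lam_eq_prod (hpf q hq).1]
    have hsub : G \ T q ⊆ q.primeFactors := fun p hp => by
      obtain ⟨h1, h2⟩ := Finset.mem_sdiff.1 hp
      obtain ⟨hpP, -, hb⟩ := Finset.mem_filter.1 h1
      have : bs p ≤ q.factorization p := not_lt.1 fun h => h2 (Finset.mem_filter.2 ⟨h1, h⟩)
      rw [← Nat.support_factorization, Finsupp.mem_support_iff]
      omega
    have hb : ∀ p ∈ q.primeFactors, 0 ≤ 1 - 1 / (p:ℝ) ∧ 1 - 1 / (p:ℝ) ≤ 1 := fun p hp => by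
      have h2 : (1:ℝ) ≤ p := by exact_mod_cast (Nat.prime_of_mem_primeFactors hp).one_le
      have : 1 / (p:ℝ) ≤ 1 := by rw [div_le_one (by linarith)]; exact h2
      have : 0 ≤ 1 / (p:ℝ) := by positivity
      constructor <;> linarith
    rw [← Finset.prod_sdiff hsub]
    refine mul_le_of_le_one_left (Finset.prod_nonneg fun p hp => (hb p (hsub hp)).1) ?_
    exact Finset.prod_le_one (fun p hp => (hb p (Finset.mem_sdiff.1 hp).1).1)
      fun p hp => (hb p (Finset.mem_sdiff.1 hp).1).2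
  have hcof : ∀ x ∈ goodEdges E PP V W bs,
      cu x.1 x.2 = pw PP ef * pw PP (up x.1) * ∏ p ∈ T x.2, p ∧
      cv x.1 x.2 = pw PP cf * pw PP (up x.2) * ∏ p ∈ T x.1, p := by
    intro x hx
    obtain ⟨hx1, hx2, hal⟩ := hmem x hx
    have hn := hnear x hx
    rw [hprod x.2 fun p hp hf => (hn p hp hf).2.2, hprod x.1 fun p hp hf => (hn p hp hf).1.2,
      pw_mul, pw_mul, pw_mul, pw_mul]
    have h1 := hpf x.1 (Finset.mem_union_left _ hx1)
    have h2 := hpf x.2 (Finset.mem_union_right _ hx2)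
    have hgpos : 0 < Nat.gcd x.1 x.2 := Nat.gcd_pos_of_pos_left _ h1.1
    constructor
    · have hd := Nat.gcd_dvd_left x.1 x.2
      have hpos : 0 < cu x.1 x.2 := Nat.div_pos (Nat.le_of_dvd h1.1 hd) hgpos
      refine Nat.eq_of_factorization_eq hpos.ne' (pw_pos hPP _).ne' fun p => ?_
      rw [cu, Nat.factorization_div hd, Finsupp.tsub_apply, Nat.factorization_gcd h1.1.ne' h2.1.ne',
        Finsupp.inf_apply, factorization_pw hPP]
      by_cases hp : p ∈ PP
      swap
      · rw [if_neg hp, Finsupp.notMem_support_iff.1 fun h => hp (h1.2 (by simpa using h))]; simp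
      rw [if_pos hp]
      by_cases hf : fixd p
      · simp only [ef, up, dn, if_pos hf, exV_eq hf.1 hx1, exV_eq hf.2 hx2]
        omega
      · have h := hal p hp hf
        simp only [AllowedCell, Nat.dist] at h
        simp only [ef, up, dn, if_neg hf]
        omega
    · have hd := Nat.gcd_dvd_right x.1 x.2
      have hpos : 0 < cv x.1 x.2 := Nat.div_pos (Nat.le_of_dvd h2.1 hd) hgpos
      refine Nat.eq_of_factorization_eq hpos.ne' (pw_pos hPP _).ne' fun p => ?_
      rw [cv, Nat.factorization_div hd, Finsupp.tsub_apply, Nat.factorization_gcd h1.1.ne' h2.1.ne',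
        Finsupp.inf_apply, factorization_pw hPP]
      by_cases hp : p ∈ PP
      swap
      · rw [if_neg hp, Finsupp.notMem_support_iff.1 fun h => hp (h2.2 (by simpa using h))]; simp
      rw [if_pos hp]
      by_cases hf : fixd p
      · simp only [cf, up, dn, if_pos hf, exV_eq hf.1 hx1, exV_eq hf.2 hx2]
        omega
      · have h := hal p hp hf
        simp only [AllowedCell, Nat.dist] at h
        simp only [cf, up, dn, if_neg hf]
        omega
  refine ⟨{
    E2 := goodEdges E PP V W bs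
    sub := Finset.filter_subset _ _
    G := G
    primeG := fun p hp => hPP p (Finset.mem_filter.1 hp).1
    c := pw PP cf
    e := pw PP ef
    hc := pw_pos hPP _
    he := pw_pos hPP _
    Uf := fun q => pw PP (up q)
    Vf := fun q => pw PP (up q)
    Tl := T
    Tr := T
    left := fun x _ => ⟨pw_pos hPP _, Finset.filter_subset _ _⟩
    right := fun x _ => ⟨pw_pos hPP _, Finset.filter_subset _ _⟩
    injL := fun x hx y hy => hrecover x.1 y.1 (Finset.mem_union_left _ (hmem x hx).1)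
      (Finset.mem_union_left _ (hmem y hy).1) (fun p _ hf => hf.1 _ (hmem x hx).1 _ (hmem y hy).1)
      (fun p hp hf => (hnear x hx p hp hf).1) (fun p hp hf => (hnear y hy p hp hf).1)
    injR := fun x hx y hy => hrecover x.2 y.2 (Finset.mem_union_right _ (hmem x hx).2.1)
      (Finset.mem_union_right _ (hmem y hy).2.1) (fun p _ hf => hf.2 _ (hmem x hx).2.1 _ (hmem y hy).2.1)
      (fun p hp hf => (hnear x hx p hp hf).2) (fun p hp hf => (hnear y hy p hp hf).2)
    lamL := fun x hx => hlam x.1 (Finset.mem_union_left _ (hmem x hx).1)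
      (fun p hp hf => (hnear x hx p hp hf).1.2)
    lamR := fun x hx => hlam x.2 (Finset.mem_union_right _ (hmem x hx).2.1)
      (fun p hp hf => (hnear x hx p hp hf).2.2)
    cofU := fun x hx => (hcof x hx).1
    cofV := fun x hx => (hcof x hx).2
    dvdG := ?_ }, rfl, ?_⟩
  · intro x hx
    have hn := hnear x hx
    rw [hprod x.1 fun p hp hf => (hn p hp hf).1.2]
    conv_rhs => arg 1; rw [hfac x.1 (Finset.mem_union_left _ (hmem x hx).1)]
    rw [pw_mul]
    refine dvd_trans ?_ (Finset.prod_dvd_prod_of_subset G PP _ (Finset.filter_subset _ _))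
    refine Finset.prod_dvd_prod_of_dvd _ _ fun p hp => dvd_pow_self p ?_
    obtain ⟨hpP, hf, hb⟩ := Finset.mem_filter.1 hp
    simp only [dn, if_neg hf]
    omega
  · have hd : pw PP cf * pw PP ef
        = pw PP (fun p => if fixd p then Nat.dist (exV p V) (exV p W) else 0) := by
      rw [pw_mul]
      refine Finset.prod_congr rfl fun p _ => ?_
      congr 1
      simp only [cf, ef, Nat.dist]
      split_ifs <;> omega
    simp only [hd, cgain_eq hPP]
    unfold gain
    rw [Finset.prod_filter, ← Finset.prod_mul_distrib]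
    refine Finset.prod_congr rfl fun p _ => ?_
    simp only [fixd]
    split_ifs <;> simp

end Vale.Agent.P028.Wide
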