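import Vale.Agent.P028.Count
import Vale.Agent.P028.Tail
import Vale.Agent.P028.Wide.Config

namespace Vale.Agent.P028.Wide

open Finset
open scoped Classical

/-- Number of multiples in one class, in an interval. -/
lemma class_count_near (u v : ℤ) (huv : u ≤ v) (T : Finset ℕ) (hT : ∀ p ∈ T, p.Prime) (c : ℕ → ℤ) :
    |((((Finset.Ico u v).filter (fun a => ∀ p ∈ T, (p:ℤ) ∣ a - c p)).card : ℕ) : ℝ)
      - ((v:ℝ) - u) * (1 / ((∏ p ∈ T, p : ℕ):ℝ))| ≤ 1 := by
  obtain ⟨z, hz⟩ := exists_crt_class T hT c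
  set D := ∏ p ∈ T, p with hD
  have hD0 : 0 < D := Finset.prod_pos fun p hp => (hT p hp).pos
  have hDz : (0:ℤ) < D := by exact_mod_cast hD0
  have hf : (Finset.Ico u v).filter (fun a => ∀ p ∈ T, (p:ℤ) ∣ a - c p)
      = (Finset.Ico u v).filter (fun a => a ≡ z [ZMOD (D:ℤ)]) := by
    refine Finset.filter_congr fun a _ => ?_
    rw [← hz a, Int.modEq_comm, Int.modEq_iff_dvd]
  rw [hf]
  have hc := Int.Ico_filter_modEq_card u v (v := z) hDz
  set n := ((Finset.Ico u v).filter (fun a => a ≡ z [ZMOD (D:ℤ)])).card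
  have hmax : 0 ≤ ⌈((v - z : ℤ):ℚ) / ((D:ℤ):ℚ)⌉ - ⌈((u - z : ℤ):ℚ) / ((D:ℤ):ℚ)⌉ := by
    have : ((u - z : ℤ):ℚ) / ((D:ℤ):ℚ) ≤ ((v - z : ℤ):ℚ) / ((D:ℤ):ℚ) :=
      div_le_div_of_nonneg_right (by exact_mod_cast (by omega : u - z ≤ v - z)) (by positivity)
    have := Int.ceil_le_ceil this
    omega
  push_cast at hc hmax
  rw [max_eq_left hmax] at hc
  set x := ((v:ℚ) - z) / (D:ℚ)
  set y := ((u:ℚ) - z) / (D:ℚ)
  have hxy : ((v:ℝ) - u) * (1 / (D:ℝ)) = ((x - y : ℚ):ℝ) := by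
    simp only [x, y]; push_cast; ring
  have hn : ((n:ℕ):ℝ) = ((((⌈x⌉ - ⌈y⌉ : ℤ)) : ℚ):ℝ) := by
    rw [← hc]; push_cast; rfl
  rw [hxy, hn, ← Rat.cast_sub, ← Rat.cast_abs, ← Rat.cast_one (α := ℝ), Rat.cast_le, abs_le]
  push_cast
  have := Int.le_ceil x; have := Int.ceil_lt_add_one x
  have := Int.le_ceil y; have := Int.ceil_lt_add_one y
  constructor <;> linarith

/-- Summing a product of periodic weights over an interval. -/
lemma interval_weight (u v : ℤ) (huv : u ≤ v) (P : Finset ℕ) (hP : ∀ p ∈ P, p.Prime) (c : ℕ → ℤ)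
    (a : ℕ → ℝ) :
    ∑ k ∈ Finset.Ico u v, ∏ p ∈ P, (1 + if (p:ℤ) ∣ k - c p then a p else 0)
      ≤ ((v:ℝ) - u) * ∏ p ∈ P, (1 + a p / p) + ∏ p ∈ P, (1 + |a p|) := by
  simp_rw [Finset.prod_one_add]
  rw [Finset.sum_comm, Finset.mul_sum, ← Finset.sum_add_distrib]
  refine Finset.sum_le_sum fun T hT => ?_
  have hTP := Finset.mem_powerset.1 hT
  have e : ∀ k : ℤ, (∏ p ∈ T, if (p:ℤ) ∣ k - c p then a p else 0)
      = if (∀ p ∈ T, (p:ℤ) ∣ k - c p) then ∏ p ∈ T, a p else 0 := fun k => by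
    by_cases h : ∀ p ∈ T, (p:ℤ) ∣ k - c p
    · rw [if_pos h]; exact Finset.prod_congr rfl fun p hp => if_pos (h p hp)
    · rw [if_neg h]
      push Not at h
      obtain ⟨p, hp, hpk⟩ := h
      exact Finset.prod_eq_zero hp (if_neg hpk)
  simp_rw [e]
  rw [← Finset.sum_filter, Finset.sum_const, nsmul_eq_mul]
  have h := class_count_near u v huv T (fun p hp => hP p (hTP hp)) c
  set n := ((((Finset.Ico u v).filter (fun k => ∀ p ∈ T, (p:ℤ) ∣ k - c p)).card : ℕ) : ℝ)
  rw [Finset.prod_div_distrib, ← Finset.abs_prod]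
  push_cast at h
  set A := ∏ p ∈ T, a p
  set D := ∏ p ∈ T, (p:ℝ)
  have h1 : (n - ((v:ℝ) - u) * (1 / D)) * A ≤ 1 * |A| := by
    refine (le_abs_self _).trans ?_
    rw [abs_mul]
    exact mul_le_mul_of_nonneg_right h (abs_nonneg _)
  have e2 : ((v:ℝ) - u) * (A / D) = ((v:ℝ) - u) * (1 / D) * A := by ring
  rw [e2]
  linarith

/-- Harmonic bound for a finite set. -/
lemma sum_inv_le {P : Finset ℕ} {N : ℕ} (hN : 1 ≤ N) (hP : ∀ p ∈ P, 1 ≤ p ∧ p ≤ N) :
    ∑ p ∈ P, 1 / (p:ℝ) ≤ 1 + Real.log N := by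
  have h := sum_log_div_le N hN 0 P hP
  simpa using h

lemma sum_inv_Ioc {m M : ℕ} (hm : 1 ≤ m) (hmM : m ≤ M) :
    ∑ n ∈ Finset.Ioc m M, 1 / (n:ℝ) ≤ Real.log M - Real.log m := by
  induction M, hmM using Nat.le_induction with
  | base => simp
  | succ M hM ih =>
    rw [Finset.sum_Ioc_succ_top hM]
    have h0 : (0:ℝ) < M := by exact_mod_cast (by omega : 0 < M)
    have h1 := Real.one_sub_inv_le_log_of_pos (x := ((M + 1 : ℕ):ℝ) / M) (by positivity)
    rw [Real.log_div (by positivity) h0.ne', inv_div] at h1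
    have e : 1 - (M:ℝ) / ((M + 1 : ℕ):ℝ) = 1 / ((M + 1 : ℕ):ℝ) := by
      push_cast; field_simp; ring
    linarith

lemma prod_inv_le_exp (P : Finset ℕ) (hP : ∀ p ∈ P, 2 ≤ p) :
    (∏ p ∈ P, (1 - 1 / (p:ℝ)))⁻¹ ≤ Real.exp (2 * ∑ p ∈ P, 1 / (p:ℝ)) := by
  have h := prod_one_sub_ge P hP
  rw [Real.exp_neg] at h
  exact inv_le_of_inv_le₀ (Real.exp_pos _) h

lemma prod_inv_le_card (P : Finset ℕ) (hP : ∀ p ∈ P, 2 ≤ p) :
    (∏ p ∈ P, (1 - 1 / (p:ℝ)))⁻¹ ≤ (P.card : ℝ) + 1 := by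
  have h := one_div_card_succ_le_prod P hP
  rw [one_div] at h
  exact inv_le_of_inv_le₀ (by positivity) h

/-- The weight of the primes above `W` in a set. -/
noncomputable def xw (W : ℝ) (P : Finset ℕ) : ℝ :=
  ∑ p ∈ P.filter (fun p : ℕ => W < p), 1 / (p:ℝ)

lemma xw_nonneg (W : ℝ) (P : Finset ℕ) : 0 ≤ xw W P :=
  Finset.sum_nonneg fun p _ => by positivity

lemma xw_union_le (W : ℝ) (A B : Finset ℕ) : xw W (A ∪ B) ≤ xw W A + xw W B := by
  unfold xw
  rw [Finset.filter_union, ← Finset.sum_union_inter]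
  exact le_add_of_nonneg_right (Finset.sum_nonneg fun p _ => by positivity)

lemma xw_mono (W : ℝ) {A B : Finset ℕ} (h : A ⊆ B) : xw W A ≤ xw W B :=
  Finset.sum_le_sum_of_subset_of_nonneg (Finset.filter_subset_filter _ h) fun p _ _ => by positivity

lemma xw_anti {W W' : ℝ} (h : W ≤ W') (A : Finset ℕ) : xw W' A ≤ xw W A := by
  refine Finset.sum_le_sum_of_subset_of_nonneg (fun p hp => ?_) fun p _ _ => by positivity
  simp only [Finset.mem_filter] at hp ⊢
  exact ⟨hp.1, lt_of_le_of_lt h hp.2⟩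

lemma xw_le_card {W : ℝ} (hW : 0 < W) (A : Finset ℕ) : xw W A ≤ (A.card : ℝ) / W := by
  refine (Finset.sum_le_card_nsmul _ _ (1 / W) fun p hp => ?_).trans ?_
  · exact one_div_le_one_div_of_le hW (Finset.mem_filter.1 hp).2.le
  · rw [nsmul_eq_mul, mul_one_div]
    exact div_le_div_of_nonneg_right (Nat.cast_le.2 (Finset.card_filter_le _ _)) hW.le

lemma sum_sq_inv_le {W : ℝ} (hW : 1 ≤ W) (A : Finset ℕ) :
    ∑ p ∈ A.filter (fun p : ℕ => W < p), 1 / (p:ℝ) ^ 2 ≤ 2 / W := by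
  set n := ⌊W⌋₊ + 1
  have hn : 2 ≤ n := by have : 1 ≤ ⌊W⌋₊ := Nat.le_floor (by exact_mod_cast hW); omega
  refine (sum_inv_sq_ge hn _ fun p hp => ?_).trans ?_
  · exact Nat.floor_lt (by linarith) |>.2 (Finset.mem_filter.1 hp).2
  · refine div_le_div_of_nonneg_left (by norm_num) (by linarith) ?_
    have := Nat.lt_floor_add_one W
    simp only [n]; push_cast; linarith

lemma prod_moment_le {W : ℝ} (hW : 1 ≤ W) (A : Finset ℕ) :
    ∏ p ∈ A, (1 + (if W < p then Real.exp (W / p) - 1 else 0) / (p:ℝ)) ≤ Real.exp 4 := by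
  refine le_trans (Finset.prod_le_prod (fun p _ => ?_)
    (g := fun p : ℕ => Real.exp (if W < p then 2 * W / (p:ℝ) ^ 2 else 0)) fun p _ => ?_) ?_
  · split_ifs
    · have : 1 ≤ Real.exp (W / p) := Real.one_le_exp (by positivity)
      have : 0 ≤ (Real.exp (W / p) - 1) / (p:ℝ) := div_nonneg (by linarith) (Nat.cast_nonneg _)
      linarith
    · simp
  · split_ifs with h
    · have hp : (0:ℝ) < p := lt_trans (by linarith) h
      have h1 : |W / (p:ℝ)| ≤ 1 := by
        rw [abs_of_nonneg (by positivity), div_le_one hp]; exact h.le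
      have h2 := (le_abs_self _).trans (Real.abs_exp_sub_one_le h1)
      rw [abs_of_nonneg (by positivity : 0 ≤ W / (p:ℝ))] at h2
      refine le_trans ?_ (Real.add_one_le_exp _)
      have : (Real.exp (W / p) - 1) / (p:ℝ) ≤ 2 * W / (p:ℝ) ^ 2 := by
        rw [show 2 * W / (p:ℝ) ^ 2 = 2 * (W / p) / p by ring]
        exact div_le_div_of_nonneg_right h2 hp.le
      linarith
    · simp
  · rw [← Real.exp_sum, ← Finset.sum_filter]
    refine Real.exp_le_exp.2 ?_
    calc ∑ p ∈ A.filter (fun p : ℕ => W < p), 2 * W / (p:ℝ) ^ 2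
        = 2 * W * ∑ p ∈ A.filter (fun p : ℕ => W < p), 1 / (p:ℝ) ^ 2 := by
          rw [Finset.mul_sum]; simp [div_eq_mul_inv]
      _ ≤ 2 * W * (2 / W) := mul_le_mul_of_nonneg_left (sum_sq_inv_le hW A) (by linarith)
      _ = 4 := by field_simp; norm_num

lemma exp_xw (W : ℝ) (P : Finset ℕ) :
    Real.exp (W * xw W P) = ∏ p ∈ P, (1 + if W < p then Real.exp (W / p) - 1 else 0) := by
  unfold xw
  rw [Finset.mul_sum, Real.exp_sum, Finset.prod_filter]
  refine Finset.prod_congr rfl fun p _ => ?_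
  split_ifs <;> simp [← div_eq_mul_inv]

lemma markov_exp {ι : Type*} (s : Finset ι) (w X : ι → ℝ) (hw : ∀ i ∈ s, 0 ≤ w i) (W a M : ℝ)
    (hW : 0 ≤ W) (hX : ∀ i ∈ s, a ≤ X i) (hM : ∑ i ∈ s, w i * Real.exp (W * X i) ≤ M) :
    ∑ i ∈ s, w i ≤ M * Real.exp (-(W * a)) := by
  rw [Real.exp_neg, ← div_eq_mul_inv, le_div_iff₀ (Real.exp_pos _), Finset.sum_mul]
  refine le_trans (Finset.sum_le_sum fun i hi => ?_) hM
  exact mul_le_mul_of_nonneg_left (Real.exp_le_exp.2 (mul_le_mul_of_nonneg_left (hX i hi) hW)) (hw i hi)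

/-- A random subset rarely carries much weight above `W`. -/
lemma wT_xw_tail {G : Finset ℕ} (hG : ∀ p ∈ G, 1 ≤ p) {W : ℝ} (hW : 1 ≤ W) (a : ℝ) :
    ∑ T ∈ G.powerset.filter (fun T => a ≤ xw W T), wT G T ≤ Real.exp 4 * Real.exp (-(W * a)) := by
  refine markov_exp _ _ (fun T => xw W T) (fun T _ => wT_nonneg hG T) W a _ (by linarith)
    (fun T hT => (Finset.mem_filter.1 hT).2) ?_
  refine (Finset.sum_le_sum_of_subset_of_nonneg (Finset.filter_subset _ _)
    fun T _ _ => mul_nonneg (wT_nonneg hG T) (Real.exp_pos _).le).trans ?_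
  refine le_trans (le_of_eq ?_) (prod_moment_le hW G)
  have e : ∀ p : ℕ, 1 + (if W < p then Real.exp (W / p) - 1 else 0) / (p:ℝ)
      = 1 / (p:ℝ) * (1 + if W < p then Real.exp (W / p) - 1 else 0) + (1 - 1 / (p:ℝ)) := fun p => by ring
  simp_rw [e]
  rw [Finset.prod_add]
  refine Finset.sum_congr rfl fun T _ => ?_
  rw [exp_xw, wT, Finset.prod_mul_distrib]
  ring

/-- Few integers carry much weight above `W`. -/
lemma card_xw_tail {W : ℝ} (hW : 1 ≤ W) (a : ℝ) (N : ℕ) :
    (((Finset.Icc 1 N).filter (fun n => a ≤ xw W n.primeFactors)).card : ℝ)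
      ≤ (N:ℝ) * (Real.exp 4 * Real.exp (-(W * a))) := by
  set P := (Finset.Icc 1 N).filter Nat.Prime with hP
  rw [← mul_assoc, Finset.card_eq_sum_ones, Nat.cast_sum, Nat.cast_one]
  refine markov_exp _ (fun _ => (1:ℝ)) (fun n => xw W n.primeFactors) (fun _ _ => zero_le_one) W a _
    (by linarith) (fun n hn => (Finset.mem_filter.1 hn).2) ?_
  refine (Finset.sum_le_sum_of_subset_of_nonneg (Finset.filter_subset _ _)
    fun n _ _ => mul_nonneg zero_le_one (Real.exp_pos _).le).trans ?_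
  have h := sum_mult_le P (fun p hp => (Finset.mem_filter.1 hp).2)
    (fun p => if W < p then Real.exp (W / p) - 1 else 0) (fun p _ => by
      split_ifs
      · have : 1 ≤ Real.exp (W / p) := Real.one_le_exp (by positivity)
        linarith
      · exact le_rfl) N
  refine le_trans (le_of_eq (Finset.sum_congr rfl fun n hn => ?_))
    (h.trans (mul_le_mul_of_nonneg_left (prod_moment_le hW P) (Nat.cast_nonneg _)))
  obtain ⟨h1, h2⟩ := Finset.mem_Icc.1 hn
  rw [one_mul, exp_xw]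
  have hsub : n.primeFactors = P.filter (fun p => p ∣ n) := by
    ext p
    simp only [P, Finset.mem_filter, Finset.mem_Icc, Nat.mem_primeFactors]
    constructor
    · rintro ⟨hp, hd, -⟩
      exact ⟨⟨⟨hp.one_le, (Nat.le_of_dvd h1 hd).trans h2⟩, hp⟩, hd⟩
    · rintro ⟨⟨-, hp⟩, hd⟩
      exact ⟨hp, hd, by omega⟩
  rw [hsub, Finset.prod_filter]
  refine Finset.prod_congr rfl fun p _ => ?_
  split_ifs <;> simp

lemma sum_inv_sqrt_le (G : Finset ℕ) (hG : ∀ p ∈ G, 1 ≤ p) :
    ∑ p ∈ G, 1 / Real.sqrt p ≤ 2 * Real.sqrt G.card := by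
  induction G using Finset.induction_on_max with
  | empty => simp
  | insert a s ha ih =>
    have hnot : a ∉ s := fun h => lt_irrefl _ (ha a h)
    rw [Finset.sum_insert hnot, Finset.card_insert_of_notMem hnot]
    have ih' := ih fun p hp => hG p (Finset.mem_insert_of_mem hp)
    have hsub : s ⊆ Finset.Ico 1 a := fun p hp =>
      Finset.mem_Ico.2 ⟨hG p (Finset.mem_insert_of_mem hp), ha p hp⟩
    have hc := Finset.card_le_card hsub
    rw [Nat.card_Ico] at hc
    have ha1 : 1 ≤ a := hG a (Finset.mem_insert_self _ _)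
    set k := s.card
    have hka : ((k + 1 : ℕ):ℝ) ≤ a := by exact_mod_cast (by omega : k + 1 ≤ a)
    push_cast at hka ⊢
    set x := Real.sqrt (k:ℝ)
    set y := Real.sqrt ((k:ℝ) + 1)
    have hy0 : 0 < y := Real.sqrt_pos.2 (by positivity)
    have h1 : 1 / Real.sqrt a ≤ 1 / y := one_div_le_one_div_of_le hy0 (Real.sqrt_le_sqrt hka)
    have hx2 : x * x = k := Real.mul_self_sqrt (Nat.cast_nonneg _)
    have hy2 : y * y = k + 1 := Real.mul_self_sqrt (by positivity)
    have h2 : 1 / y ≤ 2 * (y - x) := by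
      rw [div_le_iff₀ hy0]; nlinarith [sq_nonneg (x - y)]
    linarith

/-- A random subset rarely has a large product. -/
lemma wT_prod_tail {G : Finset ℕ} (hG : ∀ p ∈ G, 1 ≤ p) {Y : ℝ} (hY : 0 < Y) :
    ∑ T ∈ G.powerset.filter (fun T => Y < ((∏ p ∈ T, p : ℕ):ℝ)), wT G T
      ≤ Real.exp (2 * Real.sqrt G.card) / Real.sqrt Y := by
  rw [le_div_iff₀ (Real.sqrt_pos.2 hY), Finset.sum_mul]
  refine (Finset.sum_le_sum (g := fun T => wT G T * ∏ p ∈ T, Real.sqrt (p:ℝ)) fun T hT => ?_).trans ?_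
  · refine mul_le_mul_of_nonneg_left ?_ (wT_nonneg hG T)
    have h := (Finset.mem_filter.1 hT).2
    push_cast at h
    refine (Real.sqrt_le_sqrt h.le).trans (le_of_eq ?_)
    exact Real.sqrt_prod _ fun p _ => Nat.cast_nonneg _
  refine (Finset.sum_le_sum_of_subset_of_nonneg (Finset.filter_subset _ _)
    fun T _ _ => mul_nonneg (wT_nonneg hG T) (Finset.prod_nonneg fun p _ => Real.sqrt_nonneg _)).trans ?_
  calc ∑ T ∈ G.powerset, wT G T * ∏ p ∈ T, Real.sqrt (p:ℝ)
      = ∏ p ∈ G, (1 / (p:ℝ) * Real.sqrt p + (1 - 1 / (p:ℝ))) := by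
        rw [Finset.prod_add]
        refine Finset.sum_congr rfl fun T _ => ?_
        rw [wT, Finset.prod_mul_distrib]; ring
    _ ≤ ∏ p ∈ G, Real.exp (1 / Real.sqrt p) := by
        refine Finset.prod_le_prod (fun p hp => ?_) fun p hp => ?_
        · have h1 : (1:ℝ) ≤ p := by exact_mod_cast hG p hp
          have : 1 / (p:ℝ) ≤ 1 := by rw [div_le_one (by linarith)]; exact h1
          have : 0 ≤ 1 / (p:ℝ) * Real.sqrt p := by positivity
          linarith
        · refine le_trans ?_ (Real.add_one_le_exp _)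
          have e : 1 / (p:ℝ) * Real.sqrt p = 1 / Real.sqrt p := by
            rw [one_div_mul_eq_div, Real.sqrt_div_self, one_div]
          have : 0 ≤ 1 / (p:ℝ) := by positivity
          linarith
    _ ≤ _ := by
        rw [← Real.exp_sum]
        exact Real.exp_le_exp.2 (sum_inv_sqrt_le G hG)

/-- A random subset rarely shares much with a fixed integer. -/
lemma wT_gcd_tail {G : Finset ℕ} (hG : ∀ p ∈ G, p.Prime) {B : ℕ} (hB : 0 < B) {Y : ℝ} (hY : 0 < Y) :
    ∑ T ∈ G.powerset.filter (fun T => Y < (Nat.gcd B (∏ p ∈ T, p) : ℝ)), wT G T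
      ≤ 2 ^ B.primeFactors.card / Y := by
  have hG1 : ∀ p ∈ G, 1 ≤ p := fun p hp => (hG p hp).one_le
  have hgle : ∀ T ⊆ G, (Nat.gcd B (∏ p ∈ T, p) : ℝ) ≤ ∏ p ∈ T, (if p ∣ B then (p:ℝ) else 1) := by
    intro T hT
    have h : Nat.gcd B (∏ p ∈ T, p) ∣ ∏ p ∈ T, (if p ∣ B then p else 1) := by
      induction T using Finset.induction_on with
      | empty => simp
      | insert a s ha ih =>
        rw [Finset.prod_insert ha, Finset.prod_insert ha]
        refine (gcd_mul_dvd_mul_gcd B a _).trans (mul_dvd_mul ?_ (ih fun p hp => hT (Finset.mem_insert_of_mem hp)))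
        change Nat.gcd B a ∣ _
        split_ifs with h
        · exact Nat.gcd_dvd_right _ _
        · exact dvd_of_eq ((hG a (hT (Finset.mem_insert_self _ _))).coprime_iff_not_dvd.2 h).symm
    have hpos : 0 < ∏ p ∈ T, (if p ∣ B then p else 1) := Finset.prod_pos fun p hp => by
      split_ifs
      · exact (hG p (hT hp)).pos
      · exact one_pos
    have h2 : (Nat.gcd B (∏ p ∈ T, p) : ℝ) ≤ ((∏ p ∈ T, (if p ∣ B then p else 1) : ℕ) : ℝ) := by
      exact_mod_cast Nat.le_of_dvd hpos h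
    push_cast at h2
    exact h2
  have hpr0 : ∀ T : Finset ℕ, 0 ≤ ∏ p ∈ T, (if p ∣ B then (p:ℝ) else 1) := fun T =>
    Finset.prod_nonneg fun p _ => by split_ifs <;> positivity
  rw [le_div_iff₀ hY, Finset.sum_mul]
  refine (Finset.sum_le_sum (g := fun T => wT G T * ∏ p ∈ T, (if p ∣ B then (p:ℝ) else 1)) fun T hT => ?_).trans ?_
  · obtain ⟨h1, h2⟩ := Finset.mem_filter.1 hT
    exact mul_le_mul_of_nonneg_left (h2.le.trans (hgle T (Finset.mem_powerset.1 h1))) (wT_nonneg hG1 T)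
  refine (Finset.sum_le_sum_of_subset_of_nonneg (Finset.filter_subset _ _)
    fun T _ _ => mul_nonneg (wT_nonneg hG1 T) (hpr0 T)).trans ?_
  calc ∑ T ∈ G.powerset, wT G T * ∏ p ∈ T, (if p ∣ B then (p:ℝ) else 1)
      = ∏ p ∈ G, (1 / (p:ℝ) * (if p ∣ B then (p:ℝ) else 1) + (1 - 1 / (p:ℝ))) := by
        rw [Finset.prod_add]
        refine Finset.sum_congr rfl fun T _ => ?_
        rw [wT, Finset.prod_mul_distrib]; ring
    _ ≤ ∏ p ∈ G, (if p ∣ B then (2:ℝ) else 1) := by
        refine Finset.prod_le_prod (fun p hp => ?_) fun p hp => ?_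
        all_goals have h1 : (1:ℝ) ≤ p := by exact_mod_cast hG1 p hp
        all_goals have h2 : 1 / (p:ℝ) ≤ 1 := by rw [div_le_one (by linarith)]; exact h1
        · have : 0 ≤ 1 / (p:ℝ) * (if p ∣ B then (p:ℝ) else 1) := by positivity
          linarith
        · have : 0 ≤ 1 / (p:ℝ) := by positivity
          split_ifs
          · rw [one_div_mul_cancel (by linarith)]; linarith
          · linarith
    _ ≤ _ := by
        rw [← Finset.prod_filter, Finset.prod_const]
        refine pow_le_pow_right₀ one_le_two (Finset.card_le_card fun p hp => ?_)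
        obtain ⟨h1, h2⟩ := Finset.mem_filter.1 hp
        exact Nat.mem_primeFactors.2 ⟨hG p h1, h2, hB.ne'⟩

lemma pow_omega_le {L : ℝ} (hL : 1 ≤ L) {δ : ℝ} (hδ : 0 < δ) :
    ∃ C : ℝ, 0 < C ∧ ∀ n : ℕ, 0 < n → L ^ n.primeFactors.card ≤ C * (n:ℝ) ^ δ := by
  obtain ⟨M, hM⟩ := exists_nat_ge (L ^ (1 / δ))
  refine ⟨L ^ M, by positivity, fun n hn => ?_⟩
  have hL0 : 0 ≤ L := by linarith
  rw [← Finset.prod_const, ← Finset.prod_filter_mul_prod_filter_not n.primeFactors (fun p => p ≤ M)]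
  refine mul_le_mul ?_ ?_ (Finset.prod_nonneg fun _ _ => hL0) (by positivity)
  · rw [Finset.prod_const]
    refine pow_le_pow_right₀ hL ?_
    refine (Finset.card_le_card (t := Finset.Icc 1 M) fun p hp => ?_).trans (by simp)
    obtain ⟨h1, h2⟩ := Finset.mem_filter.1 hp
    exact Finset.mem_Icc.2 ⟨(Nat.prime_of_mem_primeFactors h1).one_le, h2⟩
  · calc ∏ _p ∈ n.primeFactors.filter (fun p => ¬ p ≤ M), L
        ≤ ∏ p ∈ n.primeFactors.filter (fun p => ¬ p ≤ M), (p:ℝ) ^ δ := by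
          refine Finset.prod_le_prod (fun _ _ => hL0) fun p hp => ?_
          have hp : (M:ℝ) ≤ p := by exact_mod_cast (not_le.1 (Finset.mem_filter.1 hp).2).le
          calc L = (L ^ (1 / δ)) ^ δ := by
                rw [← Real.rpow_mul hL0, one_div_mul_cancel hδ.ne', Real.rpow_one]
            _ ≤ _ := Real.rpow_le_rpow (by positivity) (hM.trans hp) hδ.le
      _ = ((∏ p ∈ n.primeFactors.filter (fun p => ¬ p ≤ M), p : ℕ):ℝ) ^ δ := by
          rw [Nat.cast_prod, Real.finsetProd_rpow _ _ fun p _ => Nat.cast_nonneg _]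
      _ ≤ (n:ℝ) ^ δ := by
          refine Real.rpow_le_rpow (Nat.cast_nonneg _) (Nat.cast_le.2 (Nat.le_of_dvd hn ?_)) hδ.le
          exact (Finset.prod_dvd_prod_of_subset _ _ _ (Finset.filter_subset _ _)).trans
            (Nat.prod_primeFactors_dvd n)

lemma card_divisors_le {δ : ℝ} (hδ : 0 < δ) :
    ∃ C : ℝ, 0 < C ∧ ∀ n : ℕ, 0 < n → (n.divisors.card : ℝ) ≤ C * (n:ℝ) ^ δ := by
  obtain ⟨M, hM⟩ := exists_nat_ge ((2:ℝ) ^ (1 / δ))
  set c := 1 + 1 / (δ * Real.log 2) with hc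
  have hl2 : 0 < Real.log 2 := Real.log_pos (by norm_num)
  have hc1 : 1 ≤ c := by
    have : 0 ≤ 1 / (δ * Real.log 2) := by positivity
    linarith
  refine ⟨c ^ M, by positivity, fun n hn => ?_⟩
  have hkey : ∀ p ∈ n.primeFactors, ((n.factorization p + 1 : ℕ):ℝ)
      ≤ (if p ≤ M then c else 1) * ((p:ℝ) ^ n.factorization p) ^ δ := by
    intro p hp
    set e := n.factorization p
    have hp2 : (2:ℝ) ≤ p := by exact_mod_cast (Nat.prime_of_mem_primeFactors hp).two_le
    rw [← Real.rpow_natCast_mul (Nat.cast_nonneg _), mul_comm, mul_comm (_ : ℝ) δ,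
      Real.rpow_mul (Nat.cast_nonneg _), Real.rpow_natCast]
    have he : ((e + 1 : ℕ):ℝ) ≤ 2 ^ e := by
      have : e + 1 ≤ 2 ^ e := e.lt_two_pow_self
      exact_mod_cast this
    split_ifs with h
    · have h1 : Real.exp ((e:ℝ) * (δ * Real.log 2)) ≤ ((p:ℝ) ^ δ) ^ e := by
        rw [Real.exp_nat_mul]
        refine pow_le_pow_left₀ (Real.exp_pos _).le ?_ e
        rw [mul_comm, ← Real.rpow_def_of_pos two_pos]
        exact Real.rpow_le_rpow two_pos.le hp2 hδ.le
      have h2 := Real.add_one_le_exp ((e:ℝ) * (δ * Real.log 2))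
      have h3 : ((e + 1 : ℕ):ℝ) ≤ c * ((e:ℝ) * (δ * Real.log 2) + 1) := by
        rw [hc]; push_cast
        have : (1 / (δ * Real.log 2)) * ((e:ℝ) * (δ * Real.log 2)) = e := by field_simp
        have : 0 ≤ (e:ℝ) * (δ * Real.log 2) := by positivity
        have : 0 ≤ 1 / (δ * Real.log 2) := by positivity
        nlinarith
      rw [mul_comm _ c]
      exact h3.trans (mul_le_mul_of_nonneg_left (h2.trans h1) (by linarith))
    · rw [mul_one]
      refine he.trans (pow_le_pow_left₀ two_pos.le ?_ e)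
      calc (2:ℝ) = ((2:ℝ) ^ (1 / δ)) ^ δ := by
            rw [← Real.rpow_mul two_pos.le, one_div_mul_cancel hδ.ne', Real.rpow_one]
        _ ≤ _ := Real.rpow_le_rpow (by positivity)
            (hM.trans (by exact_mod_cast (not_le.1 h).le)) hδ.le
  rw [Nat.card_divisors hn.ne', Nat.cast_prod]
  refine (Finset.prod_le_prod (fun p _ => by positivity) hkey).trans ?_
  rw [Finset.prod_mul_distrib, Real.finsetProd_rpow _ _ (fun p _ => by positivity)]
  refine mul_le_mul ?_ ?_ (Real.rpow_nonneg (Finset.prod_nonneg fun p _ => by positivity) _) (by positivity)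
  · rw [← Finset.prod_filter, Finset.prod_const]
    refine pow_le_pow_right₀ hc1 ?_
    refine (Finset.card_le_card (t := Finset.Icc 1 M) fun p hp => ?_).trans (by simp)
    obtain ⟨h1, h2⟩ := Finset.mem_filter.1 hp
    exact Finset.mem_Icc.2 ⟨(Nat.prime_of_mem_primeFactors h1).one_le, h2⟩
  · refine le_of_eq ?_
    congr 1
    have h := Nat.prod_factorization_pow_eq_self hn.ne'
    rw [Finsupp.prod, Nat.support_factorization] at h
    exact_mod_cast h

/-- The elementary symmetric weight of order `j`. -/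
noncomputable def esum (Q : Finset ℕ) (a : ℕ → ℝ) (j : ℕ) : ℝ :=
  ∑ T ∈ Q.powersetCard j, ∏ p ∈ T, a p

lemma esum_nonneg {Q : Finset ℕ} {a : ℕ → ℝ} (ha : ∀ p ∈ Q, 0 ≤ a p) (j : ℕ) : 0 ≤ esum Q a j :=
  Finset.sum_nonneg fun T hT => Finset.prod_nonneg fun p hp =>
    ha p ((Finset.mem_powersetCard.1 hT).1 hp)

lemma esum_succ (Q : Finset ℕ) (a : ℕ → ℝ) (j : ℕ) :
    ((j:ℝ) + 1) * esum Q a (j + 1)
      = ∑ T ∈ Q.powersetCard j, (∏ p ∈ T, a p) * ∑ p ∈ Q \ T, a p := by
  unfold esum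
  rw [Finset.mul_sum]
  have e : ∀ S ∈ Q.powersetCard (j + 1), ((j:ℝ) + 1) * ∏ p ∈ S, a p
      = ∑ p ∈ S, (∏ i ∈ S.erase p, a i) * a p := fun S hS => by
    rw [Finset.sum_congr rfl fun p hp => Finset.prod_erase_mul S a hp, Finset.sum_const,
      (Finset.mem_powersetCard.1 hS).2, nsmul_eq_mul]
    push_cast; ring
  rw [Finset.sum_congr rfl e]
  simp_rw [Finset.mul_sum]
  rw [Finset.sum_sigma', Finset.sum_sigma']
  refine Finset.sum_bij' (fun x _ => ⟨x.1.erase x.2, x.2⟩) (fun y _ => ⟨insert y.2 y.1, y.2⟩)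
    ?_ ?_ ?_ ?_ ?_
  · rintro ⟨S, p⟩ hx
    simp only [Finset.mem_sigma, Finset.mem_powersetCard, Finset.mem_sdiff] at hx ⊢
    obtain ⟨⟨hS, hc⟩, hp⟩ := hx
    exact ⟨⟨(Finset.erase_subset _ _).trans hS, by rw [Finset.card_erase_of_mem hp, hc]; omega⟩,
      hS hp, Finset.notMem_erase _ _⟩
  · rintro ⟨T, p⟩ hy
    simp only [Finset.mem_sigma, Finset.mem_powersetCard, Finset.mem_sdiff] at hy ⊢
    obtain ⟨⟨hT, hc⟩, hpQ, hp⟩ := hy
    exact ⟨⟨Finset.insert_subset hpQ hT, by rw [Finset.card_insert_of_notMem hp, hc]⟩,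
      Finset.mem_insert_self _ _⟩
  · rintro ⟨S, p⟩ hx
    simp only [Finset.mem_sigma] at hx
    simp [Finset.insert_erase hx.2]
  · rintro ⟨T, p⟩ hy
    simp only [Finset.mem_sigma, Finset.mem_sdiff] at hy
    simp [Finset.erase_insert hy.2.2]
  · rintro ⟨S, p⟩ _
    rfl

lemma esum_lower {Q : Finset ℕ} {a : ℕ → ℝ} (ha : ∀ p ∈ Q, 0 ≤ a p) {l b : ℝ} (hl : 0 ≤ l)
    (hb : ∀ p ∈ Q, a p ≤ b) (hsum : l ≤ ∑ p ∈ Q, a p) :
    ∀ j : ℕ, (j:ℝ) * b ≤ l / 2 → 0 ≤ b → (l / 2) ^ j ≤ (j.factorial : ℝ) * esum Q a j := by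
  intro j
  induction j with
  | zero => intro _ _; simp [esum]
  | succ j ih =>
    intro hj hb0
    push_cast at hj
    have ih' := ih (by linarith [mul_nonneg (Nat.cast_nonneg (α := ℝ) j) hb0]) hb0
    have h : esum Q a j * (l / 2) ≤ ((j:ℝ) + 1) * esum Q a (j + 1) := by
      rw [esum_succ, esum, Finset.sum_mul]
      refine Finset.sum_le_sum fun T hT => ?_
      obtain ⟨hTQ, hTc⟩ := Finset.mem_powersetCard.1 hT
      refine mul_le_mul_of_nonneg_left ?_ (Finset.prod_nonneg fun p hp => ha p (hTQ hp))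
      have h1 := Finset.sum_sdiff (f := a) hTQ
      have h2 : ∑ p ∈ T, a p ≤ (j:ℝ) * b := by
        refine (Finset.sum_le_card_nsmul _ _ b fun p hp => hb p (hTQ hp)).trans (le_of_eq ?_)
        rw [nsmul_eq_mul, hTc]
      linarith
    rw [Nat.factorial_succ, pow_succ]
    push_cast
    calc (l / 2) ^ j * (l / 2) ≤ (j.factorial : ℝ) * esum Q a j * (l / 2) :=
          mul_le_mul_of_nonneg_right ih' (by linarith)
      _ ≤ (j.factorial : ℝ) * (((j:ℝ) + 1) * esum Q a (j + 1)) := by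
          rw [mul_assoc]; exact mul_le_mul_of_nonneg_left h (Nat.cast_nonneg _)
      _ = _ := by ring

lemma esum_upper {Q : Finset ℕ} {a : ℕ → ℝ} (ha : ∀ p ∈ Q, 0 ≤ a p) :
    ∀ j : ℕ, (j.factorial : ℝ) * esum Q a j ≤ (∑ p ∈ Q, a p) ^ j := by
  intro j
  induction j with
  | zero => simp [esum]
  | succ j ih =>
    have h : ((j:ℝ) + 1) * esum Q a (j + 1) ≤ esum Q a j * ∑ p ∈ Q, a p := by
      rw [esum_succ, esum, Finset.sum_mul]
      refine Finset.sum_le_sum fun T hT => ?_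
      refine mul_le_mul_of_nonneg_left ?_ (Finset.prod_nonneg fun p hp =>
        ha p ((Finset.mem_powersetCard.1 hT).1 hp))
      exact Finset.sum_le_sum_of_subset_of_nonneg Finset.sdiff_subset fun p hp _ => ha p hp
    rw [Nat.factorial_succ, pow_succ]
    push_cast
    calc ((j:ℝ) + 1) * (j.factorial : ℝ) * esum Q a (j + 1)
        = (j.factorial : ℝ) * (((j:ℝ) + 1) * esum Q a (j + 1)) := by ring
      _ ≤ (j.factorial : ℝ) * (esum Q a j * ∑ p ∈ Q, a p) := mul_le_mul_of_nonneg_left h (Nat.cast_nonneg _)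
      _ ≤ _ := by
          rw [← mul_assoc]; exact mul_le_mul_of_nonneg_right ih (Finset.sum_nonneg ha)

/-- Periodic exclusion of finitely many classes modulo each of several primes, exact count. -/
lemma periodic_count (g : ℕ) (hg : 0 < g) (F : ℕ → Finset ℕ) :
    ∀ P : Finset ℕ, (∀ p ∈ P, p.Prime ∧ p ∣ g) → (∀ p ∈ P, ∀ x ∈ F p, x < p) →
      (((Finset.range g).filter (fun j => ∀ p ∈ P, j % p ∉ F p)).card : ℝ)
        = (g:ℝ) * ∏ p ∈ P, (1 - (F p).card / (p:ℝ)) := by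
  intro P
  induction P using Finset.induction_on with
  | empty => intro _ _; simp
  | insert p P hp ih =>
    intro hP hF
    obtain ⟨hpp, hpg⟩ := hP p (Finset.mem_insert_self _ _)
    have ih' := ih (fun q hq => hP q (Finset.mem_insert_of_mem hq)) (fun q hq => hF q (Finset.mem_insert_of_mem hq))
    set S := (Finset.range g).filter (fun j => ∀ q ∈ P, j % q ∉ F q) with hS
    obtain ⟨s, hs1, hs0⟩ : ∃ s : ℕ, s % p = 1 ∧ ∀ q ∈ P, q ∣ s := by
      have hcop : Nat.Coprime p (∏ q ∈ P, q) := Nat.Coprime.prod_right fun q hq =>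
        (Nat.coprime_primes hpp (hP q (Finset.mem_insert_of_mem hq)).1).2 fun e => hp (e ▸ hq)
      obtain ⟨s, hs⟩ := Nat.chineseRemainder hcop 1 0
      refine ⟨s, ?_, fun q hq => ?_⟩
      · have := hs.1
        rw [Nat.ModEq, Nat.mod_eq_of_lt hpp.one_lt] at this
        exact this
      · exact (Finset.dvd_prod_of_mem (fun q => q) hq).trans (Nat.modEq_zero_iff_dvd.1 hs.2)
    set c := fun r : ℕ => (S.filter (fun j => j % p = r)).card
    have hc : ∀ r, r < p → ∀ i, c ((r + i) % p) = c r := by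
      intro r hr i
      symm
      refine Finset.card_bij' (fun j _ => (j + i * s) % g) (fun j _ => (j + i * ((g - 1) * s)) % g) ?_ ?_ ?_ ?_
      · intro j hj
        simp only [S, Finset.mem_filter, Finset.mem_range] at hj ⊢
        refine ⟨⟨Nat.mod_lt _ hg, fun q hq => ?_⟩, ?_⟩
        · rw [Nat.mod_mod_of_dvd _ (hP q (Finset.mem_insert_of_mem hq)).2, Nat.add_mod,
            Nat.mul_mod, Nat.mod_eq_zero_of_dvd (hs0 q hq)]
          simpa using hj.1.2 q hq
        · rw [Nat.mod_mod_of_dvd _ hpg, Nat.add_mod, hj.2, Nat.mul_mod, hs1, Nat.mul_one,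
            Nat.mod_mod, Nat.add_mod_mod]
      · intro j hj
        simp only [S, Finset.mem_filter, Finset.mem_range] at hj ⊢
        refine ⟨⟨Nat.mod_lt _ hg, fun q hq => ?_⟩, ?_⟩
        · rw [Nat.mod_mod_of_dvd _ (hP q (Finset.mem_insert_of_mem hq)).2, Nat.add_mod,
            Nat.mul_mod, Nat.mul_mod (g - 1) s, Nat.mod_eq_zero_of_dvd (hs0 q hq)]
          simpa using hj.1.2 q hq
        · rw [Nat.mod_mod_of_dvd _ hpg]
          have h1 : (j + i * ((g - 1) * s)) + i * s = j + g * (i * s) := by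
            obtain ⟨g', rfl⟩ : ∃ g', g = g' + 1 := ⟨g - 1, by omega⟩
            simp only [Nat.add_sub_cancel]; ring
          have h2 : (j + i * ((g - 1) * s) + i) % p = (r + i) % p := by
            have h3 : (j + i * ((g - 1) * s) + i) % p = (j + i * ((g - 1) * s) + i * s) % p := by
              rw [Nat.add_mod _ i, Nat.add_mod _ (i * s), Nat.mul_mod i s, hs1, Nat.mul_one, Nat.mod_mod]
            rw [h3, h1, Nat.add_mod, Nat.mod_eq_zero_of_dvd (Dvd.dvd.mul_right hpg _)]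
            simpa using hj.2
          have h4 : Nat.ModEq p (j + i * ((g - 1) * s) + i) (r + i) := h2
          have h5 := Nat.ModEq.add_right_cancel' i h4
          rw [h5, Nat.mod_eq_of_lt hr]
      · intro j hj
        simp only [S, Finset.mem_filter, Finset.mem_range] at hj
        rw [Nat.mod_add_mod]
        have h1 : j + i * s + i * ((g - 1) * s) = j + g * (i * s) := by
          obtain ⟨g', rfl⟩ : ∃ g', g = g' + 1 := ⟨g - 1, by omega⟩
          simp only [Nat.add_sub_cancel]; ring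
        rw [h1, Nat.add_mul_mod_self_left, Nat.mod_eq_of_lt hj.1.1]
      · intro j hj
        simp only [S, Finset.mem_filter, Finset.mem_range] at hj
        rw [Nat.mod_add_mod]
        have h1 : j + i * ((g - 1) * s) + i * s = j + g * (i * s) := by
          obtain ⟨g', rfl⟩ : ∃ g', g = g' + 1 := ⟨g - 1, by omega⟩
          simp only [Nat.add_sub_cancel]; ring
        rw [h1, Nat.add_mul_mod_self_left, Nat.mod_eq_of_lt hj.1.1]
    have hall : ∀ r, r < p → c r = c 0 := fun r hr => by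
      have := hc 0 hpp.pos r
      rwa [Nat.zero_add, Nat.mod_eq_of_lt hr] at this
    have htot : (S.card : ℝ) = (p:ℝ) * c 0 := by
      rw [Finset.card_eq_sum_card_fiberwise (t := Finset.range p) (f := fun j => j % p)
        (fun j _ => Finset.mem_range.2 (Nat.mod_lt _ hpp.pos))]
      push_cast
      rw [Finset.sum_congr rfl fun r hr => by
        rw [show ((S.filter (fun j => j % p = r)).card) = c r from rfl, hall r (Finset.mem_range.1 hr)]]
      simp
    have hbad : ((S.filter (fun j => j % p ∈ F p)).card : ℝ) = ((F p).card : ℝ) * c 0 := by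
      rw [Finset.card_eq_sum_card_fiberwise (t := F p) (f := fun j => j % p)
        (s := S.filter (fun j => j % p ∈ F p)) (fun j hj => (Finset.mem_filter.1 hj).2)]
      push_cast
      rw [Finset.sum_congr rfl fun r hr => by
        rw [show (((S.filter (fun j => j % p ∈ F p)).filter (fun j => j % p = r)).card) = c r from by
          rw [Finset.filter_filter]
          exact congrArg Finset.card (Finset.filter_congr fun j _ => ⟨fun h => h.2, fun h => ⟨h ▸ hr, h⟩⟩),
          hall r (hF p (Finset.mem_insert_self _ _) r hr)]]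
      simp
    have hnew : (Finset.range g).filter (fun j => ∀ q ∈ insert p P, j % q ∉ F q)
        = S.filter (fun j => ¬ j % p ∈ F p) := by
      rw [hS, Finset.filter_filter]
      refine Finset.filter_congr fun j _ => ?_
      simp only [Finset.forall_mem_insert]
      exact and_comm
    have hsplit : ((S.filter (fun j => ¬ j % p ∈ F p)).card : ℝ)
        = (S.card : ℝ) - ((S.filter (fun j => j % p ∈ F p)).card : ℝ) := by
      rw [← Finset.card_filter_add_card_filter_not (s := S) (fun j => j % p ∈ F p)]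
      push_cast; ring
    rw [hnew, hsplit, hbad, Finset.prod_insert hp, htot]
    have hp0 : (p:ℝ) ≠ 0 := by exact_mod_cast hpp.ne_zero
    have hc0 : (c 0 : ℝ) = (g:ℝ) * (∏ q ∈ P, (1 - (F q).card / (q:ℝ))) / p := by
      rw [eq_div_iff hp0, ← ih']; linarith
    rw [hc0]
    field_simp

end Vale.Agent.P028.Wide
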