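import Vale.Agent.P028.Wide.Edges

namespace Vale.Agent.P028.Wide

open Finset MeasureTheory
open scoped Classical

/-- Whether a scale is below one. -/
noncomputable def dyb (T : ℝ) : Bool := if T ≤ 1 then true else false

/-- The dyadic index of a scale. -/
noncomputable def dyi (T : ℝ) : ℕ := if T ≤ 1 then Nat.log 2 ⌊1 / T⌋₊ else Nat.log 2 ⌊T⌋₊

/-- The dyadic scale with a given index. -/
noncomputable def tof (b : Bool) (i : ℕ) : ℝ := if b then (1/2 : ℝ) ^ i else (2:ℝ) ^ (i + 1)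

lemma floor_pow_bounds {x : ℝ} (hx : 1 ≤ x) :
    (2:ℝ) ^ Nat.log 2 ⌊x⌋₊ ≤ x ∧ x ≤ (2:ℝ) ^ (Nat.log 2 ⌊x⌋₊ + 1) := by
  have h1 : 1 ≤ ⌊x⌋₊ := Nat.le_floor (by exact_mod_cast hx)
  have a := Nat.pow_log_le_self 2 (show ⌊x⌋₊ ≠ 0 by omega)
  have b := Nat.lt_pow_succ_log_self (b := 2) one_lt_two ⌊x⌋₊
  constructor
  · refine le_trans ?_ (Nat.floor_le (by linarith))
    exact_mod_cast a
  · refine (Nat.lt_floor_add_one x).le.trans ?_
    exact_mod_cast b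

lemma dy_spec {T : ℝ} (hT : 0 < T) :
    T ≤ tof (dyb T) (dyi T) ∧ tof (dyb T) (dyi T) ≤ 2 * T ∧
      (dyb T = true → tof (dyb T) (dyi T) ≤ 1) ∧ (dyb T = false → 1 ≤ T) := by
  unfold dyb dyi tof
  by_cases h : T ≤ 1
  · simp only [h, if_true]
    obtain ⟨h1, h2⟩ := floor_pow_bounds (show 1 ≤ 1 / T by rw [le_div_iff₀ hT]; linarith)
    rw [le_div_iff₀ hT] at h1
    rw [div_le_iff₀ hT] at h2
    refine ⟨?_, ?_, fun _ => pow_le_one₀ (by norm_num) (by norm_num), by simp⟩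
    · rw [div_pow, one_pow, le_div_iff₀ (by positivity)]; linarith
    · rw [div_pow, one_pow, div_le_iff₀ (by positivity)]
      rw [pow_succ] at h2; linarith
  · simp only [h, if_false]
    obtain ⟨h1, h2⟩ := floor_pow_bounds (not_le.1 h).le
    refine ⟨by simpa using h2, ?_, by simp, fun _ => (not_le.1 h).le⟩
    simp only [pow_succ] at h2 ⊢
    norm_num
    linarith

variable {η γ : ℝ} {ψ : ℕ → ℝ}

/-- The key of a pair. -/
noncomputable def key (η γ : ℝ) (ψ : ℕ → ℝ) (x : ℕ × ℕ) : ℕ × ℕ × Bool × ℕ × ℕ :=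
  (nb x.1, nb x.2 - nb x.1, dyb (tt ψ x.1 x.2), dyi (tt ψ x.1 x.2),
    lvl η γ ψ (tof (dyb (tt ψ x.1 x.2)) (dyi (tt ψ x.1 x.2))) x.1 x.2)

/-- The weight of a key. -/
noncomputable def wgt (κ : ℕ × ℕ × Bool × ℕ × ℕ) : ℝ :=
  if κ.2.2.1 then Real.exp (4 * (κ.2.2.2.2 : ℝ)) / tof κ.2.2.1 κ.2.2.2.1
  else if 1 ≤ κ.2.2.2.2 then Real.exp (4 * (κ.2.2.2.2 : ℝ)) else 0

lemma wgt_nonneg (κ : ℕ × ℕ × Bool × ℕ × ℕ) : 0 ≤ wgt κ := by
  unfold wgt tof; split_ifs <;> positivity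

lemma ov_key (hη : 0 < η) (hη1 : η ≤ 1) : ∃ C : ℝ, 0 < C ∧ ∀ (γ : ℝ) (ψ : ℕ → ℝ) (q r : ℕ),
    q < r → Rng η ψ q → Rng η ψ r →
      ov η γ ψ q r ≤ C * (1 + wgt (key η γ ψ (q, r))) * ((lam q * ψ q) * (lam r * ψ r)) := by
  obtain ⟨Cs, hCs, hsmall⟩ := ov_small hη hη1
  obtain ⟨Cb, hCb, hbig⟩ := ov_big hη hη1
  refine ⟨Cs + Cb, by positivity, fun γ ψ q r hqr hq hr => ?_⟩
  have hμ : 0 ≤ (lam q * ψ q) * (lam r * ψ r) := by
    have := lam_nonneg q; have := lam_nonneg r; have := hq.nonneg; have := hr.nonneg; positivity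
  obtain ⟨h1, h2, h3, h4⟩ := dy_spec (tt_pos hη hη1 hq hr hqr)
  simp only [key]
  set T := tt ψ q r
  set t := tof (dyb T) (dyi T)
  set l := lvl η γ ψ t q r
  have hw0 := wgt_nonneg (nb q, nb r - nb q, dyb T, dyi T, l)
  rcases Bool.eq_false_or_eq_true (dyb T) with hb | hb
  · have e : wgt (nb q, nb r - nb q, dyb T, dyi T, l) = Real.exp (4 * (l:ℝ)) / t := by
      simp only [wgt, hb, t, if_true]
    refine (hsmall γ t ψ q r hqr hq hr (h3 hb) h1 h2).trans (mul_le_mul_of_nonneg_right ?_ hμ)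
    rw [div_mul_eq_mul_div, mul_div_assoc, ← e]
    exact mul_le_mul (by linarith) (by linarith) hw0 (by linarith)
  · refine (hbig γ t ψ q r hqr hq hr (h4 hb) h1 h2).trans (mul_le_mul_of_nonneg_right ?_ hμ)
    refine mul_le_mul (by linarith) ?_ (Real.exp_pos _).le (by linarith)
    simp only [wgt, hb]
    rcases Nat.eq_zero_or_pos l with e | e
    · simp [l, t, hb] at e ⊢; simp [e]
    · simp [l, t, hb] at e ⊢; simp [show 1 ≤ _ from e]

/-- The geometric ratio in the scale. -/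
noncomputable def ρ1 : ℝ := (1/2 : ℝ) ^ (1/100 : ℝ)

lemma rho1_bounds : 1/2 ≤ ρ1 ∧ ρ1 < 1 :=
  ⟨Real.self_le_rpow_of_le_one (by norm_num) (by norm_num) (by norm_num),
    Real.rpow_lt_one (by norm_num) (by norm_num) (by norm_num)⟩

/-- One fibre of the key. -/
lemma fibre_sum (hη : 0 < η) (hη1 : η ≤ 1) : ∃ C : ℝ, 0 < C ∧ ∀ (γ : ℝ) (ψ : ℕ → ℝ) (F : Finset ℕ)
    (P : Finset (ℕ × ℕ)), (∀ x, 0 ≤ ψ x) → (∀ x ∈ F, Rng η ψ x) →
      (∀ x ∈ P, x.1 ∈ F ∧ x.2 ∈ F ∧ Mid η γ ψ x.1 x.2) → ∀ κ ∈ P.image (key η γ ψ),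
      wgt κ * ∑ x ∈ P.filter (fun x => key η γ ψ x = κ), (lam x.1 * ψ x.1) * (lam x.2 * ψ x.2)
        ≤ C * (ρ1 ^ κ.2.2.2.1 * Real.exp (-3) ^ κ.2.2.2.2) *
          (mass (fun q => lam q * ψ q) (F.filter fun q => nb q = κ.1) *
            mass (fun q => lam q * ψ q) (F.filter fun q => nb q = κ.1 + κ.2.1)) ^ sg := by
  obtain ⟨C, hC, hE⟩ := edge_sum_bounds
  refine ⟨C, hC, fun γ ψ F P hψ hF hP κ hκ => ?_⟩
  obtain ⟨n, d, b, i, l⟩ := κ
  obtain ⟨x0, hx0, hk0⟩ := Finset.mem_image.1 hκ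
  simp only
  set E := P.filter (fun x => key η γ ψ x = (n, d, b, i, l))
  set μ := fun q => lam q * ψ q
  set V0 := F.filter fun q => nb q = n
  set W0 := F.filter fun q => nb q = n + d
  set t := tof b i with ht_def
  set X := Xn n
  have hμ : ∀ x, 0 ≤ μ x := fun x => mul_nonneg (lam_nonneg x) (hψ x)
  have hmem : ∀ x ∈ E, x.1 ∈ V0 ∧ x.2 ∈ W0 ∧ Mid η γ ψ x.1 x.2 ∧ Rng η ψ x.1 ∧ Rng η ψ x.2 ∧
      nb x.1 = n ∧ tt ψ x.1 x.2 ≤ t ∧ t ≤ 2 * tt ψ x.1 x.2 ∧ (b = true → t ≤ 1) ∧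
      (b = false → 1 ≤ t) ∧ lvl η γ ψ t x.1 x.2 = l := by
    intro x hx
    obtain ⟨hxP, hk⟩ := Finset.mem_filter.1 hx
    obtain ⟨h1, h2, hm⟩ := hP x hxP
    simp only [key, Prod.mk.injEq] at hk
    obtain ⟨e1, e2, e3, e4, e5⟩ := hk
    rw [e3, e4] at e5
    obtain ⟨a1, a2, a3, a4⟩ := dy_spec (tt_pos hη hη1 (hF _ h1) (hF _ h2) hm.1)
    rw [e3, e4] at a1 a2 a3
    rw [e3] at a4
    obtain ⟨-, -, -, -, -, -, -, hnb⟩ := mid_band hη hη1 (hF _ h1) (hF _ h2) hm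
    exact ⟨Finset.mem_filter.2 ⟨h1, e1⟩, Finset.mem_filter.2 ⟨h2, by omega⟩, hm, hF _ h1, hF _ h2,
      e1, a1, a2, a3, fun h => le_trans (a4 h) a1, e5⟩
  have hx0E : x0 ∈ E := Finset.mem_filter.2 ⟨hx0, hk0⟩
  obtain ⟨-, -, hm0, hq0, hr0, hn0, ht1, ht2, hbt, hbf, hl0⟩ := hmem x0 hx0E
  have htpos : 0 < t := lt_of_lt_of_le (tt_pos hη hη1 hq0 hr0 hm0.1) ht1
  obtain ⟨hB, -⟩ := big_band hη hη1 hq0.1
  rw [hn0] at hB
  have hX1 : 1 ≤ X := hB.one_le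
  have hθ := tha_pos hη
  have hthi : t ≤ 2 * X ^ (2 * tha η) := by
    obtain ⟨-, -, hq2, -⟩ := mid_band hη hη1 hq0 hr0 hm0
    rw [hn0] at hq2
    refine ht2.trans (mul_le_mul_of_nonneg_left (hm0.2.2.1.trans ?_) (by norm_num))
    refine (Real.rpow_le_rpow (Nat.cast_nonneg _) hq2 hθ.le).trans (le_of_eq ?_)
    rw [← Real.rpow_natCast, ← Real.rpow_mul (by linarith)]
    norm_num [X]
  have H : Sys η γ X t ψ E := by
    refine ⟨hη, hη1, hB, htpos, ?_, hthi, fun x hx => ?_⟩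
    · obtain ⟨P0, -, hq2, -⟩ := mid_band hη hη1 hq0 hr0 hm0
      rw [hn0] at hq2
      refine le_trans ?_ (hm0.2.1.le.trans ht1)
      refine le_trans (le_of_eq ?_) (Real.rpow_le_rpow_of_nonpos (by exact_mod_cast P0.hq) hq2 (by linarith))
      rw [← Real.rpow_natCast, ← Real.rpow_mul (by linarith)]
      norm_num [X]
    · obtain ⟨-, -, hm, hq, hr, hn, hle, -⟩ := hmem x hx
      obtain ⟨P', a1, a2, a3, a4, a5, -, -⟩ := mid_band hη hη1 hq hr hm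
      rw [hn] at a1 a2 a3 a4 a5
      exact ⟨P', a1, a2, a3, a4.trans (pow_le_pow_right₀ hX1 (by norm_num)), a5, hle⟩
  have hpos : ∀ x ∈ V0 ∪ W0, 0 < x := fun x hx => by
    have h : x ∈ F := by
      rcases Finset.mem_union.1 hx with h | h <;> exact (Finset.mem_filter.1 h).1
    have := ((hF x h).1.facts hη hη1).1
    omega
  have hlev : 1 ≤ l → Lev η X t (W1f η t) (W2f t) l (J0 * (l + 1)) ∧
      ∀ x ∈ E, (l:ℝ) ≤ x1 (W1f η t) x.1 x.2 ∨
        ∃ k ∈ Hits η γ ψ x.1 x.2, (l:ℝ) ≤ x2 (W2f t) η γ x.1 x.2 k := fun hl1 => by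
    refine ⟨?_, fun x hx => ?_⟩
    · have := mid_lev hη hη1 hq0 hr0 hm0 htpos (by rw [hn0]; exact hthi) hl0 hl1
      rwa [hn0] at this
    · obtain ⟨-, -, -, -, -, -, -, -, -, -, hlx⟩ := hmem x hx
      have := lvl_witness (η := η) (γ := γ) (ψ := ψ) (t := t) (q := x.1) (r := x.2) (by rw [hlx]; exact hl1)
      rw [hlx] at this
      exact this
  obtain ⟨hS, hL⟩ := hE η γ X t ψ μ E V0 W0 l H hμ hψ (fun x => le_of_eq (mul_comm _ _)) hpos
    (fun x hx => (hmem x hx).2.2.1.2.2.2) hlev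
  have hEE : EE μ E V0 W0 = ∑ x ∈ E, (lam x.1 * ψ x.1) * (lam x.2 * ψ x.2) :=
    Finset.sum_congr (Finset.filter_true_of_mem fun x hx => ⟨(hmem x hx).1, (hmem x hx).2.1⟩) fun _ _ => rfl
  rw [← hEE]
  set MM := (mass μ V0 * mass μ W0) ^ sg
  have hMM : 0 ≤ MM := Real.rpow_nonneg (mul_nonneg (mass_nonneg hμ _) (mass_nonneg hμ _)) _
  have e3 : Real.exp (-3) ^ l = Real.exp (4 * (l:ℝ)) * Real.exp (-(7 * l)) := by
    rw [← Real.exp_nat_mul, ← Real.exp_add]; congr 1; ring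
  rcases Bool.eq_false_or_eq_true b with hb | hb
  · have ew : wgt (n, d, b, i, l) = Real.exp (4 * (l:ℝ)) / t := by
      simp only [wgt, t, hb, if_true]
    have et : t ^ (1/100 : ℝ) = ρ1 ^ i := by
      simp only [t, tof, hb, if_true, ρ1]
      rw [← Real.rpow_natCast, ← Real.rpow_natCast, ← Real.rpow_mul (by norm_num),
        ← Real.rpow_mul (by norm_num), mul_comm]
    refine (mul_le_mul_of_nonneg_left (hS (hbt hb)) (wgt_nonneg _)).trans (le_of_eq ?_)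
    rw [ew, e3, ← et]
    field_simp
  · rcases Nat.eq_zero_or_pos l with e | e
    · have ew : wgt (n, d, b, i, l) = 0 := by simp [wgt, hb, e]
      rw [ew, zero_mul]
      have := rho1_bounds.1
      positivity
    · have ew : wgt (n, d, b, i, l) = Real.exp (4 * (l:ℝ)) := by
        simp only [wgt, hb, Bool.false_eq_true, if_false]
        rw [if_pos (show 1 ≤ l from e)]
      have et : 1 / t ≤ ρ1 ^ i := by
        simp only [t, tof, hb, Bool.false_eq_true, if_false]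
        refine le_trans ?_ (pow_le_pow_left₀ (by norm_num) rho1_bounds.1 i)
        rw [div_pow, one_pow]
        exact one_div_le_one_div_of_le (by positivity) (pow_le_pow_right₀ one_le_two (Nat.le_succ i))
      refine (mul_le_mul_of_nonneg_left (hL (hbf hb) e) (wgt_nonneg _)).trans ?_
      rw [ew, e3, ← mul_assoc]
      refine mul_le_mul_of_nonneg_right ?_ hMM
      have h0 : 0 ≤ C * (Real.exp (4 * (l:ℝ)) * Real.exp (-(7 * l))) := by positivity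
      have := mul_le_mul_of_nonneg_left et h0
      refine le_trans (le_of_eq ?_) (this.trans (le_of_eq ?_))
      · ring
      · ring

lemma geom_le {ρ : ℝ} (h0 : 0 ≤ ρ) (h1 : ρ < 1) (N : ℕ) : ∑ i ∈ Finset.range N, ρ ^ i ≤ 1 / (1 - ρ) := by
  rw [one_div, ← tsum_geometric_of_lt_one h0 h1]
  exact (summable_geometric_of_lt_one h0 h1).sum_le_tsum _ fun i _ => by positivity

lemma band_total (hψ : ∀ x, 0 ≤ ψ x) (F : Finset ℕ) (N : Finset ℕ) (d : ℕ) :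
    ∑ n ∈ N, mass (fun q => lam q * ψ q) (F.filter fun q => nb q = n + d) ≤ ∑ q ∈ F, lam q * ψ q := by
  unfold mass
  rw [← Finset.sum_biUnion (fun a _ b _ hab => Finset.disjoint_left.2 fun x hx hy => hab (by
    have := (Finset.mem_filter.1 hx).2
    have := (Finset.mem_filter.1 hy).2
    omega))]
  refine Finset.sum_le_sum_of_subset_of_nonneg (fun x hx => ?_) fun x _ _ => mul_nonneg (lam_nonneg x) (hψ x)
  obtain ⟨n, -, hn⟩ := Finset.mem_biUnion.1 hx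
  exact (Finset.mem_filter.1 hn).1

/-- The contribution of the weighted keys. -/
lemma mid_sum (hη : 0 < η) (hη1 : η ≤ 1) : ∃ C : ℝ, 0 < C ∧ ∀ (γ : ℝ) (ψ : ℕ → ℝ) (F : Finset ℕ)
    (P : Finset (ℕ × ℕ)), (∀ x, 0 ≤ ψ x) → (∀ x ∈ F, Rng η ψ x) →
      (∀ x ∈ P, x.1 ∈ F ∧ x.2 ∈ F ∧ Mid η γ ψ x.1 x.2) → ∑ q ∈ F, lam q * ψ q ≤ 2 →
      ∑ x ∈ P, wgt (key η γ ψ x) * ((lam x.1 * ψ x.1) * (lam x.2 * ψ x.2)) ≤ C := by
  obtain ⟨C, hC, hfib⟩ := fibre_sum hη hη1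
  obtain ⟨hρa, hρ1⟩ := rho1_bounds
  have hρ0 : 0 ≤ ρ1 := by linarith
  have he : Real.exp (-3) < 1 := Real.exp_lt_one_iff.2 (by norm_num)
  have hg1 : 0 < 1 / (1 - ρ1) := by rw [one_div_pos]; linarith
  have hg2 : 0 < 1 / (1 - Real.exp (-3)) := by rw [one_div_pos]; linarith
  refine ⟨C * ((2:ℝ) ^ (2 * sg) * 3 * 2 * (1 / (1 - ρ1) * (1 / (1 - Real.exp (-3))))), by positivity,
    fun γ ψ F P hψ hF hP hK => ?_⟩
  set μ := fun q => lam q * ψ q
  have hμ : ∀ x, 0 ≤ μ x := fun x => mul_nonneg (lam_nonneg x) (hψ x)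
  set M := fun n => mass μ (F.filter fun q => nb q = n)
  have hM0 : ∀ n, 0 ≤ M n := fun n => mass_nonneg hμ _
  rw [← Finset.sum_fiberwise_of_maps_to (g := key η γ ψ) fun x hx => Finset.mem_image_of_mem _ hx]
  refine (Finset.sum_le_sum (g := fun κ => C * (ρ1 ^ κ.2.2.2.1 * Real.exp (-3) ^ κ.2.2.2.2) *
    (M κ.1 * M (κ.1 + κ.2.1)) ^ sg) fun κ hκ => ?_).trans ?_
  · refine le_trans (le_of_eq ?_) (hfib γ ψ F P hψ hF hP κ hκ)
    rw [Finset.mul_sum]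
    exact Finset.sum_congr rfl fun x hx => by rw [(Finset.mem_filter.1 hx).2]
  set K := P.image (key η γ ψ)
  set N := K.image fun κ => κ.1
  set I := (K.image fun κ => κ.2.2.2.1).sup id + 1
  set J := (K.image fun κ => κ.2.2.2.2).sup id + 1
  have hsub : K ⊆ N ×ˢ Finset.range 3 ×ˢ (Finset.univ : Finset Bool) ×ˢ Finset.range I ×ˢ Finset.range J := by
    intro κ hκ
    simp only [Finset.mem_product, Finset.mem_range, Finset.mem_univ, true_and]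
    refine ⟨Finset.mem_image_of_mem _ hκ, ?_, Nat.lt_succ_of_le
      (Finset.le_sup (f := id) (Finset.mem_image_of_mem (fun κ => κ.2.2.2.1) hκ)), Nat.lt_succ_of_le
      (Finset.le_sup (f := id) (Finset.mem_image_of_mem (fun κ => κ.2.2.2.2) hκ))⟩
    obtain ⟨x, hx, rfl⟩ := Finset.mem_image.1 hκ
    obtain ⟨h1, h2, hm⟩ := hP x hx
    obtain ⟨-, -, -, -, -, -, hn, -⟩ := mid_band hη hη1 (hF _ h1) (hF _ h2) hm
    simp only [key]; omega
  refine (Finset.sum_le_sum_of_subset_of_nonneg hsub fun κ _ _ => by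
    have := hM0 κ.1; have := hM0 (κ.1 + κ.2.1); positivity).trans ?_
  simp only [Finset.sum_product]
  have hnd : ∑ n ∈ N, ∑ d ∈ Finset.range 3, (M n * M (n + d)) ^ sg ≤ (2:ℝ) ^ (2 * sg) * 3 := by
    rw [Finset.sum_comm]
    refine (Finset.sum_le_card_nsmul _ _ ((2:ℝ) ^ (2 * sg)) fun d _ => ?_).trans
      (le_of_eq (by rw [Finset.card_range, nsmul_eq_mul]; push_cast; ring))
    refine (Finset.sum_le_sum fun n _ => cross_le _ _ (hM0 n) (hM0 (n + d))).trans ?_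
    rw [← Finset.sum_div, Finset.sum_add_distrib]
    have a1 := sum_rpow_two_sg_le N M hM0 2 (((band_total hψ F N 0)).trans hK)
    have a2 := sum_rpow_two_sg_le N (fun n => M (n + d)) (fun n => hM0 _) 2 ((band_total hψ F N d).trans hK)
    linarith
  set G := 2 * ((∑ i ∈ Finset.range I, ρ1 ^ i) * ∑ j ∈ Finset.range J, Real.exp (-3) ^ j)
  have hG : G ≤ 2 * (1 / (1 - ρ1) * (1 / (1 - Real.exp (-3)))) :=
    mul_le_mul_of_nonneg_left (mul_le_mul (geom_le hρ0 hρ1 _) (geom_le (Real.exp_pos _).le he _)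
      (Finset.sum_nonneg fun _ _ => by positivity) hg1.le) (by norm_num)
  calc ∑ n ∈ N, ∑ d ∈ Finset.range 3, ∑ _b : Bool, ∑ i ∈ Finset.range I, ∑ j ∈ Finset.range J,
        C * (ρ1 ^ i * Real.exp (-3) ^ j) * (M n * M (n + d)) ^ sg
      = C * ((∑ n ∈ N, ∑ d ∈ Finset.range 3, (M n * M (n + d)) ^ sg) * G) := by
        rw [Finset.sum_mul, Finset.mul_sum]
        refine Finset.sum_congr rfl fun n _ => ?_
        rw [Finset.sum_mul, Finset.mul_sum]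
        refine Finset.sum_congr rfl fun d _ => ?_
        simp only [G, ← Finset.mul_sum, ← Finset.sum_mul, Fintype.sum_bool]
        ring
    _ ≤ _ := by
        refine mul_le_mul_of_nonneg_left ?_ hC.le
        refine (mul_le_mul hnd hG (by positivity) (by positivity)).trans (le_of_eq ?_)
        ring

/-- The second moment bound. -/
theorem second_moment (hη : 0 < η) (hη1 : η ≤ 1) : ∃ C : ℝ, 0 < C ∧ ∀ (γ : ℝ) (ψ : ℕ → ℝ) (F : Finset ℕ),
    (∀ x, 0 ≤ ψ x) → (∀ x ∈ F, Rng η ψ x) → (∀ x ∈ F, 2 * ψ x ≤ 1) → ∑ q ∈ F, lam q * ψ q ≤ 2 →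
      ∑ q ∈ F, ∑ r ∈ F, ov η γ ψ q r ≤ C := by
  obtain ⟨Ch, hCh, hhuge⟩ := ov_huge hη hη1
  obtain ⟨Ct, hCt, htiny⟩ := tiny_total hη hη1
  obtain ⟨Ck, hCk, hkey⟩ := ov_key hη hη1
  obtain ⟨Cm, hCm, hmid⟩ := mid_sum hη hη1
  refine ⟨4 + 2 * (4 * (Ch + Ck) + Ct * 2 + Ck * Cm), by positivity, fun γ ψ F hψ hF hhalf hK => ?_⟩
  have hpos : ∀ x ∈ F, 0 < x := fun x hx => by have := ((hF x hx).1.facts hη hη1).1; omega
  have hcomm : ∀ q r, ov η γ ψ q r = ov η γ ψ r q := fun q r => by unfold ov; rw [Set.inter_comm]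
  set μ := fun q => lam q * ψ q
  have hμ : ∀ x, 0 ≤ μ x := fun x => mul_nonneg (lam_nonneg x) (hψ x)
  have hK0 : 0 ≤ ∑ q ∈ F, μ q := Finset.sum_nonneg fun q _ => hμ q
  set U := ∑ q ∈ F, ∑ r ∈ F, (if q < r then ov η γ ψ q r else 0)
  have hdiag : ∑ q ∈ F, ov η γ ψ q q ≤ 4 := by
    calc ∑ q ∈ F, ov η γ ψ q q = ∑ q ∈ F, 2 * μ q := Finset.sum_congr rfl fun q hq => by
          unfold ov; rw [Set.inter_self, volume_real_SSet (hpos q hq) (hψ q) (hhalf q hq)]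
          simp only [μ]; ring
      _ ≤ 4 := by rw [← Finset.mul_sum]; linarith
  have hsplit : ∑ q ∈ F, ∑ r ∈ F, ov η γ ψ q r = (∑ q ∈ F, ov η γ ψ q q) + 2 * U := by
    have e : ∀ q ∈ F, ∑ r ∈ F, ov η γ ψ q r = ov η γ ψ q q + ((∑ r ∈ F, (if q < r then ov η γ ψ q r else 0))
        + ∑ r ∈ F, (if r < q then ov η γ ψ r q else 0)) := by
      intro q hq
      rw [← Finset.sum_add_distrib]
      have e2 : ov η γ ψ q q = ∑ r ∈ F, (if q = r then ov η γ ψ q r else 0) := by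
        rw [Finset.sum_ite_eq, if_pos hq]
      rw [e2, ← Finset.sum_add_distrib]
      refine Finset.sum_congr rfl fun r _ => ?_
      rcases lt_trichotomy q r with h | h | h
      · simp [h, h.ne, h.not_gt]
      · simp [h]
      · simp [h, h.ne', h.not_gt, hcomm q r]
    rw [Finset.sum_congr rfl e, Finset.sum_add_distrib, Finset.sum_add_distrib,
      Finset.sum_comm (f := fun q r => if r < q then ov η γ ψ r q else 0)]
    ring
  set S := (F ×ˢ F).filter (fun x => x.1 < x.2)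
  have hU : U = ∑ x ∈ S, ov η γ ψ x.1 x.2 := by
    simp only [U, S, Finset.sum_filter, Finset.sum_product]
  set St := S.filter (fun x => tt ψ x.1 x.2 ≤ (x.1:ℝ) ^ (-tha η) ∧ (Hits η γ ψ x.1 x.2).Nonempty)
  set Sm := S.filter (fun x => Mid η γ ψ x.1 x.2)
  have hS : ∀ x ∈ S, x.1 ∈ F ∧ x.2 ∈ F ∧ x.1 < x.2 := fun x hx => by
    obtain ⟨h1, h2⟩ := Finset.mem_filter.1 hx
    exact ⟨(Finset.mem_product.1 h1).1, (Finset.mem_product.1 h1).2, h2⟩
  have hmu2 : ∀ x : ℕ × ℕ, 0 ≤ μ x.1 * μ x.2 := fun x => mul_nonneg (hμ _) (hμ _)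
  have hpt : ∀ x ∈ S, ov η γ ψ x.1 x.2 ≤ (Ch + Ck) * (μ x.1 * μ x.2)
      + (if tt ψ x.1 x.2 ≤ (x.1:ℝ) ^ (-tha η) ∧ (Hits η γ ψ x.1 x.2).Nonempty then ov η γ ψ x.1 x.2 else 0)
      + (if Mid η γ ψ x.1 x.2 then Ck * (wgt (key η γ ψ x) * (μ x.1 * μ x.2)) else 0) := by
    intro x hx
    obtain ⟨h1, h2, h3⟩ := hS x hx
    have hov : 0 ≤ ov η γ ψ x.1 x.2 := measureReal_nonneg
    have hw := mul_nonneg hCk.le (mul_nonneg (wgt_nonneg (key η γ ψ x)) (hmu2 x))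
    have hb := mul_nonneg hCk.le (hmu2 x)
    have hb' := mul_nonneg hCh.le (hmu2 x)
    rcases (Hits η γ ψ x.1 x.2).eq_empty_or_nonempty with h0 | h0
    · rw [hits_empty (hpos _ h1) (hpos _ h2) (hψ _) (hψ _) h0]
      split_ifs <;> linarith
    by_cases htlo : tt ψ x.1 x.2 ≤ (x.1:ℝ) ^ (-tha η)
    · rw [if_pos ⟨htlo, h0⟩]
      split_ifs <;> linarith
    rw [if_neg (fun h => htlo h.1)]
    by_cases hthi : tt ψ x.1 x.2 ≤ (x.1:ℝ) ^ tha η
    · have hm : Mid η γ ψ x.1 x.2 := ⟨h3, not_le.1 htlo, hthi, h0⟩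
      rw [if_pos hm]
      refine (hkey γ ψ x.1 x.2 h3 (hF _ h1) (hF _ h2)).trans ?_
      simp only [Prod.mk.eta, μ] at hb' ⊢
      linarith
    · have := hhuge γ ψ x.1 x.2 h3 (hF _ h1) (hF _ h2) (not_le.1 hthi)
      rw [if_neg (fun h : Mid η γ ψ x.1 x.2 => hthi h.2.2.1)]
      simp only [μ] at hb ⊢
      linarith
  have hUle : U ≤ 4 * (Ch + Ck) + Ct * 2 + Ck * Cm := by
    rw [hU]
    refine (Finset.sum_le_sum hpt).trans ?_
    rw [Finset.sum_add_distrib, Finset.sum_add_distrib]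
    refine add_le_add (add_le_add ?_ ?_) ?_
    · rw [← Finset.mul_sum, mul_comm (4:ℝ)]
      refine mul_le_mul_of_nonneg_left ?_ (by positivity)
      refine (Finset.sum_le_sum_of_subset_of_nonneg (Finset.filter_subset _ _) fun x _ _ => hmu2 x).trans ?_
      rw [Finset.sum_product, ← Finset.sum_mul_sum]
      nlinarith
    · rw [← Finset.sum_filter]
      refine (htiny γ ψ F St (fun x hx => ?_) fun q _ => hψ q).trans
        (mul_le_mul_of_nonneg_left hK hCt.le)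
      obtain ⟨hxS, h4, h5⟩ := Finset.mem_filter.1 hx
      obtain ⟨h1, h2, h3⟩ := hS x hxS
      exact ⟨h1, h2, h3, ((hF _ h1).1.facts hη hη1).2.1, (hF _ h1).2.1, (hF _ h1).2.2,
        hψ _, (hF _ h2).2.2, h4, h5⟩
    · rw [← Finset.sum_filter, ← Finset.mul_sum]
      refine mul_le_mul_of_nonneg_left (hmid γ ψ F Sm hψ hF (fun x hx => ?_) hK) hCk.le
      obtain ⟨hxS, hm⟩ := Finset.mem_filter.1 hx
      exact ⟨(hS x hxS).1, (hS x hxS).2.1, hm⟩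
  rw [hsplit]
  linarith

end Vale.Agent.P028.Wide
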