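import Vale.Agent.P028.Wide.Sets
import Vale.Agent.P028.Wide.Anal

namespace Vale.Agent.P028.Wide

open Finset MeasureTheory
open scoped Classical

/-- Pairs of selected numerators whose intervals can meet. -/
noncomputable def EPairs (η γ : ℝ) (ψ : ℕ → ℝ) (q r : ℕ) : Finset (ℤ × ℤ) :=
  (Pairs γ q r ((r:ℝ) * ψ q + (q:ℝ) * ψ r)).filter (fun x => x.1 ∈ Eset η γ q ∧ x.2 ∈ Eset η γ r)

/-- The integers coming from the selected pairs. -/
noncomputable def Hits (η γ : ℝ) (ψ : ℕ → ℝ) (q r : ℕ) : Finset ℤ :=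
  (EPairs η γ ψ q r).image (fun x => x.1 * (cv q r : ℤ) - x.2 * (cu q r : ℤ))

/-- The measure of an overlap. -/
noncomputable def ov (η γ : ℝ) (ψ : ℕ → ℝ) (q r : ℕ) : ℝ :=
  volume.real (SSet η γ ψ q ∩ SSet η γ ψ r)

/-- The two removed classes modulo `p` coincide for the integer `k`. -/
def Coin (η γ : ℝ) (q r : ℕ) (k : ℤ) (p : ℕ) : Prop :=
  (p:ℤ) ∣ k - ((cv q r : ℤ) * base η γ q p - (cu q r : ℤ) * base η γ r p)

/-- The first statistic. -/
noncomputable def x1 (W : ℝ) (q r : ℕ) : ℝ := xw W (cu q r * cv q r).primeFactors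

/-- The second statistic. -/
noncomputable def x2 (W η γ : ℝ) (q r : ℕ) (k : ℤ) : ℝ :=
  xw W ((Nat.gcd q r).primeFactors.filter (fun p : ℕ => (p:ℝ) ≤ Real.log q ∧ Coin η γ q r k p))

variable {η γ : ℝ} {ψ : ℕ → ℝ} {q r : ℕ}

lemma hit_near (P : PairFacts q r) {x : ℤ × ℤ} (hx : x ∈ EPairs η γ ψ q r) :
    |((x.1 * (cv q r : ℤ) - x.2 * (cu q r : ℤ) : ℤ):ℝ) + γ * ((cv q r - cu q r : ℕ):ℝ)|
      < tt ψ q r := by
  obtain ⟨hp, -⟩ := Finset.mem_filter.1 hx
  have h := ((mem_Pairs (a := x.1) (b := x.2) P.hq).1 hp).2.2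
  have e1 : (q:ℝ) = (Nat.gcd q r : ℝ) * (cu q r : ℝ) := by exact_mod_cast P.hu
  have e2 : (r:ℝ) = (Nat.gcd q r : ℝ) * (cv q r : ℝ) := by exact_mod_cast P.hv
  have hg : (0:ℝ) < (Nat.gcd q r : ℝ) := by exact_mod_cast P.hg
  rw [Nat.cast_sub P.huv.le]
  push_cast
  unfold tt
  rw [lt_div_iff₀ hg]
  have e : (x.1:ℝ) * r - (x.2:ℝ) * q + off γ q r =
      ((x.1:ℝ) * (cv q r : ℝ) - (x.2:ℝ) * (cu q r : ℝ) + γ * ((cv q r : ℝ) - (cu q r : ℝ)))
        * (Nat.gcd q r : ℝ) := by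
    unfold off; linear_combination ((x.1:ℝ) + γ) * e2 + (-(x.2:ℝ) - γ) * e1
  rw [e, abs_mul, abs_of_pos hg] at h
  exact h

lemma hits_near (P : PairFacts q r) {k : ℤ} (hk : k ∈ Hits η γ ψ q r) :
    |(k:ℝ) + γ * ((cv q r - cu q r : ℕ):ℝ)| < tt ψ q r := by
  obtain ⟨x, hx, rfl⟩ := Finset.mem_image.1 hk
  exact hit_near P hx

lemma hits_card_le (P : PairFacts q r) (hψq : 0 ≤ ψ q) (hψr : 0 ≤ ψ r) :
    ((Hits η γ ψ q r).card : ℝ) ≤ 2 * tt ψ q r + 1 :=
  card_int_near _ (γ * ((cv q r - cu q r : ℕ):ℝ)) _ (by unfold tt; positivity) fun _ hk => hits_near P hk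

lemma mem_q {p : ℕ} (P : PairFacts q r) (hp : p.Prime) (h : p ∣ cu q r ∨ p ∣ Nat.gcd q r) :
    p ∈ q.primeFactors := by
  refine Nat.mem_primeFactors.2 ⟨hp, ?_, P.hq.ne'⟩
  rw [P.hu]
  rcases h with h | h
  · exact h.mul_left _
  · exact h.mul_right _

lemma mem_r {p : ℕ} (P : PairFacts q r) (hp : p.Prime) (h : p ∣ cv q r ∨ p ∣ Nat.gcd q r) :
    p ∈ r.primeFactors := by
  refine Nat.mem_primeFactors.2 ⟨hp, ?_, P.hr.ne'⟩
  rw [P.hv]
  rcases h with h | h
  · exact h.mul_left _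
  · exact h.mul_right _

/-- The degenerate line of the exceptional fraction never occurs. -/
lemma kill (P : PairFacts q r) {k : ℤ} (hk : k ∈ Hits η γ ψ q r) :
    k * ((star η γ r).1 : ℤ) + (star η γ r).2 * ((cv q r : ℤ) - cu q r) ≠ 0 := by
  obtain ⟨⟨a, b⟩, hx, rfl⟩ := Finset.mem_image.1 hk
  intro h0
  obtain ⟨-, hb⟩ := (Finset.mem_filter.1 hx).2
  simp only at h0
  set B := ((star η γ r).1 : ℤ)
  set A := (star η γ r).2
  have hv2 : cv q r ≠ 1 := by have := P.hu0; have := P.huv; omega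
  obtain ⟨p, hp, hpv⟩ := Nat.exists_prime_and_dvd hv2
  have hd : (cv q r : ℤ) ∣ (cu q r : ℤ) * (b * B + A) := ⟨a * B + A, by linear_combination -h0⟩
  have hd2 : (cv q r : ℤ) ∣ b * B + A :=
    (Int.isCoprime_iff_nat_coprime.2 (by simpa using P.hcop.symm)).dvd_of_dvd_mul_left hd
  have hd3 : (p:ℤ) ∣ A + b * B := by
    rw [add_comm]; exact (Int.natCast_dvd_natCast.2 hpv).trans hd2
  exact (mem_Eset.1 hb).2 p (mem_r P hp (Or.inl hpv)) (base_kill hp hd3)

/-- The class avoided by a hit modulo a prime of the cofactors. -/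
noncomputable def admc (η γ : ℝ) (q r p : ℕ) : ℤ :=
  if p ∣ cu q r then (cv q r : ℤ) * base η γ q p else -((cu q r : ℤ) * base η γ r p)

lemma hits_adm (P : PairFacts q r) {k : ℤ} (hk : k ∈ Hits η γ ψ q r) {p : ℕ} (hp : p.Prime)
    (hpuv : p ∣ cu q r * cv q r) : ¬ (p:ℤ) ∣ k - admc η γ q r p := by
  obtain ⟨⟨a, b⟩, hx, rfl⟩ := Finset.mem_image.1 hk
  obtain ⟨ha, hb⟩ := (Finset.mem_filter.1 hx).2
  have hpz : Prime (p:ℤ) := Nat.prime_iff_prime_int.1 hp
  intro hd
  simp only at hd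
  unfold admc at hd
  by_cases hu : p ∣ cu q r
  · rw [if_pos hu] at hd
    have hu' : (p:ℤ) ∣ (cu q r : ℤ) := Int.natCast_dvd_natCast.2 hu
    have h1 : (p:ℤ) ∣ (cv q r : ℤ) * (a - base η γ q p) := by
      have := dvd_add hd (hu'.mul_left b)
      rwa [show a * (cv q r : ℤ) - b * (cu q r : ℤ) - (cv q r : ℤ) * base η γ q p + b * (cu q r : ℤ)
        = (cv q r : ℤ) * (a - base η γ q p) by ring] at this
    have hv : ¬ (p:ℤ) ∣ (cv q r : ℤ) := fun h =>
      hp.one_lt.ne' (Nat.eq_one_of_dvd_coprimes P.hcop hu (Int.natCast_dvd_natCast.1 h))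
    exact (mem_Eset.1 ha).2 p (mem_q P hp (Or.inl hu)) ((hpz.dvd_or_dvd h1).resolve_left hv)
  · rw [if_neg hu] at hd
    have hv : p ∣ cv q r := (hp.dvd_mul.1 hpuv).resolve_left hu
    have hv' : (p:ℤ) ∣ (cv q r : ℤ) := Int.natCast_dvd_natCast.2 hv
    have h1 : (p:ℤ) ∣ (cu q r : ℤ) * (b - base η γ r p) := by
      have := dvd_sub (hv'.mul_left a) hd
      rwa [show a * (cv q r : ℤ) - (a * (cv q r : ℤ) - b * (cu q r : ℤ) - -((cu q r : ℤ) * base η γ r p))
        = (cu q r : ℤ) * (b - base η γ r p) by ring] at this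
    exact (mem_Eset.1 hb).2 p (mem_r P hp (Or.inl hv))
      ((hpz.dvd_or_dvd h1).resolve_left fun h => hu (Int.natCast_dvd_natCast.1 h))

lemma dvd_eq {a b c : ℤ} (h : a ∣ b) (e : b = c) : a ∣ c := e ▸ h

lemma exists_root {p u : ℕ} (hp : p.Prime) (hu : ¬ p ∣ u) (c : ℤ) :
    ∃ i < p, (p:ℤ) ∣ c + (u:ℤ) * (i:ℤ) := by
  obtain ⟨z, hz⟩ := exists_cls (u, c) p hp (fun h => hu (Int.natCast_dvd_natCast.1 h))
  refine ⟨(z % (p:ℤ)).toNat, ?_, ?_⟩
  · have := Int.emod_lt_of_pos z (by exact_mod_cast hp.pos : (0:ℤ) < p)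
    have := Int.emod_nonneg z (by exact_mod_cast hp.ne_zero : (p:ℤ) ≠ 0)
    omega
  · rw [Int.toNat_of_nonneg (Int.emod_nonneg z (by exact_mod_cast hp.ne_zero))]
    have e : c + (u:ℤ) * (z % (p:ℤ)) = (c + z * (u:ℤ)) - (p:ℤ) * ((u:ℤ) * (z / (p:ℤ))) := by
      have := Int.emod_add_mul_ediv z (p:ℤ)
      linear_combination (u:ℤ) * this
    rw [e]
    exact dvd_sub hz (dvd_mul_right _ _)

/-- The number of excluded classes modulo `p` in a fibre. -/
noncomputable def excl (η γ : ℝ) (q r : ℕ) (k : ℤ) (p : ℕ) : ℕ :=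
  if p ∣ cu q r * cv q r ∨ Coin η γ q r k p then 1 else 2

lemma fibre_le (P : PairFacts q r) (k : ℤ) :
    ((((EPairs η γ ψ q r).filter (fun x => x.1 * (cv q r : ℤ) - x.2 * (cu q r : ℤ) = k)).card : ℕ) : ℝ)
      ≤ (Nat.gcd q r : ℝ) * ∏ p ∈ (Nat.gcd q r).primeFactors, (1 - (excl η γ q r k p : ℝ) / p) := by
  set g := Nat.gcd q r with hg
  set u := cu q r with hu
  set v := cv q r with hv
  set S := (EPairs η γ ψ q r).filter (fun x => x.1 * (v : ℤ) - x.2 * (u : ℤ) = k)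
  have hexcl2 : ∀ p ∈ g.primeFactors, (excl η γ q r k p : ℝ) / p ≤ 1 := fun p hp => by
    have h2 := (Nat.prime_of_mem_primeFactors hp).two_le
    rw [div_le_one (by positivity)]
    have : excl η γ q r k p ≤ 2 := by unfold excl; split_ifs <;> norm_num
    exact_mod_cast le_trans this h2
  rcases S.eq_empty_or_nonempty with h0 | ⟨⟨a0, b0⟩, hx0⟩
  · rw [h0]; simp only [Finset.card_empty, Nat.cast_zero]
    exact mul_nonneg (Nat.cast_nonneg _) (Finset.prod_nonneg fun p hp => by linarith [hexcl2 p hp])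
  obtain ⟨-, hk0⟩ := Finset.mem_filter.1 hx0
  simp only at hk0
  have hu0 : (0:ℤ) < (u:ℤ) := by exact_mod_cast P.hu0
  set a' := a0 % (u:ℤ)
  set b' := b0 - (v:ℤ) * (a0 / (u:ℤ))
  have ha0 : a0 = a' + (u:ℤ) * (a0 / (u:ℤ)) := (Int.emod_add_mul_ediv a0 (u:ℤ)).symm
  have hform : ∀ x ∈ S, x.1 = a' + (u:ℤ) * (x.1 / (u:ℤ)) ∧ x.2 = b' + (v:ℤ) * (x.1 / (u:ℤ)) := by
    intro x hx
    obtain ⟨-, hxk⟩ := Finset.mem_filter.1 hx
    have hd : (u:ℤ) ∣ (x.1 - a0) * (v:ℤ) := ⟨x.2 - b0, by linear_combination hxk - hk0⟩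
    have hd' : (u:ℤ) ∣ x.1 - a0 :=
      (Int.isCoprime_iff_nat_coprime.2 (by simpa using P.hcop)).dvd_of_dvd_mul_right hd
    have hm : x.1 % (u:ℤ) = a' := Int.emod_eq_emod_iff_emod_sub_eq_zero.2 (Int.emod_eq_zero_of_dvd hd')
    have h1 : x.1 = a' + (u:ℤ) * (x.1 / (u:ℤ)) := by
      conv_lhs => rw [← Int.emod_add_mul_ediv x.1 (u:ℤ), hm]
    refine ⟨h1, ?_⟩
    have e : (u:ℤ) * (x.2 - (b' + (v:ℤ) * (x.1 / (u:ℤ)))) = 0 := by
      simp only [b']
      linear_combination -hxk + hk0 + (v:ℤ) * h1 - (v:ℤ) * ha0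
    rcases mul_eq_zero.1 e with h | h
    · omega
    · linarith
  set F : ℕ → Finset ℕ := fun p => (Finset.range p).filter (fun i : ℕ =>
    (p:ℤ) ∣ a' + (u:ℤ) * i - base η γ q p ∨ (p:ℤ) ∣ b' + (v:ℤ) * i - base η γ r p)
  have hP : ∀ p ∈ g.primeFactors, p.Prime ∧ p ∣ g := fun p hp =>
    ⟨Nat.prime_of_mem_primeFactors hp, Nat.dvd_of_mem_primeFactors hp⟩
  have hcount := periodic_count g P.hg F g.primeFactors hP
    (fun p _ x hx => Finset.mem_range.1 (Finset.mem_filter.1 hx).1)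
  have hmap : S.card ≤ ((Finset.range g).filter (fun j => ∀ p ∈ g.primeFactors, j % p ∉ F p)).card := by
    refine Finset.card_le_card_of_injOn (fun x => (x.1 / (u:ℤ)).toNat) (fun x hx => ?_) (fun x hx y hy he => ?_)
    · obtain ⟨hxE, -⟩ := Finset.mem_filter.1 hx
      obtain ⟨ha, hb⟩ := (Finset.mem_filter.1 hxE).2
      obtain ⟨⟨h0, h1⟩, hav⟩ := mem_Eset.1 ha
      have hj0 : 0 ≤ x.1 / (u:ℤ) := Int.ediv_nonneg h0 hu0.le
      have hjg : x.1 / (u:ℤ) < g := by
        rw [Int.ediv_lt_iff_lt_mul hu0]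
        refine lt_of_lt_of_eq h1 ?_
        exact_mod_cast P.hu
      simp only [Finset.coe_filter, Set.mem_ofPred_eq, Finset.mem_range]
      refine ⟨by omega, fun p hp hbad => ?_⟩
      obtain ⟨hpp, hpg⟩ := hP p hp
      obtain ⟨-, hbad⟩ := Finset.mem_filter.1 hbad
      set j := (x.1 / (u:ℤ)).toNat
      have hj : ((j:ℕ):ℤ) = x.1 / (u:ℤ) := Int.toNat_of_nonneg hj0
      have hmod : (p:ℤ) ∣ (j:ℤ) - ((j % p : ℕ):ℤ) := by
        refine ⟨((j / p : ℕ):ℤ), ?_⟩
        have := Nat.mod_add_div j p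
        have h' : ((j % p : ℕ):ℤ) + (p:ℤ) * ((j / p : ℕ):ℤ) = (j:ℤ) := by exact_mod_cast this
        linarith
      obtain ⟨e1, e2⟩ := hform x hx
      rcases hbad with hbad | hbad
      · refine hav p (mem_q P hpp (Or.inr hpg)) ?_
        have := dvd_add hbad (hmod.mul_left (u:ℤ))
        exact dvd_eq this (by linear_combination -e1 + (u:ℤ) * hj)
      · refine (mem_Eset.1 hb).2 p (mem_r P hpp (Or.inr hpg)) ?_
        have := dvd_add hbad (hmod.mul_left (v:ℤ))
        exact dvd_eq this (by linear_combination -e2 + (v:ℤ) * hj)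
    · simp only [Finset.mem_coe] at hx hy
      obtain ⟨h0, -⟩ := (mem_Eset.1 (Finset.mem_filter.1 (Finset.mem_filter.1 hx).1).2.1).1
      obtain ⟨h0', -⟩ := (mem_Eset.1 (Finset.mem_filter.1 (Finset.mem_filter.1 hy).1).2.1).1
      have e : x.1 / (u:ℤ) = y.1 / (u:ℤ) := by
        have := Int.ediv_nonneg h0 hu0.le
        have := Int.ediv_nonneg h0' hu0.le
        simp only at he
        omega
      obtain ⟨a1, a2⟩ := hform x hx
      obtain ⟨b1, b2⟩ := hform y hy
      exact Prod.ext (by rw [a1, b1, e]) (by rw [a2, b2, e])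
  refine (Nat.cast_le.2 hmap).trans ?_
  rw [hcount]
  refine mul_le_mul_of_nonneg_left (Finset.prod_le_prod (fun p hp => ?_) fun p hp => ?_) (Nat.cast_nonneg _)
  · have hpp := (hP p hp).1
    have : ((F p).card : ℝ) ≤ p := by
      exact_mod_cast (Finset.card_filter_le _ _).trans (le_of_eq (Finset.card_range p))
    have : ((F p).card : ℝ) / p ≤ 1 := by rw [div_le_one (by exact_mod_cast hpp.pos)]; exact this
    linarith
  refine sub_le_sub_left (div_le_div_of_nonneg_right (Nat.cast_le.2 ?_) (Nat.cast_nonneg _)) _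
  have hpp := (hP p hp).1
  have root1 : ¬ p ∣ u → ∃ i < p, (p:ℤ) ∣ a' + (u:ℤ) * (i:ℤ) - base η γ q p := fun h => by
    obtain ⟨i, hi, hd⟩ := exists_root hpp h (a' - base η γ q p)
    exact ⟨i, hi, dvd_eq hd (by ring)⟩
  have root2 : ¬ p ∣ v → ∃ i < p, (p:ℤ) ∣ b' + (v:ℤ) * (i:ℤ) - base η γ r p := fun h => by
    obtain ⟨i, hi, hd⟩ := exists_root hpp h (b' - base η γ r p)
    exact ⟨i, hi, dvd_eq hd (by ring)⟩
  unfold excl
  by_cases hc : p ∣ cu q r * cv q r ∨ Coin η γ q r k p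
  · rw [if_pos hc]
    refine Finset.card_pos.2 ?_
    by_cases hpu : p ∣ u
    · obtain ⟨i, hi, hd⟩ := root2 fun h => hpp.one_lt.ne' (Nat.eq_one_of_dvd_coprimes P.hcop hpu h)
      exact ⟨i, Finset.mem_filter.2 ⟨Finset.mem_range.2 hi, Or.inr hd⟩⟩
    · obtain ⟨i, hi, hd⟩ := root1 hpu
      exact ⟨i, Finset.mem_filter.2 ⟨Finset.mem_range.2 hi, Or.inl hd⟩⟩
  · rw [if_neg hc]
    push Not at hc
    obtain ⟨hnd, hnc⟩ := hc
    obtain ⟨i1, hi1, hd1⟩ := root1 fun h => hnd (h.mul_right _)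
    obtain ⟨i2, hi2, hd2⟩ := root2 fun h => hnd (h.mul_left _)
    have hne : i1 ≠ i2 := by
      rintro rfl
      apply hnc
      unfold Coin
      have := dvd_sub (hd1.mul_left (v:ℤ)) (hd2.mul_left (u:ℤ))
      refine dvd_eq this ?_
      rw [← hk0, ← hu, ← hv]
      simp only [b']
      linear_combination -(v:ℤ) * ha0
    calc 2 = ({i1, i2} : Finset ℕ).card := (Finset.card_pair hne).symm
      _ ≤ _ := Finset.card_le_card fun i hi => by
          simp only [Finset.mem_insert, Finset.mem_singleton] at hi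
          rcases hi with rfl | rfl
          · exact Finset.mem_filter.2 ⟨Finset.mem_range.2 hi1, Or.inl hd1⟩
          · exact Finset.mem_filter.2 ⟨Finset.mem_range.2 hi2, Or.inr hd2⟩

/-- The coinciding primes of a fibre. -/
noncomputable def coinSet (η γ : ℝ) (q r : ℕ) (k : ℤ) : Finset ℕ :=
  (Nat.gcd q r).primeFactors.filter (fun p => ¬ p ∣ cu q r * cv q r ∧ Coin η γ q r k p)

/-- The reciprocal of the density of a set of primes. -/
noncomputable def pinv (S : Finset ℕ) : ℝ := (∏ p ∈ S, (1 - 1 / (p:ℝ)))⁻¹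

lemma dens_pos (S : Finset ℕ) (h : ∀ p ∈ S, 2 ≤ p) : 0 < ∏ p ∈ S, (1 - 1 / (p:ℝ)) :=
  lt_of_lt_of_le (by positivity) (one_div_card_succ_le_prod S h)

lemma pinv_nonneg {S : Finset ℕ} (h : ∀ p ∈ S, 2 ≤ p) : 0 ≤ pinv S := inv_nonneg.2 (dens_pos S h).le

lemma pinv_split (S : Finset ℕ) (P : ℕ → Prop) :
    pinv S = pinv (S.filter P) * pinv (S.filter fun p => ¬ P p) := by
  unfold pinv
  rw [← mul_inv, Finset.prod_filter_mul_prod_filter_not]

lemma pinv_mono {A B : Finset ℕ} (h : A ⊆ B) (hB : ∀ p ∈ B, 2 ≤ p) : pinv A ≤ pinv B := by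
  unfold pinv
  refine inv_anti₀ (dens_pos B hB) ?_
  rw [← Finset.prod_sdiff h]
  refine mul_le_of_le_one_left (dens_pos A fun p hp => hB p (h hp)).le ?_
  refine Finset.prod_le_one (fun p hp => ?_) fun p hp => ?_
  all_goals have h2 : (2:ℝ) ≤ p := by exact_mod_cast hB p (Finset.mem_sdiff.1 hp).1
  · have : 1 / (p:ℝ) ≤ 1 := by rw [div_le_one (by linarith)]; linarith
    linarith
  · have : 0 ≤ 1 / (p:ℝ) := by positivity
    linarith

lemma pinv_big_le (W : ℝ) (S : Finset ℕ) (h : ∀ p ∈ S, 2 ≤ p) :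
    pinv (S.filter fun p : ℕ => W < p) ≤ Real.exp (2 * xw W S) :=
  prod_inv_le_exp _ fun p hp => h p (Finset.mem_filter.1 hp).1

lemma pinv_small_le {W : ℝ} (hW : 0 ≤ W) (S : Finset ℕ) (h : ∀ p ∈ S, 2 ≤ p)
    (hS : ∀ p ∈ S, (p:ℝ) ≤ W) : pinv S ≤ W + 1 := by
  refine (prod_inv_le_card S h).trans ?_
  have hc : (S.card : ℝ) ≤ ⌊W⌋₊ := by
    refine Nat.cast_le.2 ((Finset.card_le_card (t := Finset.Icc 1 ⌊W⌋₊) fun p hp => ?_).trans (by simp))
    exact Finset.mem_Icc.2 ⟨by linarith [h p hp], Nat.le_floor (hS p hp)⟩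
  linarith [Nat.floor_le hW]

lemma two_le_pf {n p : ℕ} (hp : p ∈ n.primeFactors) : 2 ≤ p := (Nat.prime_of_mem_primeFactors hp).two_le

lemma fibre_dens (P : PairFacts q r) (k : ℤ) :
    ∏ p ∈ (Nat.gcd q r).primeFactors, (1 - (excl η γ q r k p : ℝ) / p)
      ≤ lam q * lam r * pinv (cu q r * cv q r).primeFactors * pinv (coinSet η γ q r k) := by
  set g := Nat.gcd q r
  set u := cu q r
  set v := cv q r
  have hv0 : 0 < v := lt_trans P.hu0 P.huv
  set S := coinSet η γ q r k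
  set f : ℕ → ℝ := fun p => 1 - 1 / (p:ℝ)
  have hUV : (u * v).primeFactors = u.primeFactors ∪ v.primeFactors :=
    Nat.primeFactors_mul P.hu0.ne' hv0.ne'
  have hq' : q.primeFactors = g.primeFactors ∪ u.primeFactors := by
    rw [← Nat.primeFactors_mul P.hg.ne' P.hu0.ne']
    exact congrArg Nat.primeFactors P.hu
  have hr' : r.primeFactors = g.primeFactors ∪ v.primeFactors := by
    rw [← Nat.primeFactors_mul P.hg.ne' hv0.ne']
    exact congrArg Nat.primeFactors P.hv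
  have hSg : S ⊆ g.primeFactors := Finset.filter_subset _ _
  unfold pinv
  rw [← div_eq_mul_inv, ← div_eq_mul_inv, div_div,
    le_div_iff₀ (mul_pos (dens_pos _ fun p hp => two_le_pf hp) (dens_pos _ fun p hp => two_le_pf (hSg hp))),
    lam_eq_prod P.hq, lam_eq_prod P.hr, hq', hr', hUV]
  set U := g.primeFactors ∪ (u.primeFactors ∪ v.primeFactors)
  have conv : ∀ (X : Finset ℕ) (φ : ℕ → ℝ), X ⊆ U → ∏ p ∈ X, φ p = ∏ p ∈ U, if p ∈ X then φ p else 1 := by
    intro X φ hX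
    rw [← Finset.prod_filter]
    exact Finset.prod_congr (by ext p; simp only [Finset.mem_filter]; exact ⟨fun h => ⟨hX h, h⟩, fun h => h.2⟩) fun _ _ => rfl
  rw [conv g.primeFactors _ (by simp [U]), conv (u.primeFactors ∪ v.primeFactors) _ (by simp [U]),
    conv S _ (hSg.trans (by simp [U])), conv (g.primeFactors ∪ u.primeFactors) _ ?_,
    conv (g.primeFactors ∪ v.primeFactors) _ ?_, ← Finset.prod_mul_distrib, ← Finset.prod_mul_distrib,
    ← Finset.prod_mul_distrib]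
  · have hUp : ∀ p ∈ U, (2:ℝ) ≤ p ∧ 0 ≤ 1 - 1 / (p:ℝ) := fun p hp => by
      have h2 : (2:ℝ) ≤ p := by
        have : 2 ≤ p := by
          simp only [U, Finset.mem_union] at hp
          rcases hp with h | h | h <;> exact two_le_pf h
        exact_mod_cast this
      have : 1 / (p:ℝ) ≤ 1 := by rw [div_le_one (by linarith)]; linarith
      exact ⟨h2, by linarith⟩
    refine Finset.prod_le_prod (fun p hp => ?_) fun p hp => ?_
    all_goals obtain ⟨hp2, hfp⟩ := hUp p hp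
    · refine mul_nonneg ?_ (mul_nonneg (by split_ifs <;> linarith) (by split_ifs <;> linarith))
      split_ifs
      · have : (excl η γ q r k p : ℝ) ≤ 2 := by
          have : excl η γ q r k p ≤ 2 := by unfold excl; split_ifs <;> norm_num
          exact_mod_cast this
        have : (excl η γ q r k p : ℝ) / p ≤ 1 := by rw [div_le_one (by linarith)]; linarith
        linarith
      · exact zero_le_one
    · have hpr : p.Prime := by
        simp only [U, Finset.mem_union] at hp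
        rcases hp with h | h | h <;> exact Nat.prime_of_mem_primeFactors h
      have hnb : ¬ (p ∈ u.primeFactors ∧ p ∈ v.primeFactors) := fun h =>
        hpr.one_lt.ne' (Nat.eq_one_of_dvd_coprimes P.hcop (Nat.dvd_of_mem_primeFactors h.1)
          (Nat.dvd_of_mem_primeFactors h.2))
      have hdvd : p ∣ u * v ↔ p ∈ u.primeFactors ∨ p ∈ v.primeFactors := by
        simp [hpr.dvd_mul, Nat.mem_primeFactors, hpr, (show u ≠ 0 from P.hu0.ne'), hv0.ne']
      by_cases hg' : p ∈ g.primeFactors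
      · simp only [Finset.mem_union, hg', true_or, if_true]
        have hS' : p ∈ S ↔ ¬ p ∣ u * v ∧ Coin η γ q r k p := by simp [S, coinSet, g, u, v] at hg' ⊢; tauto
        by_cases huv : p ∈ u.primeFactors ∨ p ∈ v.primeFactors
        · have hns : p ∉ S := fun h => (hS'.1 h).1 (hdvd.2 huv)
          rw [if_pos huv, if_neg hns]
          have : excl η γ q r k p = 1 := if_pos (Or.inl (hdvd.2 huv))
          rw [this]; push_cast
          exact le_of_eq (by ring)
        · rw [if_neg huv]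
          by_cases hc : Coin η γ q r k p
          · rw [if_pos (hS'.2 ⟨fun h => huv (hdvd.1 h), hc⟩)]
            have : excl η γ q r k p = 1 := if_pos (Or.inr hc)
            rw [this]; push_cast
            exact le_of_eq (by ring)
          · rw [if_neg fun h => hc (hS'.1 h).2]
            have : excl η γ q r k p = 2 := if_neg (by
              rintro (h | h)
              · exact huv (hdvd.1 h)
              · exact hc h)
            rw [this]; push_cast
            have : 0 ≤ (1 / (p:ℝ)) ^ 2 := sq_nonneg _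
            nlinarith [mul_one_div (2:ℝ) (p:ℝ)]
      · have hns : p ∉ S := fun h => hg' (hSg h)
        simp only [Finset.mem_union, hg', false_or, hns, if_false, one_mul, mul_one]
        by_cases hu' : p ∈ u.primeFactors
        · have hv' : p ∉ v.primeFactors := fun h => hnb ⟨hu', h⟩
          simp [hu', hv']
        · by_cases hv' : p ∈ v.primeFactors <;> simp [hu', hv']
  · intro p hp; simp only [U, Finset.mem_union] at hp ⊢; tauto
  · intro p hp; simp only [U, Finset.mem_union] at hp ⊢; tauto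

lemma EPairs_card_le (P : PairFacts q r) :
    ((EPairs η γ ψ q r).card : ℝ) ≤ (Nat.gcd q r : ℝ) * (lam q * lam r)
      * pinv (cu q r * cv q r).primeFactors * ∑ k ∈ Hits η γ ψ q r, pinv (coinSet η γ q r k) := by
  unfold Hits
  rw [Finset.card_eq_sum_card_fiberwise (fun x hx => Finset.mem_image_of_mem
    (fun x : ℤ × ℤ => x.1 * (cv q r : ℤ) - x.2 * (cu q r : ℤ)) hx), Finset.mul_sum]
  push_cast
  refine Finset.sum_le_sum fun k _ => (fibre_le P k).trans ?_
  refine (mul_le_mul_of_nonneg_left (fibre_dens P k) (Nat.cast_nonneg _)).trans (le_of_eq ?_)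
  ring

lemma ov_le_card (hq : 0 < q) (hr : 0 < r) (hψq : 0 ≤ ψ q) (hψr : 0 ≤ ψ r) :
    ov η γ ψ q r ≤ 2 * min (ψ q / q) (ψ r / r) * (EPairs η γ ψ q r).card := by
  have hq' : (0:ℝ) < q := by exact_mod_cast hq
  have hr' : (0:ℝ) < r := by exact_mod_cast hr
  have hsub : SSet η γ ψ q ∩ SSet η γ ψ r ⊆
      ⋃ x ∈ EPairs η γ ψ q r, (J γ ψ q x.1 ∩ J γ ψ r x.2) := by
    intro y hy
    simp only [SSet, Set.mem_inter_iff, Set.mem_iUnion] at hy
    obtain ⟨⟨a, ha, hya⟩, b, hb, hyb⟩ := hy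
    refine Set.mem_biUnion (x := (a, b)) ?_ ⟨hya, hyb⟩
    refine Finset.mem_filter.2 ⟨(mem_Pairs hq).2 ⟨(mem_Eset.1 ha).1.1, (mem_Eset.1 ha).1.2, ?_⟩, ha, hb⟩
    rw [mem_J hq] at hya
    rw [mem_J hr] at hyb
    have e : (a:ℝ) * r - (b:ℝ) * q + off γ q r
        = (q:ℝ) * ((r:ℝ) * y - b - γ) - (r:ℝ) * ((q:ℝ) * y - a - γ) := by unfold off; ring
    rw [e]
    refine lt_of_le_of_lt (abs_sub _ _) ?_
    rw [abs_mul, abs_mul, abs_of_pos hq', abs_of_pos hr']
    have h1 := mul_lt_mul_of_pos_left hya hr'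
    have h2 := mul_lt_mul_of_pos_left hyb hq'
    linarith
  refine le_trans (measureReal_mono hsub ?_) ?_
  · exact ((measure_biUnion_finset_le _ _).trans_lt (ENNReal.sum_lt_top.2 fun x _ =>
      (measure_mono Set.inter_subset_left).trans_lt (J_finite γ ψ q x.1).lt_top)).ne
  refine le_trans (measureReal_biUnion_finset_le _ _) ?_
  refine le_trans (Finset.sum_le_card_nsmul _ _ (2 * min (ψ q / q) (ψ r / r)) fun x _ => ?_) ?_
  · rw [mul_min_of_nonneg _ _ (by norm_num : (0:ℝ) ≤ 2)]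
    refine le_min ?_ ?_
    · refine (measureReal_mono Set.inter_subset_left (J_finite γ ψ q x.1)).trans (le_of_eq ?_)
      rw [volume_real_J hψq]; ring
    · refine (measureReal_mono Set.inter_subset_right (J_finite γ ψ r x.2)).trans (le_of_eq ?_)
      rw [volume_real_J hψr]; ring
  · rw [nsmul_eq_mul]; exact le_of_eq (mul_comm _ _)

lemma hits_empty (hq : 0 < q) (hr : 0 < r) (hψq : 0 ≤ ψ q) (hψr : 0 ≤ ψ r)
    (h : Hits η γ ψ q r = ∅) : ov η γ ψ q r = 0 := by
  refine le_antisymm ((ov_le_card hq hr hψq hψr).trans (le_of_eq ?_)) measureReal_nonneg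
  rw [Finset.image_eq_empty.1 h]; simp

/-- The master bound for an overlap. -/
lemma ov_master (P : PairFacts q r) (hψq : 0 ≤ ψ q) (hψr : 0 ≤ ψ r) (ht : 0 < tt ψ q r) :
    ov η γ ψ q r ≤ 4 * ((lam q * ψ q) * (lam r * ψ r)) / tt ψ q r
      * (pinv (cu q r * cv q r).primeFactors * ∑ k ∈ Hits η γ ψ q r, pinv (coinSet η γ q r k)) := by
  set g := (Nat.gcd q r : ℝ)
  have hg : 0 < g := by simp only [g]; exact_mod_cast P.hg
  have hΔ : (r:ℝ) * ψ q + (q:ℝ) * ψ r = g * tt ψ q r := by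
    unfold tt; field_simp [show (Nat.gcd q r : ℝ) ≠ 0 from hg.ne']; rfl
  set X := pinv (cu q r * cv q r).primeFactors * ∑ k ∈ Hits η γ ψ q r, pinv (coinSet η γ q r k)
  have hX : 0 ≤ X := mul_nonneg (pinv_nonneg fun p hp => two_le_pf hp)
    (Finset.sum_nonneg fun k _ => pinv_nonneg fun p hp => two_le_pf (Finset.mem_filter.1 hp).1)
  have h1 : ((EPairs η γ ψ q r).card : ℝ) ≤ g * (lam q * lam r) * X := by
    refine (EPairs_card_le P).trans (le_of_eq ?_)
    simp only [X]; ring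
  refine (ov_le_card P.hq P.hr hψq hψr).trans ((mul_le_mul_of_nonneg_left h1 (by positivity)).trans ?_)
  have h2 := min_div_mul_le P.hq P.hr hψq hψr
  rw [hΔ] at h2
  have h3 := mul_le_mul_of_nonneg_right h2
    (by have := lam_nonneg q; have := lam_nonneg r; positivity : 0 ≤ lam q * lam r * X)
  rw [div_mul_eq_mul_div, le_div_iff₀ ht]
  linarith

lemma coin_pinv_le (P : PairFacts q r) (hq2 : 2 ≤ q) {W : ℝ} {L : ℝ} {k : ℤ}
    (hx : x2 W η γ q r k ≤ L) :
    pinv ((coinSet η γ q r k).filter fun p : ℕ => W < p) ≤ Real.exp (2 * L + 4) := by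
  set S := (coinSet η γ q r k).filter fun p : ℕ => W < p
  have hS2 : ∀ p ∈ S, 2 ≤ p := fun p hp =>
    two_le_pf (Finset.mem_filter.1 (Finset.mem_filter.1 hp).1).1
  refine (prod_inv_le_exp S hS2).trans (Real.exp_le_exp.2 ?_)
  rw [← Finset.sum_filter_add_sum_filter_not S (fun p : ℕ => (p:ℝ) ≤ Real.log q)]
  have h1 : ∑ p ∈ S.filter (fun p : ℕ => (p:ℝ) ≤ Real.log q), 1 / (p:ℝ) ≤ L := by
    unfold x2 xw at hx
    refine le_trans (Finset.sum_le_sum_of_subset_of_nonneg (fun p hp => ?_) fun p _ _ => by positivity) hx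
    simp only [S, coinSet, Finset.mem_filter] at hp ⊢
    exact ⟨⟨hp.1.1.1, hp.2, hp.1.1.2.2⟩, hp.1.2⟩
  have hlq : 0 < Real.log q := Real.log_pos (by exact_mod_cast hq2)
  have h2 : ∑ p ∈ S.filter (fun p : ℕ => ¬ (p:ℝ) ≤ Real.log q), 1 / (p:ℝ) ≤ 2 := by
    refine (Finset.sum_le_card_nsmul _ _ (1 / Real.log q) fun p hp => ?_).trans ?_
    · exact one_div_le_one_div_of_le hlq (not_le.1 (Finset.mem_filter.1 hp).2).le
    rw [nsmul_eq_mul, mul_one_div, div_le_iff₀ hlq]
    have hc : ((S.filter (fun p : ℕ => ¬ (p:ℝ) ≤ Real.log q)).card : ℝ) ≤ (Nat.gcd q r).primeFactors.card :=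
      Nat.cast_le.2 (Finset.card_le_card fun p hp =>
        (Finset.mem_filter.1 (Finset.mem_filter.1 (Finset.mem_filter.1 hp).1).1).1)
    have hω := card_primeFactors_le_log _ P.hg
    have hgq : Real.log (Nat.gcd q r : ℕ) ≤ Real.log q := Real.log_le_log (by exact_mod_cast P.hg)
      (Nat.cast_le.2 (Nat.le_of_dvd P.hq (Nat.gcd_dvd_left q r)))
    have := Real.log_two_gt_d9
    have : (0:ℝ) ≤ (Nat.gcd q r).primeFactors.card := Nat.cast_nonneg _
    nlinarith
  linarith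

/-- The overlap bound valid at every scale. -/
lemma ov_bound_any (P : PairFacts q r) (hq2 : 2 ≤ q) (hψq : 0 ≤ ψ q) (hψr : 0 ≤ ψ r)
    (ht : 0 < tt ψ q r) {W1 W2 : ℝ} (hW1 : 1 ≤ W1) (hW2 : 1 ≤ W2) {L1 L2 : ℝ}
    (h1 : x1 W1 q r ≤ L1) (h2 : ∀ k ∈ Hits η γ ψ q r, x2 W2 η γ q r k ≤ L2) :
    ov η γ ψ q r ≤ 4 * Real.exp 4 * ((lam q * ψ q) * (lam r * ψ r))
      * ((2 * tt ψ q r + 1) / tt ψ q r) * ((W1 + 1) * (W2 + 1)) * Real.exp (2 * (L1 + L2)) := by
  have hlq := lam_nonneg q; have hlr := lam_nonneg r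
  refine (ov_master P hψq hψr ht).trans ?_
  have hP : pinv (cu q r * cv q r).primeFactors ≤ (W1 + 1) * Real.exp (2 * L1) := by
    rw [pinv_split _ (fun p : ℕ => (p:ℝ) ≤ W1)]
    refine mul_le_mul (pinv_small_le (by linarith) _ (fun p hp => two_le_pf (Finset.mem_filter.1 hp).1)
      fun p hp => (Finset.mem_filter.1 hp).2) ?_ (pinv_nonneg fun p hp => two_le_pf (Finset.mem_filter.1 hp).1)
      (by linarith)
    simp only [not_le]
    exact (pinv_big_le W1 _ fun p hp => two_le_pf hp).trans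
      (Real.exp_le_exp.2 (mul_le_mul_of_nonneg_left h1 (by norm_num)))
  have hZ : ∀ k ∈ Hits η γ ψ q r, pinv (coinSet η γ q r k) ≤ (W2 + 1) * Real.exp (2 * L2 + 4) := by
    intro k hk
    have hc2 : ∀ p ∈ coinSet η γ q r k, 2 ≤ p := fun p hp => two_le_pf (Finset.mem_filter.1 hp).1
    rw [pinv_split _ (fun p : ℕ => (p:ℝ) ≤ W2)]
    refine mul_le_mul (pinv_small_le (by linarith) _ (fun p hp => hc2 p (Finset.mem_filter.1 hp).1)
      fun p hp => (Finset.mem_filter.1 hp).2) ?_ (pinv_nonneg fun p hp => hc2 p (Finset.mem_filter.1 hp).1)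
      (by linarith)
    simp only [not_le]
    exact coin_pinv_le P hq2 (h2 k hk)
  have hS : ∑ k ∈ Hits η γ ψ q r, pinv (coinSet η γ q r k)
      ≤ (2 * tt ψ q r + 1) * ((W2 + 1) * Real.exp (2 * L2 + 4)) := by
    refine (Finset.sum_le_card_nsmul _ _ _ hZ).trans ?_
    rw [nsmul_eq_mul]
    exact mul_le_mul_of_nonneg_right (hits_card_le P hψq hψr) (by positivity)
  have hS0 : 0 ≤ ∑ k ∈ Hits η γ ψ q r, pinv (coinSet η γ q r k) :=
    Finset.sum_nonneg fun k _ => pinv_nonneg fun p hp => two_le_pf (Finset.mem_filter.1 hp).1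
  refine (mul_le_mul_of_nonneg_left (mul_le_mul hP hS hS0 (by positivity)) (by positivity)).trans
    (le_of_eq ?_)
  rw [show Real.exp (2 * L2 + 4) = Real.exp (2 * L2) * Real.exp 4 from Real.exp_add _ _,
    show Real.exp (2 * (L1 + L2)) = Real.exp (2 * L1) * Real.exp (2 * L2) by rw [← Real.exp_add]; ring_nf]
  field_simp

/-- The overlap bound for large scales. -/
lemma ov_bound_large {K : ℝ} (hK : 1 ≤ K) :
    ∃ C : ℝ, 0 < C ∧ ∀ {η γ : ℝ} {ψ : ℕ → ℝ} {q r : ℕ}, PairFacts q r → 2 ≤ q → 0 ≤ ψ q → 0 ≤ ψ r →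
      1 ≤ tt ψ q r → ∀ {W1 W2 : ℝ}, 1 ≤ W1 → W1 ≤ K * (Real.log (tt ψ q r) + 1) → 1 ≤ W2 →
      W2 ≤ K * (tt ψ q r) ^ (1/4 : ℝ) → ∀ {L1 L2 : ℝ}, x1 W1 q r ≤ L1 →
      (∀ k ∈ Hits η γ ψ q r, x2 W2 η γ q r k ≤ L2) →
      ov η γ ψ q r ≤ C * ((lam q * ψ q) * (lam r * ψ r)) * Real.exp (2 * (L1 + L2)) := by
  refine ⟨4 * (Real.exp 4 * (3 * Real.exp 2 + 28 * K)) * (16 * K ^ 2), by positivity, ?_⟩
  intro η γ ψ q r P hq2 hψq hψr ht W1 W2 hW1 hW1' hW2 hW2' L1 L2 h1 h2
  have hlq := lam_nonneg q; have hlr := lam_nonneg r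
  refine (ov_master P hψq hψr (by linarith)).trans ?_
  set t := tt ψ q r
  have hlt : 0 ≤ Real.log t := Real.log_nonneg ht
  set w := Real.log t / 2 + 1 with hw
  set u := cu q r; set v := cv q r
  set P1 := (u * v).primeFactors.filter (fun p : ℕ => (p:ℝ) ≤ w)
  set P2 := (Nat.gcd q r).primeFactors.filter (fun p : ℕ => ¬ p ∣ u * v ∧ (p:ℝ) ≤ W2)
  have hP1 : ∀ p ∈ P1, p.Prime := fun p hp => Nat.prime_of_mem_primeFactors (Finset.mem_filter.1 hp).1
  have hP2 : ∀ p ∈ P2, p.Prime := fun p hp => Nat.prime_of_mem_primeFactors (Finset.mem_filter.1 hp).1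
  have hdisj : Disjoint P1 P2 := Finset.disjoint_left.2 fun p hp hp' =>
    (Finset.mem_filter.1 hp').2.1 (Nat.dvd_of_mem_primeFactors (Finset.mem_filter.1 hp).1)
  set a : ℕ → ℝ := fun p => if p ∈ P1 then -1 else 1 / ((p:ℝ) - 1)
  set c : ℕ → ℤ := fun p => if p ∈ P1 then admc η γ q r p
    else (v:ℤ) * base η γ q p - (u:ℤ) * base η γ r p
  set π1 := ∏ p ∈ P1, (1 - 1 / (p:ℝ))
  have hπ1 : 0 < π1 := dens_pos _ fun p hp => (hP1 p hp).two_le
  set wt : ℤ → ℝ := fun k => ∏ p ∈ P1 ∪ P2, (1 + if (p:ℤ) ∣ k - c p then a p else 0)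
  have hwt : ∀ k, 0 ≤ wt k := fun k => Finset.prod_nonneg fun p hp => by
    split_ifs
    · simp only [a]; split_ifs with h
      · norm_num
      · have : (2:ℝ) ≤ p := by
          have := (hP2 p ((Finset.mem_union.1 hp).resolve_left h)).two_le
          exact_mod_cast this
        have : 0 ≤ 1 / ((p:ℝ) - 1) := div_nonneg zero_le_one (by linarith)
        linarith
    · norm_num
  have hZ : ∀ k ∈ Hits η γ ψ q r, pinv (coinSet η γ q r k) ≤ Real.exp (2 * L2 + 4) * wt k := by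
    intro k hk
    have hc2 : ∀ p ∈ coinSet η γ q r k, 2 ≤ p := fun p hp => two_le_pf (Finset.mem_filter.1 hp).1
    rw [pinv_split _ (fun p : ℕ => (p:ℝ) ≤ W2), mul_comm]
    refine mul_le_mul ?_ (le_of_eq ?_) (pinv_nonneg fun p hp => hc2 p (Finset.mem_filter.1 hp).1)
      (Real.exp_pos _).le
    · simp only [not_le]; exact coin_pinv_le P hq2 (h2 k hk)
    · simp only [wt]
      rw [Finset.prod_union hdisj, Finset.prod_eq_one (s := P1) fun p hp => ?_, one_mul]
      · have e : (coinSet η γ q r k).filter (fun p : ℕ => (p:ℝ) ≤ W2)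
            = P2.filter (fun p : ℕ => (p:ℤ) ∣ k - c p) := by
          ext p
          simp only [P2, coinSet, Finset.mem_filter]
          constructor
          · rintro ⟨⟨h1, h2, h3⟩, h4⟩
            have : p ∉ P1 := fun h => h2 (Nat.dvd_of_mem_primeFactors (Finset.mem_filter.1 h).1)
            exact ⟨⟨h1, h2, h4⟩, by simp only [c]; rw [if_neg this]; exact h3⟩
          · rintro ⟨⟨h1, h2, h4⟩, h3⟩
            have : p ∉ P1 := fun h => h2 (Nat.dvd_of_mem_primeFactors (Finset.mem_filter.1 h).1)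
            simp only [c] at h3; rw [if_neg this] at h3
            exact ⟨⟨h1, h2, h3⟩, h4⟩
        rw [pinv, e, Finset.prod_filter, ← Finset.prod_inv_distrib]
        refine Finset.prod_congr rfl fun p hp => ?_
        have : (2:ℝ) ≤ p := by exact_mod_cast (hP2 p hp).two_le
        have hn : p ∉ P1 := Finset.disjoint_right.1 hdisj hp
        split_ifs
        · simp only [a]; rw [if_neg hn]
          have : (p:ℝ) - 1 ≠ 0 := by linarith
          field_simp
          ring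
        · simp
      · have : ¬ (p:ℤ) ∣ k - c p := by
          simp only [c]; rw [if_pos hp]
          exact hits_adm P hk (hP1 p hp) (Nat.dvd_of_mem_primeFactors (Finset.mem_filter.1 hp).1)
        rw [if_neg this, add_zero]
  have hS : ∑ k ∈ Hits η γ ψ q r, pinv (coinSet η γ q r k)
      ≤ Real.exp (2 * L2 + 4) * ((3 * Real.exp 2 + 28 * K) * (t * π1)) := by
    refine (Finset.sum_le_sum hZ).trans ?_
    rw [← Finset.mul_sum]
    refine mul_le_mul_of_nonneg_left ?_ (Real.exp_pos _).le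
    rcases (Hits η γ ψ q r).eq_empty_or_nonempty with h0 | ⟨k0, hk0⟩
    · rw [h0, Finset.sum_empty]; positivity
    set y := γ * ((cv q r - cu q r : ℕ):ℝ)
    set lo := ⌊-t - y⌋ + 1
    set hi := ⌈t - y⌉
    have hsub : Hits η γ ψ q r ⊆ Finset.Ico lo hi := fun k hk => by
      obtain ⟨h1, h2⟩ := abs_lt.1 (hits_near P hk)
      refine Finset.mem_Ico.2 ⟨?_, ?_⟩
      · have : ⌊-t - y⌋ < k := Int.floor_lt.2 (by simp only [y, t]; linarith)
        omega
      · exact Int.lt_ceil.2 (by simp only [y, t]; linarith)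
    have hlh : lo ≤ hi := by
      obtain ⟨h1, h2⟩ := Finset.mem_Ico.1 (hsub hk0); omega
    refine (Finset.sum_le_sum_of_subset_of_nonneg hsub fun k _ _ => hwt k).trans
      ((interval_weight lo hi hlh (P1 ∪ P2) (fun p hp => (Finset.mem_union.1 hp).elim (hP1 p) (hP2 p)) c a).trans ?_)
    have hlen : (hi:ℝ) - lo ≤ 3 * t := by
      simp only [hi, lo]; push_cast
      have := Int.ceil_lt_add_one (t - y)
      have := Int.lt_floor_add_one (-t - y)
      linarith
    have hlen0 : 0 ≤ (hi:ℝ) - lo := by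
      have : (lo:ℝ) ≤ hi := by exact_mod_cast hlh
      linarith
    have hmain : ∏ p ∈ P1 ∪ P2, (1 + a p / p) ≤ Real.exp 2 * π1 := by
      rw [Finset.prod_union hdisj, mul_comm (Real.exp 2)]
      refine mul_le_mul (le_of_eq (Finset.prod_congr rfl fun p hp => ?_)) ?_ ?_ hπ1.le
      · simp only [a]; rw [if_pos hp]; ring
      · calc ∏ p ∈ P2, (1 + a p / p) ≤ ∏ p ∈ P2, Real.exp (2 * (1 / (p:ℝ) ^ 2)) := by
              refine Finset.prod_le_prod (fun p hp => ?_) fun p hp => ?_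
              all_goals have hp2 : (2:ℝ) ≤ p := by exact_mod_cast (hP2 p hp).two_le
              all_goals simp only [a]; rw [if_neg (Finset.disjoint_right.1 hdisj hp)]
              · have : 0 ≤ 1 / ((p:ℝ) - 1) / p := div_nonneg (div_nonneg zero_le_one (by linarith)) (by linarith)
                linarith
              · refine le_trans ?_ (Real.add_one_le_exp _)
                have h1 : 1 / ((p:ℝ) - 1) / p ≤ 2 * (1 / (p:ℝ) ^ 2) := by
                  rw [div_div, mul_one_div, div_le_div_iff₀ (by nlinarith) (by positivity)]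
                  nlinarith
                linarith
          _ ≤ Real.exp 2 := by
              rw [← Real.exp_sum, ← Finset.mul_sum]
              refine Real.exp_le_exp.2 ?_
              have := sum_inv_sq_ge (le_refl 2) P2 fun p hp => (hP2 p hp).two_le
              norm_num at this ⊢
              linarith
      · refine Finset.prod_nonneg fun p hp => ?_
        have hp2 : (2:ℝ) ≤ p := by exact_mod_cast (hP2 p hp).two_le
        simp only [a]; rw [if_neg (Finset.disjoint_right.1 hdisj hp)]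
        have : 0 ≤ 1 / ((p:ℝ) - 1) / p := div_nonneg (div_nonneg zero_le_one (by linarith)) (by linarith)
        linarith
    have herr : ∏ p ∈ P1 ∪ P2, (1 + |a p|) ≤ 28 * K * (t * π1) := by
      rw [Finset.prod_union hdisj]
      have e1 : ∏ p ∈ P1, (1 + |a p|) = (2:ℝ) ^ P1.card := by
        rw [← Finset.prod_const]
        refine Finset.prod_congr rfl fun p hp => ?_
        simp only [a]; rw [if_pos hp]; norm_num
      have e2 : ∏ p ∈ P2, (1 + |a p|) = pinv P2 := by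
        rw [pinv, ← Finset.prod_inv_distrib]
        refine Finset.prod_congr rfl fun p hp => ?_
        have hp2 : (2:ℝ) ≤ p := by exact_mod_cast (hP2 p hp).two_le
        simp only [a]; rw [if_neg (Finset.disjoint_right.1 hdisj hp), abs_of_nonneg (div_nonneg zero_le_one (by linarith))]
        have : (p:ℝ) - 1 ≠ 0 := by linarith
        field_simp
        ring
      rw [e1, e2]
      have hcard : (P1.card : ℝ) ≤ w := by
        refine le_trans ?_ (Nat.floor_le (by rw [hw]; linarith : 0 ≤ w))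
        refine Nat.cast_le.2 ((Finset.card_le_card (t := Finset.Icc 1 ⌊w⌋₊) fun p hp => ?_).trans (by simp))
        exact Finset.mem_Icc.2 ⟨(hP1 p hp).one_le, Nat.le_floor (Finset.mem_filter.1 hp).2⟩
      have a1 : (2:ℝ) ^ P1.card ≤ 2 * t ^ (7/20 : ℝ) := by
        calc (2:ℝ) ^ P1.card = (2:ℝ) ^ (P1.card : ℝ) := (Real.rpow_natCast _ _).symm
          _ ≤ (2:ℝ) ^ w := Real.rpow_le_rpow_of_exponent_le one_le_two hcard
          _ = 2 * (2:ℝ) ^ (Real.log t / 2) := by rw [hw, Real.rpow_add two_pos, Real.rpow_one, mul_comm]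
          _ ≤ _ := by
              refine mul_le_mul_of_nonneg_left ?_ two_pos.le
              rw [Real.rpow_def_of_pos two_pos, Real.rpow_def_of_pos (by linarith : 0 < t)]
              refine Real.exp_le_exp.2 ?_
              have := Real.log_two_lt_d9
              nlinarith
      have a2 : pinv P2 ≤ 2 * K * t ^ (1/4 : ℝ) := by
        refine (pinv_small_le (by linarith) P2 (fun p hp => (hP2 p hp).two_le)
          fun p hp => (Finset.mem_filter.1 hp).2.2).trans ?_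
        linarith
      have a3 : 1 ≤ 7 * t ^ (1/10 : ℝ) * π1 := by
        have h := one_div_card_succ_le_prod P1 fun p hp => (hP1 p hp).two_le
        rw [div_le_iff₀ (by positivity)] at h
        refine h.trans ?_
        rw [mul_comm _ π1]
        refine mul_le_mul_of_nonneg_left ?_ hπ1.le
        have h2 := Real.log_le_rpow_div (by linarith : 0 ≤ t) (by norm_num : (0:ℝ) < 1/10)
        have h3 : (1:ℝ) ≤ t ^ (1/10 : ℝ) := Real.one_le_rpow ht (by norm_num)
        have h4 : t ^ (1/10 : ℝ) / (1/10 : ℝ) = 10 * t ^ (1/10 : ℝ) := by ring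
        rw [hw] at hcard
        linarith
      have a4 : t ^ (7/20 : ℝ) * t ^ (1/4 : ℝ) * t ^ (1/10 : ℝ) ≤ t := by
        rw [← Real.rpow_add (by linarith), ← Real.rpow_add (by linarith)]
        refine (Real.rpow_le_rpow_of_exponent_le ht (by norm_num : (7/20 : ℝ) + 1/4 + 1/10 ≤ 1)).trans (le_of_eq (Real.rpow_one t))
      calc (2:ℝ) ^ P1.card * pinv P2 ≤ 2 * t ^ (7/20 : ℝ) * (2 * K * t ^ (1/4 : ℝ)) * 1 := by
            rw [mul_one]; exact mul_le_mul a1 a2 (pinv_nonneg fun p hp => (hP2 p hp).two_le) (by positivity)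
        _ ≤ 2 * t ^ (7/20 : ℝ) * (2 * K * t ^ (1/4 : ℝ)) * (7 * t ^ (1/10 : ℝ) * π1) :=
            mul_le_mul_of_nonneg_left a3 (by positivity)
        _ = 28 * K * π1 * (t ^ (7/20 : ℝ) * t ^ (1/4 : ℝ) * t ^ (1/10 : ℝ)) := by ring
        _ ≤ 28 * K * π1 * t := mul_le_mul_of_nonneg_left a4 (by positivity)
        _ = _ := by ring
    refine (add_le_add (mul_le_mul hlen hmain (Finset.prod_nonneg fun p hp => ?_) (by linarith)) herr).trans
      (le_of_eq (by ring))
    have hp2 : (2:ℝ) ≤ p := by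
      exact_mod_cast ((Finset.mem_union.1 hp).elim (hP1 p) (hP2 p)).two_le
    simp only [a]; split_ifs
    · have : 1 / (p:ℝ) ≤ 1 := by rw [div_le_one (by linarith)]; linarith
      rw [neg_div]; linarith
    · have : 0 ≤ 1 / ((p:ℝ) - 1) / p := div_nonneg (div_nonneg zero_le_one (by linarith)) (by linarith)
      linarith
  have hPu : pinv (u * v).primeFactors ≤ π1⁻¹ * (16 * K ^ 2) * Real.exp (2 * L1) := by
    have huv2 : ∀ p ∈ (u * v).primeFactors, 2 ≤ p := fun p hp => two_le_pf hp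
    rw [pinv_split _ (fun p : ℕ => (p:ℝ) ≤ w), mul_assoc]
    refine mul_le_mul_of_nonneg_left ?_ (inv_nonneg.2 hπ1.le)
    set Sb := (u * v).primeFactors.filter (fun p : ℕ => ¬ (p:ℝ) ≤ w)
    have hSb : ∀ p ∈ Sb, 2 ≤ p := fun p hp => huv2 p (Finset.mem_filter.1 hp).1
    rw [pinv_split Sb (fun p : ℕ => (p:ℝ) ≤ W1)]
    refine mul_le_mul ?_ ?_ (pinv_nonneg fun p hp => hSb p (Finset.mem_filter.1 hp).1) (by positivity)
    · refine (prod_inv_le_exp _ fun p hp => hSb p (Finset.mem_filter.1 hp).1).trans ?_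
      set m := ⌊w⌋₊
      have hm : 1 ≤ m := Nat.le_floor (by rw [hw]; push_cast; linarith)
      have hmem : ∀ p ∈ Sb.filter (fun p : ℕ => (p:ℝ) ≤ W1), p ∈ Finset.Ioc m ⌊W1⌋₊ := fun p hp => by
        obtain ⟨h1, h2⟩ := Finset.mem_filter.1 hp
        exact Finset.mem_Ioc.2 ⟨(Nat.floor_lt (by rw [hw]; linarith)).2 (not_le.1 (Finset.mem_filter.1 h1).2),
          Nat.le_floor h2⟩
      rcases Nat.lt_or_ge ⌊W1⌋₊ m with hlt | hge
      · have he : Sb.filter (fun p : ℕ => (p:ℝ) ≤ W1) = ∅ :=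
          Finset.eq_empty_iff_forall_notMem.2 fun p hp => by
            have := Finset.mem_Ioc.1 (hmem p hp); omega
        rw [he, Finset.sum_empty, mul_zero, Real.exp_zero]
        nlinarith
      have hs := (Finset.sum_le_sum_of_subset_of_nonneg hmem fun p _ _ => by positivity).trans (sum_inv_Ioc hm hge)
      have hm' : (1:ℝ) ≤ m := by exact_mod_cast hm
      have hWm : (⌊W1⌋₊:ℝ) ≤ 4 * K * m := by
        have h1 := Nat.floor_le (by linarith : 0 ≤ W1)
        have h2 := Nat.lt_floor_add_one w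
        have h4 := mul_le_mul_of_nonneg_left (by rw [hw] at h2; linarith : Real.log t + 1 ≤ 4 * m)
          (by linarith : 0 ≤ K)
        linarith
      have hl : Real.log ⌊W1⌋₊ - Real.log m ≤ Real.log (4 * K) := by
        rw [← Real.log_div (by exact_mod_cast (by omega : ⌊W1⌋₊ ≠ 0)) (by linarith)]
        refine Real.log_le_log (by have : (0:ℝ) < ⌊W1⌋₊ := by exact_mod_cast (by omega : 0 < ⌊W1⌋₊)
                                   positivity) ?_
        rw [div_le_iff₀ (by linarith)]; exact hWm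
      calc _ ≤ Real.exp (2 * Real.log (4 * K)) :=
            Real.exp_le_exp.2 (mul_le_mul_of_nonneg_left (hs.trans hl) (by norm_num))
        _ = _ := by
            rw [show (2:ℝ) * Real.log (4 * K) = ((2:ℕ):ℝ) * Real.log (4 * K) by norm_num, Real.exp_nat_mul,
              Real.exp_log (by linarith)]
            ring
    · simp only [not_le]
      refine (pinv_big_le W1 Sb hSb).trans (Real.exp_le_exp.2 (mul_le_mul_of_nonneg_left ?_ (by norm_num)))
      exact (xw_mono W1 (Finset.filter_subset _ _)).trans h1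
  have hS0 : 0 ≤ ∑ k ∈ Hits η γ ψ q r, pinv (coinSet η γ q r k) :=
    Finset.sum_nonneg fun k _ => pinv_nonneg fun p hp => two_le_pf (Finset.mem_filter.1 hp).1
  refine (mul_le_mul_of_nonneg_left (mul_le_mul hPu hS hS0 (by positivity)) (by positivity)).trans
    (le_of_eq ?_)
  rw [show Real.exp (2 * L2 + 4) = Real.exp (2 * L2) * Real.exp 4 from Real.exp_add _ _,
    show Real.exp (2 * (L1 + L2)) = Real.exp (2 * L1) * Real.exp (2 * L2) by rw [← Real.exp_add]; ring_nf]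
  field_simp

end Vale.Agent.P028.Wide
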