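import Mathlib

namespace Vale.Agent.P028.Wide

open Finset

/-- The exponent of the edge measure in the quality. -/
noncomputable def ee : ℝ := 101 / 50

/-- The exponent `(ee - 1) / ee`. -/
noncomputable def sg : ℝ := 51 / 101

lemma sg_pos : 0 < sg := by norm_num [sg]

lemma ee_mul_sg : ee * sg = ee - 1 := by norm_num [ee, sg]

lemma geom_dist_le {ρ : ℝ} (h0 : 0 ≤ ρ) (h1 : ρ < 1) (k : ℕ) (i : ℕ) (s : Finset ℕ)
    (hs : ∀ j ∈ s, k ≤ Nat.dist i j) :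
    ∑ j ∈ s, ρ ^ Nat.dist i j ≤ 2 * ρ ^ k / (1 - ρ) := by
  have hgeo : ∀ T : Finset ℕ, (∀ d ∈ T, k ≤ d) → ∑ d ∈ T, ρ ^ d ≤ ρ ^ k / (1 - ρ) := by
    intro T hT
    have h : ∑ d ∈ T.image (fun d => d - k), ρ ^ d ≤ ∑' d : ℕ, ρ ^ d :=
      (summable_geometric_of_lt_one h0 h1).sum_le_tsum _ (fun d _ => by positivity)
    rw [Finset.sum_image (fun a ha b hb e => by
      have := hT a ha; have := hT b hb; omega), tsum_geometric_of_lt_one h0 h1] at h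
    calc ∑ d ∈ T, ρ ^ d = ρ ^ k * ∑ d ∈ T, ρ ^ (d - k) := by
          rw [Finset.mul_sum]; refine Finset.sum_congr rfl fun d hd => ?_
          rw [← pow_add, Nat.add_sub_cancel' (hT d hd)]
      _ ≤ ρ ^ k * (1 - ρ)⁻¹ := mul_le_mul_of_nonneg_left h (by positivity)
      _ = _ := by rw [div_eq_mul_inv]
  have hsplit : ∑ j ∈ s, ρ ^ Nat.dist i j
      = ∑ j ∈ s.filter (fun j => j ≤ i), ρ ^ Nat.dist i j
        + ∑ j ∈ s.filter (fun j => ¬ j ≤ i), ρ ^ Nat.dist i j :=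
    (Finset.sum_filter_add_sum_filter_not s _ _).symm
  have h1' : ∀ (T : Finset ℕ), (∀ j ∈ T, k ≤ Nat.dist i j) → Set.InjOn (Nat.dist i) ↑T →
      ∑ j ∈ T, ρ ^ Nat.dist i j ≤ ρ ^ k / (1 - ρ) := by
    intro T hT hinj
    rw [← Finset.sum_image (f := fun d => ρ ^ d) hinj]
    exact hgeo _ fun d hd => by obtain ⟨j, hj, rfl⟩ := Finset.mem_image.1 hd; exact hT j hj
  have a := h1' (s.filter (fun j => j ≤ i)) (fun j hj => hs j (Finset.mem_filter.1 hj).1)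
    (fun a ha b hb e => by
      simp only [Finset.coe_filter, Set.mem_ofPred_eq] at ha hb
      simp only [Nat.dist] at e; omega)
  have b := h1' (s.filter (fun j => ¬ j ≤ i)) (fun j hj => hs j (Finset.mem_filter.1 hj).1)
    (fun a ha b hb e => by
      simp only [Finset.coe_filter, Set.mem_ofPred_eq] at ha hb
      simp only [Nat.dist] at e; omega)
  rw [hsplit, show 2 * ρ ^ k / (1 - ρ) = ρ ^ k / (1 - ρ) + ρ ^ k / (1 - ρ) by ring]
  exact add_le_add a b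

lemma sum_rpow_two_sg_le (s : Finset ℕ) (a : ℕ → ℝ) (ha : ∀ i, 0 ≤ a i) (A : ℝ)
    (hA : ∑ i ∈ s, a i ≤ A) : ∑ i ∈ s, a i ^ (2 * sg) ≤ A ^ (2 * sg) := by
  have hA0 : 0 ≤ A := le_trans (Finset.sum_nonneg fun i _ => ha i) hA
  have hle : ∀ i ∈ s, a i ^ (2 * sg) ≤ a i * A ^ (2 * sg - 1) := by
    intro i hi
    have hiA : a i ≤ A := le_trans (Finset.single_le_sum (fun j _ => ha j) hi) hA
    rcases eq_or_lt_of_le (ha i) with h | h
    · rw [← h, Real.zero_rpow (by norm_num [sg]), zero_mul]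
    · calc a i ^ (2 * sg) = a i * a i ^ (2 * sg - 1) := by
            rw [← Real.rpow_one_add' h.le (by norm_num [sg])]; ring_nf
        _ ≤ _ := mul_le_mul_of_nonneg_left
            (Real.rpow_le_rpow h.le hiA (by norm_num [sg])) h.le
  refine (Finset.sum_le_sum hle).trans ?_
  rw [← Finset.sum_mul]
  refine (mul_le_mul_of_nonneg_right hA (by positivity)).trans (le_of_eq ?_)
  rw [← Real.rpow_one_add' hA0 (by norm_num [sg])]; ring_nf

lemma cross_le (x y : ℝ) (hx : 0 ≤ x) (hy : 0 ≤ y) :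
    (x * y) ^ sg ≤ (x ^ (2 * sg) + y ^ (2 * sg)) / 2 := by
  rw [Real.mul_rpow hx hy, mul_comm 2 sg, Real.rpow_mul hx, Real.rpow_mul hy]
  have h := sq_nonneg (x ^ sg - y ^ sg)
  have e1 : (x ^ sg) ^ (2:ℝ) = (x ^ sg) ^ (2:ℕ) := by norm_cast
  have e2 : (y ^ sg) ^ (2:ℝ) = (y ^ sg) ^ (2:ℕ) := by norm_cast
  rw [e1, e2]
  nlinarith

lemma double_le {ρ : ℝ} (h0 : 0 ≤ ρ) (h1 : ρ < 1) (I J : Finset ℕ) (a b : ℕ → ℝ)
    (ha : ∀ i, 0 ≤ a i) (hb : ∀ j, 0 ≤ b j) (A B : ℝ) (hA : ∑ i ∈ I, a i ≤ A)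
    (hB : ∑ j ∈ J, b j ≤ B) :
    ∑ i ∈ I, ∑ j ∈ J, (a i * b j) ^ sg * ρ ^ Nat.dist i j
      ≤ 2 / (1 - ρ) * ((A ^ (2 * sg) + B ^ (2 * sg)) / 2) := by
  have hrow : ∀ (i : ℕ) (T : Finset ℕ), ∑ j ∈ T, ρ ^ Nat.dist i j ≤ 2 / (1 - ρ) := fun i T => by
    have := geom_dist_le h0 h1 0 i T (fun j _ => Nat.zero_le _)
    simpa using this
  have hρ : 0 ≤ 2 / (1 - ρ) := div_nonneg (by norm_num) (by linarith)
  calc ∑ i ∈ I, ∑ j ∈ J, (a i * b j) ^ sg * ρ ^ Nat.dist i j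
      ≤ ∑ i ∈ I, ∑ j ∈ J, ((a i ^ (2*sg) + b j ^ (2*sg)) / 2) * ρ ^ Nat.dist i j :=
        Finset.sum_le_sum fun i _ => Finset.sum_le_sum fun j _ =>
          mul_le_mul_of_nonneg_right (cross_le _ _ (ha i) (hb j)) (pow_nonneg h0 _)
    _ = (∑ i ∈ I, a i ^ (2*sg) / 2 * ∑ j ∈ J, ρ ^ Nat.dist i j)
        + ∑ j ∈ J, b j ^ (2*sg) / 2 * ∑ i ∈ I, ρ ^ Nat.dist j i := by
        simp only [Finset.mul_sum, add_div, add_mul, Finset.sum_add_distrib]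
        congr 1
        rw [Finset.sum_comm]
        exact Finset.sum_congr rfl fun j _ => Finset.sum_congr rfl fun i _ => by rw [Nat.dist_comm]
    _ ≤ (∑ i ∈ I, a i ^ (2*sg) / 2 * (2 / (1 - ρ))) + ∑ j ∈ J, b j ^ (2*sg) / 2 * (2 / (1 - ρ)) :=
        add_le_add
          (Finset.sum_le_sum fun i _ => mul_le_mul_of_nonneg_left (hrow i J) (by positivity [ha i]))
          (Finset.sum_le_sum fun j _ => mul_le_mul_of_nonneg_left (hrow j I) (by positivity [hb j]))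
    _ ≤ _ := by
        rw [← Finset.sum_mul, ← Finset.sum_mul, ← Finset.sum_div, ← Finset.sum_div, ← add_mul,
          mul_comm (2 / (1 - ρ))]
        refine mul_le_mul_of_nonneg_right ?_ hρ
        linarith [sum_rpow_two_sg_le I a ha A hA, sum_rpow_two_sg_le J b hb B hB]

lemma forced_le {ρ : ℝ} (h0 : 0 ≤ ρ) (h1 : ρ < 1) (I J : Finset ℕ) (a b : ℕ → ℝ)
    (ha : ∀ i, 0 ≤ a i) (hb : ∀ j, 0 ≤ b j) (hA : ∑ i ∈ I, a i ≤ 1) (hB : ∑ j ∈ J, b j ≤ 1) :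
    ∑ i ∈ I, ∑ j ∈ J, (a i * b j) ^ sg * ρ ^ Nat.dist i j ≤ 2 / (1 - ρ) := by
  refine (double_le h0 h1 I J a b ha hb 1 1 hA hB).trans (le_of_eq ?_)
  rw [Real.one_rpow]; ring

/-- The cells allowed at a generic prime with base exponent `i0`. -/
def AllowedCell (i0 i j : ℕ) : Prop := (i = i0 ∧ Nat.dist i j ≤ 1) ∨ (j = i0 ∧ Nat.dist i j ≤ 1)

lemma off_sum_le {ρ : ℝ} (hρ0 : 0 ≤ ρ) (hρ1 : ρ ≤ 1/100000) (I : Finset ℕ) :
    ∀ i ∈ I, ∀ k : ℕ, 1 ≤ k →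
      ∑ j ∈ I.filter (fun j => k ≤ Nat.dist i j), ρ ^ Nat.dist i j ≤ 4 * ρ ^ k := by
  have hρlt : ρ < 1 := by linarith
  have h2ρ : 2 / (1 - ρ) ≤ 4 := by rw [div_le_iff₀ (by linarith)]; linarith
  intro i _ k _
  refine (geom_dist_le hρ0 hρlt k i _ (fun j hj => (Finset.mem_filter.1 hj).2)).trans ?_
  calc 2 * ρ ^ k / (1 - ρ) = 2 / (1 - ρ) * ρ ^ k := by ring
    _ ≤ _ := mul_le_mul_of_nonneg_right h2ρ (by positivity)


lemma mass_concentrated {ρ : ℝ} (hρ0 : 0 ≤ ρ) (hρ1 : ρ ≤ 1/100000) {I : Finset ℕ} {a b : ℕ → ℝ}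
    (ha : ∀ i, 0 ≤ a i) (hb : ∀ j, 0 ≤ b j) (hA : ∑ i ∈ I, a i = 1) (hB : ∑ i ∈ I, b i = 1)
    (h1 : 1 ≤ ∑ i ∈ I, ∑ j ∈ I, (a i * b j) ^ sg * ρ ^ Nat.dist i j) {i0 : ℕ}
    (hmax : ∀ i ∈ I, a i * b i ≤ a i0 * b i0) : 1 - 808 * ρ ≤ a i0 * b i0 := by
  have hρlt : ρ < 1 := by linarith
  have h2ρ : 2 / (1 - ρ) ≤ 4 := by rw [div_le_iff₀ (by linarith)]; linarith
  have hoff := off_sum_le hρ0 hρ1 I
  set M := a i0 * b i0 with hM
  have hM0 : 0 ≤ M := mul_nonneg (ha _) (hb _)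
  have hdiag : ∑ i ∈ I, (a i * b i) ^ sg ≤ M ^ (sg - 1/2) := by
    have h : ∀ i ∈ I, (a i * b i) ^ sg ≤ M ^ (sg - 1/2) * ((a i + b i) / 2) := by
      intro i hi
      have hab : 0 ≤ a i * b i := mul_nonneg (ha _) (hb _)
      rcases eq_or_lt_of_le hab with h | h
      · rw [← h, Real.zero_rpow (by norm_num [sg])]
        exact mul_nonneg (by positivity) (div_nonneg (add_nonneg (ha _) (hb _)) (by norm_num))
      · rw [show sg = (sg - 1/2) + 1/2 by ring, Real.rpow_add h, ← Real.sqrt_eq_rpow]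
        rw [show sg - 1/2 + 1/2 - 1/2 = sg - 1/2 by ring]
        refine mul_le_mul (Real.rpow_le_rpow hab (hmax i hi) (by norm_num [sg])) ?_ (Real.sqrt_nonneg _)
          (by positivity)
        rw [Real.sqrt_le_iff]
        exact ⟨div_nonneg (add_nonneg (ha _) (hb _)) (by norm_num), by nlinarith [sq_nonneg (a i - b i)]⟩
    refine (Finset.sum_le_sum h).trans (le_of_eq ?_)
    rw [← Finset.mul_sum, ← Finset.sum_div, Finset.sum_add_distrib, hA, hB]; ring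
  have hM1 : 1 - 4 * ρ ≤ M ^ (sg - 1/2) := by
    have hsplit : ∀ i ∈ I, ∑ j ∈ I, (a i * b j) ^ sg * ρ ^ Nat.dist i j ≤ (a i * b i) ^ sg
        + ∑ j ∈ I.filter (fun j => 1 ≤ Nat.dist i j),
          ((a i ^ (2*sg) + b j ^ (2*sg)) / 2) * ρ ^ Nat.dist i j := by
      intro i hi
      rw [← Finset.sum_filter_add_sum_filter_not I (fun j => 1 ≤ Nat.dist i j), add_comm]
      refine add_le_add ?_ (Finset.sum_le_sum fun j _ =>
        mul_le_mul_of_nonneg_right (cross_le _ _ (ha i) (hb j)) (pow_nonneg hρ0 _))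
      have e : I.filter (fun j => ¬ 1 ≤ Nat.dist i j) = {i} := by
        ext j
        rw [Finset.mem_filter, Finset.mem_singleton]
        constructor
        · rintro ⟨-, h⟩
          exact (Nat.eq_of_dist_eq_zero (n := i) (m := j) (by omega)).symm
        · intro h
          subst h
          rw [Nat.dist_self]
          exact ⟨hi, by omega⟩
      rw [e, Finset.sum_singleton, Nat.dist_self, pow_zero, mul_one]
    have h := h1.trans (Finset.sum_le_sum hsplit)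
    rw [Finset.sum_add_distrib] at h
    have hoff' : ∑ i ∈ I, ∑ j ∈ I.filter (fun j => 1 ≤ Nat.dist i j),
        ((a i ^ (2*sg) + b j ^ (2*sg)) / 2) * ρ ^ Nat.dist i j ≤ 4 * ρ := by
      have e : ∀ i ∈ I, ∑ j ∈ I.filter (fun j => 1 ≤ Nat.dist i j),
          ((a i ^ (2*sg) + b j ^ (2*sg)) / 2) * ρ ^ Nat.dist i j
          = a i ^ (2*sg) / 2 * (∑ j ∈ I.filter (fun j => 1 ≤ Nat.dist i j), ρ ^ Nat.dist i j)
            + ∑ j ∈ I, if 1 ≤ Nat.dist i j then b j ^ (2*sg) / 2 * ρ ^ Nat.dist i j else 0 := by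
        intro i _
        rw [← Finset.sum_filter, Finset.mul_sum, ← Finset.sum_add_distrib]
        exact Finset.sum_congr rfl fun j _ => by ring
      rw [Finset.sum_congr rfl e, Finset.sum_add_distrib]
      have e2 : ∑ i ∈ I, ∑ j ∈ I, (if 1 ≤ Nat.dist i j then b j ^ (2*sg) / 2 * ρ ^ Nat.dist i j else 0)
          = ∑ j ∈ I, b j ^ (2*sg) / 2 * ∑ i ∈ I.filter (fun i => 1 ≤ Nat.dist j i), ρ ^ Nat.dist j i := by
        rw [Finset.sum_comm]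
        refine Finset.sum_congr rfl fun j _ => ?_
        rw [Finset.mul_sum, Finset.sum_filter]
        exact Finset.sum_congr rfl fun i _ => by rw [Nat.dist_comm]
      rw [e2]
      have hh : ∀ (c : ℕ → ℝ), (∀ i, 0 ≤ c i) → ∑ i ∈ I, c i = 1 →
          ∑ i ∈ I, c i ^ (2*sg) / 2 * ∑ j ∈ I.filter (fun j => 1 ≤ Nat.dist i j), ρ ^ Nat.dist i j
            ≤ 2 * ρ := by
        intro c hc hC
        calc _ ≤ ∑ i ∈ I, c i ^ (2*sg) / 2 * (4 * ρ) := Finset.sum_le_sum fun i hi =>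
              mul_le_mul_of_nonneg_left (by simpa using hoff i hi 1 le_rfl)
                (div_nonneg (Real.rpow_nonneg (hc i) _) (by norm_num))
          _ = (∑ i ∈ I, c i ^ (2*sg)) * (2 * ρ) := by
              rw [Finset.sum_mul]; exact Finset.sum_congr rfl fun i _ => by ring
          _ ≤ 1 * (2 * ρ) := mul_le_mul_of_nonneg_right
              (by simpa using sum_rpow_two_sg_le I c hc 1 hC.le) (by linarith)
          _ = _ := one_mul _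
      linarith [hh a ha hA, hh b hb hB]
    linarith
  have hM2 : 1 - 808 * ρ ≤ M := by
    have hMp : M ^ (sg - 1/2) = M ^ ((202:ℕ)⁻¹ : ℝ) := by norm_num [sg]
    rw [hMp] at hM1
    have h := pow_le_pow_left₀ (by linarith) hM1 202
    rw [Real.rpow_inv_natCast_pow hM0 (by norm_num)] at h
    refine le_trans ?_ h
    have := one_add_mul_le_pow (by linarith : -2 ≤ -4 * ρ) 202
    rw [show 1 + -4 * ρ = 1 - 4 * ρ by ring] at this
    generalize (1 - 4 * ρ) ^ 202 = P at *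
    push_cast at this
    linarith
  exact hM2

lemma mass_bootstrap {ρ : ℝ} (hρ0 : 0 ≤ ρ) (hρ1 : ρ ≤ 1/100000) {I : Finset ℕ} {a b : ℕ → ℝ}
    (ha : ∀ i, 0 ≤ a i) (hb : ∀ j, 0 ≤ b j) (hA : ∑ i ∈ I, a i = 1) (hB : ∑ i ∈ I, b i = 1)
    (h1 : 1 ≤ ∑ i ∈ I, ∑ j ∈ I, (a i * b j) ^ sg * ρ ^ Nat.dist i j)
    {c0 : ℝ} (hc0' : c0 ^ (2 * sg - 1) ≤ 1 / 48) (hρc : ρ ≤ c0 / 2000)
    {i0 : ℕ} (hi0 : i0 ∈ I) (hmax : ∀ i ∈ I, a i * b i ≤ a i0 * b i0) :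
    (1 - a i0) + (1 - b i0) ≤ (32 * ρ) ^ ee ∧
    (∑ i ∈ I.filter (fun i => i ≠ i0), ∑ j ∈ I.filter (fun j => j ≠ i0),
      (a i * b j) ^ sg * ρ ^ Nat.dist i j ≤ 4 * ((1 - a i0) + (1 - b i0)) ^ (2 * sg)) ∧
    (∑ j ∈ I.filter (fun j => 2 ≤ Nat.dist i0 j), b j ^ sg * ρ ^ Nat.dist i0 j
      ≤ ((1 - a i0) + (1 - b i0)) ^ sg * (4 * ρ ^ 2)) ∧
    (∑ j ∈ I.filter (fun j => 2 ≤ Nat.dist i0 j), a j ^ sg * ρ ^ Nat.dist i0 j
      ≤ ((1 - a i0) + (1 - b i0)) ^ sg * (4 * ρ ^ 2)) := by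
  have hρlt : ρ < 1 := by linarith
  have h2ρ : 2 / (1 - ρ) ≤ 4 := by rw [div_le_iff₀ (by linarith)]; linarith
  have hoff := off_sum_le hρ0 hρ1 I
  have hM2 := mass_concentrated hρ0 hρ1 ha hb hA hB h1 hmax
  have ha1 : ∀ i ∈ I, a i ≤ 1 := fun i hi => hA ▸ Finset.single_le_sum (fun j _ => ha j) hi
  have hb1 : ∀ i ∈ I, b i ≤ 1 := fun i hi => hB ▸ Finset.single_le_sum (fun j _ => hb j) hi
  set A := 1 - a i0 with hA'
  set B := 1 - b i0 with hB'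
  have hA0 : 0 ≤ A := by linarith [ha1 i0 hi0]
  have hB0 : 0 ≤ B := by linarith [hb1 i0 hi0]
  have hAs : A ≤ 808 * ρ := by nlinarith [ha1 i0 hi0, hb1 i0 hi0, ha i0]
  have hBs : B ≤ 808 * ρ := by nlinarith [ha1 i0 hi0, hb1 i0 hi0, hb i0]
  set s := A + B with hs
  have hs0 : 0 ≤ s := by positivity
  have hs1 : s ≤ c0 := by linarith
  have hres : ∀ (c : ℕ → ℝ), ∑ i ∈ I, c i = 1 → ∑ i ∈ I.filter (fun i => i ≠ i0), c i ≤ 1 - c i0 := by
    intro c hC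
    rw [Finset.filter_ne', ← hC, ← Finset.sum_erase_add I c hi0]; linarith
  have hrow : ∀ (c : ℕ → ℝ) (X : ℝ) (k : ℕ), (∀ i, 0 ≤ c i) → 1 ≤ k →
      (∑ j ∈ I.filter (fun j => j ≠ i0), c j ≤ X) →
      ∑ j ∈ I.filter (fun j => k ≤ Nat.dist i0 j), c j ^ sg * ρ ^ Nat.dist i0 j ≤ X ^ sg * (4 * ρ ^ k) := by
    intro c X k hc hk hX
    calc _ ≤ ∑ j ∈ I.filter (fun j => k ≤ Nat.dist i0 j), X ^ sg * ρ ^ Nat.dist i0 j := by
          refine Finset.sum_le_sum fun j hj => mul_le_mul_of_nonneg_right ?_ (pow_nonneg hρ0 _)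
          refine Real.rpow_le_rpow (hc j) (le_trans ?_ hX) sg_pos.le
          refine Finset.single_le_sum (fun i _ => hc i) ?_
          obtain ⟨h1, h2⟩ := Finset.mem_filter.1 hj
          exact Finset.mem_filter.2 ⟨h1, fun e => by subst e; rw [Nat.dist_self] at h2; omega⟩
      _ ≤ _ := by
          rw [← Finset.mul_sum]
          refine mul_le_mul_of_nonneg_left (hoff i0 hi0 k hk)
            (Real.rpow_nonneg (le_trans (Finset.sum_nonneg fun i _ => hc i) hX) _)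
  have hX2 : ∀ X : ℝ, 0 ≤ X → X ≤ s → X ^ (2*sg) ≤ s ^ (2*sg) := fun X h h' =>
    Real.rpow_le_rpow h h' (by norm_num [sg])
  have hother : ∑ i ∈ I.filter (fun i => i ≠ i0), ∑ j ∈ I.filter (fun j => j ≠ i0),
      (a i * b j) ^ sg * ρ ^ Nat.dist i j ≤ 4 * s ^ (2 * sg) := by
    refine (double_le hρ0 hρlt _ _ a b ha hb A B (hres a hA) (hres b hB)).trans ?_
    refine (mul_le_mul h2ρ (?_ : _ ≤ s ^ (2 * sg)) (by positivity) (by norm_num)).trans le_rfl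
    linarith [hX2 A hA0 (by linarith), hX2 B hB0 (by linarith)]
  have hdia : (a i0 * b i0) ^ sg ≤ 1 - s / 3 := by
    have hab : A * B ≤ s / 4 := by nlinarith
    have h := rpow_one_add_le_one_add_mul_self (by nlinarith : (-1:ℝ) ≤ -(A + B - A * B)) sg_pos.le
      (by norm_num [sg])
    rw [show a i0 * b i0 = 1 + -(A + B - A * B) by rw [hA', hB']; ring]
    refine h.trans ?_
    norm_num [sg]
    linarith
  -- bootstrap
  have hboot : s / 3 ≤ 8 * ρ * s ^ sg + 4 * s ^ (2*sg) := by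
    have e : ∑ i ∈ I, ∑ j ∈ I, (a i * b j) ^ sg * ρ ^ Nat.dist i j ≤ (a i0 * b i0) ^ sg
        + (∑ j ∈ I.filter (fun j => 1 ≤ Nat.dist i0 j), b j ^ sg * ρ ^ Nat.dist i0 j)
        + (∑ i ∈ I.filter (fun i => 1 ≤ Nat.dist i0 i), a i ^ sg * ρ ^ Nat.dist i0 i)
        + ∑ i ∈ I.filter (fun i => i ≠ i0), ∑ j ∈ I.filter (fun j => j ≠ i0),
            (a i * b j) ^ sg * ρ ^ Nat.dist i j := by
      have ef : I.filter (fun j => 1 ≤ Nat.dist i0 j) = I.erase i0 := by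
        ext j
        rw [Finset.mem_filter, Finset.mem_erase]
        constructor
        · rintro ⟨hj, hd⟩
          exact ⟨fun e => by subst e; rw [Nat.dist_self] at hd; omega, hj⟩
        · rintro ⟨hne, hj⟩
          exact ⟨hj, Nat.pos_of_ne_zero fun h => hne (Nat.eq_of_dist_eq_zero h).symm⟩
      rw [ef, Finset.filter_ne', ← Finset.sum_erase_add I _ hi0,
        ← Finset.sum_erase_add I (fun j => (a i0 * b j) ^ sg * ρ ^ Nat.dist i0 j) hi0,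
        Nat.dist_self, pow_zero, mul_one]
      have e2 : ∀ i ∈ I.erase i0, ∑ j ∈ I, (a i * b j) ^ sg * ρ ^ Nat.dist i j
          ≤ a i ^ sg * ρ ^ Nat.dist i0 i + ∑ j ∈ I.erase i0, (a i * b j) ^ sg * ρ ^ Nat.dist i j := by
        intro i _
        rw [← Finset.sum_erase_add I _ hi0, add_comm, Nat.dist_comm i i0]
        refine add_le_add (mul_le_mul_of_nonneg_right ?_ (pow_nonneg hρ0 _)) le_rfl
        exact Real.rpow_le_rpow (mul_nonneg (ha _) (hb _))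
          (mul_le_of_le_one_right (ha i) (hb1 i0 hi0)) sg_pos.le
      have e3 : ∑ j ∈ I.erase i0, (a i0 * b j) ^ sg * ρ ^ Nat.dist i0 j
          ≤ ∑ j ∈ I.erase i0, b j ^ sg * ρ ^ Nat.dist i0 j :=
        Finset.sum_le_sum fun j _ => mul_le_mul_of_nonneg_right (Real.rpow_le_rpow (mul_nonneg (ha _) (hb _))
          (mul_le_of_le_one_left (hb j) (ha1 i0 hi0)) sg_pos.le) (pow_nonneg hρ0 _)
      have h2 := Finset.sum_le_sum e2
      rw [Finset.sum_add_distrib] at h2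
      linarith
    have r1 := hrow b B 1 hb le_rfl (hres b hB)
    have r2 := hrow a A 1 ha le_rfl (hres a hA)
    have hBp : B ^ sg ≤ s ^ sg := Real.rpow_le_rpow hB0 (by linarith) sg_pos.le
    have hAp : A ^ sg ≤ s ^ sg := Real.rpow_le_rpow hA0 (by linarith) sg_pos.le
    rw [pow_one] at r1 r2
    have q1 := mul_le_mul_of_nonneg_right hBp (by linarith : 0 ≤ 4 * ρ)
    have q2 := mul_le_mul_of_nonneg_right hAp (by linarith : 0 ≤ 4 * ρ)
    linarith [h1.trans e]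
  have hsb : s ≤ (32 * ρ) ^ ee := by
    rcases eq_or_lt_of_le hs0 with h | h
    · rw [← h]; positivity
    have h2 : 4 * s ^ (2*sg) ≤ s / 12 := by
      rw [show s ^ (2*sg) = s * s ^ (2*sg - 1) by
        rw [← Real.rpow_one_add' h.le (by norm_num [sg])]; ring_nf]
      have := mul_le_mul_of_nonneg_left ((Real.rpow_le_rpow h.le hs1 (by norm_num [sg])).trans hc0') h.le
      linarith
    have h3 : s ≤ 32 * ρ * s ^ sg := by linarith
    have h4 : s ^ (1 - sg) ≤ 32 * ρ := by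
      rw [Real.rpow_sub h, Real.rpow_one, div_le_iff₀ (by positivity)]; exact h3
    have h5 := Real.rpow_le_rpow (by positivity) h4 (by norm_num [ee] : 0 ≤ ee)
    rwa [← Real.rpow_mul h.le, show (1 - sg) * ee = 1 by norm_num [ee, sg], Real.rpow_one] at h5
  refine ⟨hsb, hother, ?_, ?_⟩
  · exact (hrow b B 2 hb (by norm_num) (hres b hB)).trans (mul_le_mul_of_nonneg_right
      (Real.rpow_le_rpow hB0 (by linarith) sg_pos.le) (by positivity))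
  · exact (hrow a A 2 ha (by norm_num) (hres a hA)).trans (mul_le_mul_of_nonneg_right
      (Real.rpow_le_rpow hA0 (by linarith) sg_pos.le) (by positivity))

lemma concentrated : ∃ ρ0 C : ℝ, 0 < ρ0 ∧ 0 < C ∧ ∀ (ρ : ℝ), 0 ≤ ρ → ρ ≤ ρ0 →
    ∀ (I : Finset ℕ) (a b : ℕ → ℝ), (∀ i, 0 ≤ a i) → (∀ j, 0 ≤ b j) →
      ∑ i ∈ I, a i = 1 → ∑ i ∈ I, b i = 1 →
      1 ≤ ∑ i ∈ I, ∑ j ∈ I, (a i * b j) ^ sg * ρ ^ Nat.dist i j →
      ∃ i0 ∈ I, ∀ S : Finset (ℕ × ℕ), S ⊆ I ×ˢ I → (∀ x ∈ S, ¬ AllowedCell i0 x.1 x.2) →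
        ∑ x ∈ S, (a x.1 * b x.2) ^ sg * ρ ^ Nat.dist x.1 x.2 ≤ C * ρ ^ (51/25 : ℝ) := by
  obtain ⟨c0, hc0, hc0'⟩ : ∃ c0 : ℝ, 0 < c0 ∧ c0 ^ (2 * sg - 1) ≤ 1 / 48 := by
    refine ⟨(1/48 : ℝ) ^ (1 / (2 * sg - 1)), by positivity, le_of_eq ?_⟩
    rw [← Real.rpow_mul (by norm_num), div_mul_cancel₀ _ (by norm_num [sg]), Real.rpow_one]
  refine ⟨min (1/100000) (c0 / 2000), 4 * 32 ^ (51/25 : ℝ) + 8 * 32 ^ (51/50 : ℝ), by positivity,
    by positivity, fun ρ hρ0 hρ I a b ha hb hA hB h1 => ?_⟩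
  have hρ1 : ρ ≤ 1/100000 := hρ.trans (min_le_left _ _)
  have hρc : ρ ≤ c0 / 2000 := hρ.trans (min_le_right _ _)
  have hρlt : ρ < 1 := by linarith
  have h2ρ : 2 / (1 - ρ) ≤ 4 := by rw [div_le_iff₀ (by linarith)]; linarith
  have hIne : I.Nonempty := Finset.nonempty_of_sum_ne_zero (by rw [hA]; norm_num)
  have ha1 : ∀ i ∈ I, a i ≤ 1 := fun i hi => hA ▸ Finset.single_le_sum (fun j _ => ha j) hi
  have hb1 : ∀ i ∈ I, b i ≤ 1 := fun i hi => hB ▸ Finset.single_le_sum (fun j _ => hb j) hi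
  obtain ⟨i0, hi0, hmax⟩ := Finset.exists_max_image I (fun i => a i * b i) hIne
  obtain ⟨hsb, hother, hrb, hra⟩ := mass_bootstrap hρ0 hρ1 ha hb hA hB h1 hc0' hρc hi0 hmax
  set s := (1 - a i0) + (1 - b i0) with hs
  have hs0 : 0 ≤ s := by linarith [ha1 i0 hi0, hb1 i0 hi0]
  refine ⟨i0, hi0, fun S hS hbad => ?_⟩
  have hnn : ∀ i j : ℕ, 0 ≤ (a i * b j) ^ sg * ρ ^ Nat.dist i j := fun i j =>
    mul_nonneg (Real.rpow_nonneg (mul_nonneg (ha _) (hb _)) _) (pow_nonneg hρ0 _)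
  set U1 := I.filter (fun i => i ≠ i0) ×ˢ I.filter (fun i => i ≠ i0)
  set U2 := ({i0} : Finset ℕ) ×ˢ I.filter (fun j => 2 ≤ Nat.dist i0 j)
  set U3 := I.filter (fun j => 2 ≤ Nat.dist i0 j) ×ˢ ({i0} : Finset ℕ)
  have hsub : S ⊆ U1 ∪ U2 ∪ U3 := by
    intro x hx
    obtain ⟨h1', h2'⟩ := Finset.mem_product.1 (hS hx)
    have := hbad x hx
    simp only [AllowedCell] at this
    simp only [U1, U2, U3, Finset.mem_union, Finset.mem_product, Finset.mem_filter, Finset.mem_singleton]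
    by_cases e1 : x.1 = i0
    · refine Or.inl (Or.inr ⟨e1, h2', ?_⟩)
      have : ¬ Nat.dist x.1 x.2 ≤ 1 := fun h => this (Or.inl ⟨e1, h⟩)
      rw [e1] at this; omega
    by_cases e2 : x.2 = i0
    · refine Or.inr ⟨⟨h1', ?_⟩, e2⟩
      have : ¬ Nat.dist x.1 x.2 ≤ 1 := fun h => this (Or.inr ⟨e2, h⟩)
      rw [e2, Nat.dist_comm] at this; omega
    exact Or.inl (Or.inl ⟨⟨h1', e1⟩, h2', e2⟩)
  have hU : ∀ (T : Finset (ℕ × ℕ)), 0 ≤ ∑ x ∈ T, (a x.1 * b x.2) ^ sg * ρ ^ Nat.dist x.1 x.2 :=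
    fun T => Finset.sum_nonneg fun x _ => hnn _ _
  have hU2 : ∑ x ∈ U2, (a x.1 * b x.2) ^ sg * ρ ^ Nat.dist x.1 x.2 ≤ s ^ sg * (4 * ρ ^ 2) := by
    simp only [U2, Finset.sum_product, Finset.sum_singleton]
    refine le_trans ?_ hrb
    exact Finset.sum_le_sum fun j _ => mul_le_mul_of_nonneg_right (Real.rpow_le_rpow
      (mul_nonneg (ha _) (hb _)) (mul_le_of_le_one_left (hb j) (ha1 i0 hi0)) sg_pos.le) (pow_nonneg hρ0 _)
  have hU3 : ∑ x ∈ U3, (a x.1 * b x.2) ^ sg * ρ ^ Nat.dist x.1 x.2 ≤ s ^ sg * (4 * ρ ^ 2) := by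
    simp only [U3, Finset.sum_product, Finset.sum_singleton]
    refine le_trans ?_ hra
    refine Finset.sum_le_sum fun i _ => ?_
    rw [Nat.dist_comm i i0]
    exact mul_le_mul_of_nonneg_right (Real.rpow_le_rpow
      (mul_nonneg (ha _) (hb _)) (mul_le_of_le_one_right (ha i) (hb1 i0 hi0)) sg_pos.le) (pow_nonneg hρ0 _)
  have hU1 : ∑ x ∈ U1, (a x.1 * b x.2) ^ sg * ρ ^ Nat.dist x.1 x.2 ≤ 4 * s ^ (2*sg) := by
    simp only [U1, Finset.sum_product]; exact hother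
  have hunion : ∑ x ∈ U1 ∪ U2 ∪ U3, (a x.1 * b x.2) ^ sg * ρ ^ Nat.dist x.1 x.2 ≤
      4 * s ^ (2*sg) + s ^ sg * (4 * ρ ^ 2) + s ^ sg * (4 * ρ ^ 2) := by
    have g1 := Finset.sum_union_inter (s₁ := U1 ∪ U2) (s₂ := U3)
      (f := fun x => (a x.1 * b x.2) ^ sg * ρ ^ Nat.dist x.1 x.2)
    have g2 := Finset.sum_union_inter (s₁ := U1) (s₂ := U2)
      (f := fun x => (a x.1 * b x.2) ^ sg * ρ ^ Nat.dist x.1 x.2)
    linarith [hU ((U1 ∪ U2) ∩ U3), hU (U1 ∩ U2)]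
  refine ((Finset.sum_le_sum_of_subset_of_nonneg hsub (fun x _ _ => hnn _ _)).trans hunion).trans ?_
  have e1 : s ^ (2*sg) ≤ 32 ^ (51/25:ℝ) * ρ ^ (51/25:ℝ) := by
    refine (Real.rpow_le_rpow hs0 hsb (by norm_num [sg])).trans (le_of_eq ?_)
    rw [← Real.rpow_mul (by positivity), show ee * (2*sg) = 51/25 by norm_num [ee, sg],
      Real.mul_rpow (by norm_num) hρ0]
  have e2 : s ^ sg * ρ ^ 2 ≤ 32 ^ (51/50:ℝ) * ρ ^ (51/25:ℝ) := by
    refine (mul_le_mul_of_nonneg_right (Real.rpow_le_rpow hs0 hsb sg_pos.le) (by positivity)).trans ?_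
    rw [← Real.rpow_mul (by positivity), show ee * sg = 51/50 by norm_num [ee, sg],
      Real.mul_rpow (by norm_num) hρ0, mul_assoc]
    refine mul_le_mul_of_nonneg_left ?_ (by positivity)
    rw [← Real.rpow_natCast ρ 2, ← Real.rpow_add' hρ0 (by norm_num)]
    exact Real.rpow_le_rpow_of_exponent_ge' hρ0 hρlt.le (by norm_num) (by norm_num)
  linarith

end Vale.Agent.P028.Wide
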