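import Vale.Agent.P028.Wide.Levels

namespace Vale.Agent.P028.Wide

open Finset
open scoped Classical

lemma ee_pos : (0:ℝ) < ee := by norm_num [ee]

/-- Extracting the root of an edge bound. -/
lemma root_bound {X Y M : ℝ} (hX : 0 ≤ X) (hY : 0 ≤ Y) (hM : 0 ≤ M)
    (h : X ^ ee ≤ Y ^ ee * M ^ (ee - 1)) : X ≤ Y * M ^ sg := by
  rw [← Real.rpow_le_rpow_iff hX (mul_nonneg hY (Real.rpow_nonneg hM _)) ee_pos,
    Real.mul_rpow hY (Real.rpow_nonneg hM _), ← Real.rpow_mul hM, mul_comm sg ee, ee_mul_sg]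
  exact h

/-- The two edge bounds in the form used for summation. -/
theorem edge_sum_bounds : ∃ C : ℝ, 0 < C ∧
    ∀ (η γ X t : ℝ) (ψ μ : ℕ → ℝ) (E : Finset (ℕ × ℕ)) (V0 W0 : Finset ℕ) (l : ℕ),
      Sys η γ X t ψ E → (∀ x, 0 ≤ μ x) → (∀ x, 0 ≤ ψ x) → (∀ x, μ x ≤ ψ x * lam x) →
      (∀ x ∈ V0 ∪ W0, 0 < x) → (∀ x ∈ E, (Hits η γ ψ x.1 x.2).Nonempty) →
      (1 ≤ l → Lev η X t (W1f η t) (W2f t) l (J0 * (l + 1)) ∧
        ∀ x ∈ E, (l:ℝ) ≤ x1 (W1f η t) x.1 x.2 ∨
          ∃ k ∈ Hits η γ ψ x.1 x.2, (l:ℝ) ≤ x2 (W2f t) η γ x.1 x.2 k) →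
      ((t ≤ 1 → EE μ E V0 W0
          ≤ C * (t * t ^ (1/100 : ℝ)) * Real.exp (-(7 * l)) * (mass μ V0 * mass μ W0) ^ sg) ∧
        (1 ≤ t → 1 ≤ l → EE μ E V0 W0
          ≤ C / t * Real.exp (-(7 * l)) * (mass μ V0 * mass μ W0) ^ sg)) := by
  obtain ⟨P0, C, L, hC, hL, hE⟩ := edge_bounds
  obtain ⟨C5, hC5, hω⟩ := pow_omega_le hL (δ := 1/10000) (by norm_num)
  set Sm := (Finset.range P0).filter Nat.Prime
  set D := max 1 (C * (L ^ Sm.card * max 1 C5))
  have hD : 1 ≤ D := le_max_left _ _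
  refine ⟨D, by linarith, fun η γ X t ψ μ E V0 W0 l H hμ hψ hμψ hpos hH hlev => ?_⟩
  have ht := H.ht
  set MM := mass μ V0 * mass μ W0
  have hMM : 0 ≤ MM := mul_nonneg (mass_nonneg hμ _) (mass_nonneg hμ _)
  have hEE := EE_nonneg hμ E V0 W0
  set B := (bandX η γ X).1
  have hB1 : 1 ≤ B := (bandX_spec η γ X).1
  set Fc := Sm ∪ (if (B:ℝ) ≤ t ^ (-(100:ℝ)) then B.primeFactors else ∅)
  have hFcp : ∀ p ∈ Fc, p.Prime := fun p hp => by
    rcases Finset.mem_union.1 hp with h | h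
    · exact (Finset.mem_filter.1 h).2
    · split_ifs at h
      · exact Nat.prime_of_mem_primeFactors h
      · simp at h
  have hFs : ∀ p, p.Prime → p < P0 → p ∈ Fc := fun p h1 h2 =>
    Finset.mem_union_left _ (Finset.mem_filter.2 ⟨Finset.mem_range.2 h2, h1⟩)
  obtain ⟨hhit, hlev'⟩ := hE η γ X t ψ μ E Fc V0 W0 H hμ hψ hμψ hpos hFcp hFs
  obtain ⟨-, hlev0⟩ := hE η γ X t ψ μ E Sm V0 W0 H hμ hψ hμψ hpos
    (fun p hp => (Finset.mem_filter.1 hp).2)
    (fun p h1 h2 => Finset.mem_filter.2 ⟨Finset.mem_range.2 h2, h1⟩)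
  refine ⟨fun ht1 => ?_, fun ht1 hl1 => ?_⟩
  · have hLFc : C * L ^ Fc.card ≤ D * t ^ (-(1/100 : ℝ)) := by
      refine le_trans ?_ (mul_le_mul_of_nonneg_right (le_max_right _ _) (by positivity))
      rw [mul_assoc C]
      refine mul_le_mul_of_nonneg_left ?_ hC.le
      refine (pow_le_pow_right₀ hL (Finset.card_union_le _ _)).trans ?_
      rw [pow_add, mul_assoc]
      refine mul_le_mul_of_nonneg_left ?_ (by positivity)
      have ht' : 1 ≤ t ^ (-(1/100 : ℝ)) :=
        Real.one_le_rpow_of_pos_of_le_one_of_nonpos ht ht1 (by norm_num)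
      split_ifs with hBt
      · refine (hω B hB1).trans ?_
        refine mul_le_mul (le_max_right _ _) ?_ (by positivity) (by positivity)
        refine (Real.rpow_le_rpow (Nat.cast_nonneg _) hBt (by norm_num)).trans (le_of_eq ?_)
        rw [← Real.rpow_mul ht.le]; norm_num
      · rw [Finset.card_empty, pow_zero]
        exact one_le_mul_of_one_le_of_one_le (le_max_left _ _) ht'
    have hFc : ((bandX η γ X).1 : ℝ) ≤ t ^ (-(100 : ℝ)) → (bandX η γ X).1.primeFactors ⊆ Fc := fun h p hp =>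
      Finset.mem_union_right _ (by rw [if_pos h]; exact hp)
    have h1 := hhit ht1 hH hFc
    set A := D * t ^ (-(1/100 : ℝ))
    have hA : 0 ≤ A := by positivity
    have hM1 : 0 ≤ MM ^ (ee - 1) := Real.rpow_nonneg hMM _
    have b1 : EE μ E V0 W0 ^ ee ≤ A * (t ^ (1/8 : ℝ) * t ^ 2) * MM ^ (ee - 1) :=
      h1.trans (mul_le_mul_of_nonneg_right (mul_le_mul_of_nonneg_right hLFc (by positivity)) hM1)
    have b2 : EE μ E V0 W0 ^ ee ≤ A * (Real.exp (-(30 * l)) * t ^ 2) * MM ^ (ee - 1) := by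
      rcases Nat.eq_zero_or_pos l with e | e
      · refine b1.trans (mul_le_mul_of_nonneg_right (mul_le_mul_of_nonneg_left
          (mul_le_mul_of_nonneg_right ?_ (by positivity)) hA) hM1)
        rw [e]; norm_num
        exact Real.rpow_le_one ht.le ht1 (by norm_num)
      · obtain ⟨hLv, hw⟩ := hlev e
        refine (hlev' _ _ _ _ hLv hw).trans (mul_le_mul_of_nonneg_right (mul_le_mul hLFc
          (mul_le_mul_of_nonneg_right ?_ (by positivity)) (mul_nonneg (Real.exp_pos _).le (by positivity)) hA) hM1)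
        exact Real.exp_le_exp.2 (by linarith [Real.log_nonneg (by linarith : (1:ℝ) ≤ 2 + t)])
    set T := A ^ 2 * (t ^ (1/8 : ℝ) * t ^ 4 * Real.exp (-(30 * l)))
    have b3 : (EE μ E V0 W0 ^ ee) ^ 2 ≤ T * (MM ^ (ee - 1)) ^ 2 := by
      rw [sq (EE μ E V0 W0 ^ ee)]
      refine (mul_le_mul b1 b2 (by positivity) (by positivity)).trans (le_of_eq ?_)
      simp only [T]; ring
    refine root_bound hEE (by positivity) hMM ?_
    refine le_of_sq_le_sq (b3.trans ?_) (by positivity)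
    rw [mul_pow _ (MM ^ (ee - 1))]
    refine mul_le_mul_of_nonneg_right ?_ (sq_nonneg _)
    simp only [T, A]
    rw [← Real.rpow_natCast ((D * (t * t ^ (1/100 : ℝ)) * Real.exp (-(7 * (l:ℝ)))) ^ ee) 2,
      ← Real.rpow_mul (by positivity),
      Real.mul_rpow (by positivity) (Real.exp_pos _).le, Real.mul_rpow (by linarith) (by positivity),
      ← Real.exp_mul, mul_pow, ← Real.rpow_natCast t 4, ← Real.rpow_natCast (t ^ (-(1/100 : ℝ))) 2,
      ← Real.rpow_mul ht.le, ← Real.rpow_one_add' ht.le (by norm_num), ← Real.rpow_mul ht.le,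
      ← Real.rpow_natCast D 2]
    calc D ^ ((2:ℕ):ℝ) * t ^ (-(1/100 : ℝ) * ((2:ℕ):ℝ)) * (t ^ (1/8 : ℝ) * t ^ ((4:ℕ):ℝ) * Real.exp (-(30 * l)))
        = D ^ ((2:ℕ):ℝ) * t ^ (-(1/100 : ℝ) * ((2:ℕ):ℝ) + (1/8 + ((4:ℕ):ℝ))) * Real.exp (-(30 * l)) := by
          rw [Real.rpow_add ht, Real.rpow_add ht]; ring
      _ ≤ _ := by
          refine mul_le_mul (mul_le_mul ?_ ?_ (by positivity) (by positivity)) ?_ (Real.exp_pos _).le (by positivity)
          · exact Real.rpow_le_rpow_of_exponent_le hD (by norm_num [ee])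
          · exact Real.rpow_le_rpow_of_exponent_ge ht ht1 (by norm_num [ee])
          · refine Real.exp_le_exp.2 ?_
            have : (0:ℝ) ≤ l := Nat.cast_nonneg _
            norm_num [ee]; linarith
  · obtain ⟨hLv, hw⟩ := hlev hl1
    have b1 : EE μ E V0 W0 ^ ee ≤ D * (Eps t l * t ^ 2) * MM ^ (ee - 1) := by
      refine (hlev0 _ _ _ _ hLv hw).trans (mul_le_mul_of_nonneg_right (mul_le_mul_of_nonneg_right ?_
        (mul_nonneg (Real.exp_pos _).le (by positivity))) (Real.rpow_nonneg hMM _))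
      exact le_trans (mul_le_mul_of_nonneg_left
        (le_mul_of_one_le_right (by positivity) (le_max_left _ _)) hC.le) (le_max_right _ _)
    refine root_bound hEE (by positivity) hMM (b1.trans (mul_le_mul_of_nonneg_right ?_ (Real.rpow_nonneg hMM _)))
    rw [Real.mul_rpow (by positivity) (Real.exp_pos _).le, ← Real.exp_mul,
      Real.div_rpow (by linarith) ht.le, Eps, div_mul_eq_mul_div, le_div_iff₀ (by positivity)]
    have h2 : Real.exp (-(30 * Real.log (2 + t) + 30 * l)) ≤ t ^ (-(30:ℝ)) * Real.exp (-(30 * l)) := by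
      rw [Real.rpow_def_of_pos ht, ← Real.exp_add]
      refine Real.exp_le_exp.2 ?_
      have := Real.log_le_log ht (show t ≤ 2 + t by linarith)
      linarith
    calc D * (Real.exp (-(30 * Real.log (2 + t) + 30 * l)) * t ^ 2) * t ^ ee
        ≤ D * (t ^ (-(30:ℝ)) * Real.exp (-(30 * l)) * t ^ ((2:ℕ):ℝ)) * t ^ ee := by
          rw [Real.rpow_natCast]
          exact mul_le_mul_of_nonneg_right (mul_le_mul_of_nonneg_left
            (mul_le_mul_of_nonneg_right h2 (by positivity)) (by linarith)) (by positivity)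
      _ = D * t ^ (-(30:ℝ) + (((2:ℕ):ℝ) + ee)) * Real.exp (-(30 * l)) := by
          rw [Real.rpow_add ht, Real.rpow_add ht]; ring
      _ ≤ D ^ ee * 1 * Real.exp (-(7 * l) * ee) := by
          refine mul_le_mul (mul_le_mul ?_ ?_ (by positivity) (by positivity)) ?_ (Real.exp_pos _).le (by positivity)
          · exact Real.self_le_rpow_of_one_le hD (by norm_num [ee])
          · exact Real.rpow_le_one_of_one_le_of_nonpos ht1 (by norm_num [ee])
          · refine Real.exp_le_exp.2 ?_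
            have : (0:ℝ) ≤ l := Nat.cast_nonneg _
            norm_num [ee]; linarith
      _ = _ := by ring

end Vale.Agent.P028.Wide
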