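import Vale.Agent.P028.Wide.Overlap
import Vale.Agent.P028.Wide.Lattice

namespace Vale.Agent.P028.Wide

open Finset
open scoped Classical

/-- The small exponent of the saving. -/
noncomputable def om (η : ℝ) : ℝ := bB η / 8

/-- The width of the range of scales treated with the gcd graph. -/
noncomputable def tha (η : ℝ) : ℝ := om η / 200000

/-- The multiplier in the order of the moment. -/
def J0 : ℕ := 1000000

lemma om_pos {η : ℝ} (h : 0 < η) : 0 < om η := by unfold om; have := bB_pos h; positivity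

lemma tha_pos {η : ℝ} (h : 0 < η) : 0 < tha η := by unfold tha; have := om_pos h; positivity

/-- The conditions on the size of the band. -/
structure Big (η X : ℝ) : Prop where
  hX : 3 ≤ X
  b1 : 2 < X ^ (bE η - 8 * bB η)
  b3 : Real.exp (2 * Real.sqrt (16 * Real.log X)) ≤ X ^ (om η / 4)
  b4 : ∀ l : ℕ, (l:ℝ) ≤ 3 + Real.log (1 + 2 * Real.log X) →
    (10 + 4 * Real.log X) ^ (J0 * (l + 1)) ≤ X ^ (om η / 2)
  b5 : (4:ℝ) ^ 30 ≤ X ^ (om η / 1000)

variable {η γ X : ℝ}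

lemma Big.one_le (h : Big η X) : 1 ≤ X := by linarith [h.hX]

lemma Big.star_big (h : Big η X) (hη : 0 < η) {q : ℕ} (hq : X ≤ q) :
    2 < (q:ℝ) ^ (bE η - bB η) := by
  have h1 : 0 ≤ bE η - 8 * bB η := by unfold bE bB; linarith
  refine lt_of_lt_of_le h.b1 ?_
  refine (Real.rpow_le_rpow_of_exponent_le h.one_le (z := bE η - bB η) (by linarith [bB_pos hη])).trans ?_
  exact Real.rpow_le_rpow (by linarith [h.one_le]) hq (by linarith [bB_pos hη])

/-- The fraction of the band, or `0/1`. -/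
noncomputable def bandX (η γ X : ℝ) : ℕ × ℤ :=
  if h : ∃ x, BandFrac η γ X x then h.choose else (1, 0)

lemma bandX_spec (η γ X : ℝ) : 1 ≤ (bandX η γ X).1 ∧ IsCoprime ((bandX η γ X).1 : ℤ) (bandX η γ X).2 := by
  unfold bandX
  split_ifs with h
  · exact ⟨h.choose_spec.1, h.choose_spec.2.1⟩
  · exact ⟨le_rfl, by simpa using (isCoprime_one_left : IsCoprime (1:ℤ) 0)⟩

lemma bandX_mem (h : ∃ x, BandFrac η γ X x) : BandFrac η γ X (bandX η γ X) := by
  unfold bandX; rw [dif_pos h]; exact h.choose_spec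

lemma bandX_le (hη : 0 < η) (hX : 1 ≤ X) : ((bandX η γ X).1 : ℝ) ≤ X ^ bB η := by
  by_cases h : ∃ x, BandFrac η γ X x
  · exact (bandX_mem h).2.2.1
  · unfold bandX; rw [dif_neg h]; push_cast
    exact Real.one_le_rpow hX (bB_pos hη).le

lemma band_of_approx {n : ℕ} {a : ℤ} (hn : 1 ≤ n) (h1 : (n:ℝ) ≤ X ^ bB η)
    (h2 : |(n:ℝ) * γ - a| ≤ X ^ (-(8 * bE η))) : ∃ x, BandFrac η γ X x := by
  set g := Int.gcd (n:ℤ) a
  have hg : 0 < g := Int.gcd_pos_iff.2 (Or.inl (by omega))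
  obtain ⟨n', hn'⟩ : g ∣ n := by exact_mod_cast Int.gcd_dvd_left (n:ℤ) a
  obtain ⟨a', ha'⟩ : (g:ℤ) ∣ a := Int.gcd_dvd_right (n:ℤ) a
  have hn'0 : 1 ≤ n' := Nat.pos_of_ne_zero fun h => by simp [h] at hn'; omega
  refine ⟨(n', a'), hn'0, ?_, le_trans ?_ h1, le_trans ?_ h2⟩
  · rw [Int.isCoprime_iff_gcd_eq_one]
    have h := Int.gcd_div_gcd_div_gcd (i := (n:ℤ)) (j := a) hg
    have e1 : (n:ℤ) / (g:ℤ) = n' := by
      rw [hn']; push_cast; exact Int.mul_ediv_cancel_left _ (by omega)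
    have e2 : a / (g:ℤ) = a' := by rw [ha']; exact Int.mul_ediv_cancel_left _ (by omega)
    rwa [e1, e2] at h
  · exact_mod_cast Nat.le_of_dvd (by omega) (Dvd.intro_left g hn'.symm)
  · have e : (n:ℝ) * γ - a = (g:ℝ) * ((n':ℝ) * γ - a') := by
      have e1 : (n:ℝ) = (g:ℝ) * n' := by exact_mod_cast hn'
      have e2 : (a:ℝ) = (g:ℝ) * a' := by exact_mod_cast ha'
      rw [e1, e2]; ring
    simp only
    rw [e, abs_mul, Nat.abs_cast]
    exact le_mul_of_one_le_left (abs_nonneg _) (by exact_mod_cast hg)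

/-- Minor arcs with a congruence: the coefficient has a large denominator unless the band has a fraction. -/
lemma minor_bound (hη : 0 < η) (hη1 : η ≤ 1) (hB : Big η X) (hnb : ¬ ∃ x, BandFrac η γ X x) {M m : ℕ}
    (hM : 1 ≤ M) (hMX : (M:ℝ) ≤ X ^ (2 * om η)) (hm : 1 ≤ m) (hmX : (m:ℝ) ≤ X ^ om η)
    {N : ℕ} (hN : X ^ (η / 4) ≤ N) (z1 : ℤ) (φ τ : ℝ) (hτ : 0 ≤ τ) (s : Finset ℕ)
    (hs : ∀ V ∈ s, 1 ≤ V ∧ V ≤ N ∧ ∃ z : ℤ, |(z:ℝ) + (M:ℝ) * (γ + z1) / m * V - φ| < τ) :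
    (s.card : ℝ) ≤ 4 * τ * N + 6 * N * X ^ (-om η) := by
  have hX1 := hB.one_le
  have hX0 : (0:ℝ) < X := by linarith
  have hom := om_pos hη
  set α := (M:ℝ) * (γ + z1) / m
  set N0 := ⌊X ^ (η / 5)⌋₊
  have hN0 : 0 < N0 := Nat.floor_pos.2 (Real.one_le_rpow hX1 (by linarith))
  obtain ⟨b, a, hb, hbN, hco, happ⟩ := exists_approx α N0 hN0
  have hN0le : (N0:ℝ) ≤ X ^ (η / 5) := Nat.floor_le (by positivity)
  have hN0gt : X ^ (η / 5) < (N0:ℝ) + 1 := Nat.lt_floor_add_one _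
  have h16 : (16:ℝ) ≤ X ^ (om η / 1000) := le_trans (by norm_num) hB.b5
  have hRN : (N0:ℝ) + 1 ≤ N := by
    refine le_trans ?_ hN
    have h2 : (2:ℝ) ≤ X ^ (η / 20) :=
      le_trans (by linarith) (Real.rpow_le_rpow_of_exponent_le hX1 (by unfold om bB at *; linarith))
    have h1 : (1:ℝ) ≤ X ^ (η / 5) := Real.one_le_rpow hX1 (by linarith)
    calc (N0:ℝ) + 1 ≤ 2 * X ^ (η / 5) := by linarith
      _ ≤ X ^ (η / 20) * X ^ (η / 5) := mul_le_mul_of_nonneg_right h2 (by positivity)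
      _ = X ^ (η / 4) := by rw [← Real.rpow_add hX0]; ring_nf
  have hbig : X ^ (bB η / 2) < b := by
    by_contra hle
    push Not at hle
    refine hnb (band_of_approx (n := b * M) (a := a * (m:ℤ) - ((b:ℤ) * (M:ℤ)) * z1) (Nat.mul_pos hb hM) ?_ ?_)
    · push_cast
      refine (mul_le_mul hle hMX (Nat.cast_nonneg _) (by positivity)).trans ?_
      rw [← Real.rpow_add hX0]
      exact Real.rpow_le_rpow_of_exponent_le hX1 (by unfold om bB at *; linarith)
    · have hm0 : (0:ℝ) < m := by exact_mod_cast hm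
      have e : (((b * M : ℕ):ℝ)) * γ - ((a * (m:ℤ) - ((b:ℤ) * (M:ℤ)) * z1 : ℤ):ℝ) = (m:ℝ) * ((b:ℝ) * α - a) := by
        simp only [α]; push_cast; field_simp; ring
      rw [e, abs_mul, abs_of_pos hm0]
      refine (mul_le_mul hmX (happ.trans (one_div_le_one_div_of_le (by positivity) hN0gt.le))
        (abs_nonneg _) (by positivity)).trans ?_
      rw [one_div, ← Real.rpow_neg hX0.le, ← Real.rpow_add hX0]
      exact Real.rpow_le_rpow_of_exponent_le hX1 (by unfold om bB bE at *; linarith)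
  have hc := count_minor α φ τ hτ N b a hb ((N0:ℝ) + 1)
    (by have : (b:ℝ) ≤ N0 := by exact_mod_cast hbN
        linarith) hRN hco happ s hs
  refine hc.trans ?_
  have h1 : 4 * (N:ℝ) / ((N0:ℝ) + 1) ≤ 4 * N * X ^ (-om η) := by
    rw [Real.rpow_neg hX0.le, ← div_eq_mul_inv]
    refine div_le_div_of_nonneg_left (by positivity) (by positivity) ((le_of_lt ?_))
    refine lt_of_le_of_lt (Real.rpow_le_rpow_of_exponent_le hX1 ?_) hN0gt
    unfold om bB at *; linarith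
  have h2 : (N:ℝ) / b ≤ N * X ^ (-om η) := by
    rw [Real.rpow_neg hX0.le, ← div_eq_mul_inv]
    refine div_le_div_of_nonneg_left (Nat.cast_nonneg _) (by positivity) (le_trans ?_ hbig.le)
    exact Real.rpow_le_rpow_of_exponent_le hX1 (by unfold om bB at *; linarith)
  have h3 : (1:ℝ) ≤ N * X ^ (-om η) := by
    rw [Real.rpow_neg hX0.le, ← div_eq_mul_inv, le_div_iff₀ (by positivity), one_mul]
    exact le_trans (Real.rpow_le_rpow_of_exponent_le hX1 (by unfold om bB at *; linarith)) hN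
  linarith

/-- The length of the range of the linear form. -/
noncomputable def RB (η γ X : ℝ) (t : ℝ) (M N : ℕ) : ℝ :=
  ((bandX η γ X).1 : ℝ) * t + (M:ℝ) * N * |((bandX η γ X).1 : ℝ) * γ - (bandX η γ X).2|

lemma RB_small (hη : 0 < η) (hη1 : η ≤ 1) (hB : Big η X) (hb : ∃ x, BandFrac η γ X x) {M N : ℕ}
    (hMX : (M:ℝ) ≤ X ^ (2 * om η)) (hN : X ^ (η / 4) ≤ N) {t : ℝ} (ht : 0 ≤ t)
    (ht' : t ≤ 2 * X ^ (2 * tha η)) : RB η γ X t M N ≤ 2 * N * X ^ (-om η) := by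
  obtain ⟨-, -, hBl, hεl⟩ := bandX_mem hb
  have hX1 := hB.one_le
  have hX0 : (0:ℝ) < X := by linarith
  have hom := om_pos hη
  have h16 : (16:ℝ) ≤ X ^ (om η / 1000) := le_trans (by norm_num) hB.b5
  have h1 : ((bandX η γ X).1 : ℝ) * t ≤ N * X ^ (-om η) := by
    calc ((bandX η γ X).1 : ℝ) * t ≤ X ^ bB η * (2 * X ^ (2 * tha η)) :=
          mul_le_mul hBl ht' ht (by positivity)
      _ ≤ X ^ bB η * (X ^ (om η / 1000) * X ^ (2 * tha η)) := by gcongr; linarith
      _ ≤ X ^ (η / 4) * X ^ (-om η) := by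
          rw [← Real.rpow_add hX0, ← Real.rpow_add hX0, ← Real.rpow_add hX0]
          exact Real.rpow_le_rpow_of_exponent_le hX1 (by unfold tha om bB at *; linarith)
      _ ≤ _ := mul_le_mul_of_nonneg_right hN (by positivity)
  have h2 : (M:ℝ) * N * |((bandX η γ X).1 : ℝ) * γ - (bandX η γ X).2| ≤ N * X ^ (-om η) := by
    calc (M:ℝ) * N * |((bandX η γ X).1 : ℝ) * γ - (bandX η γ X).2|
        ≤ X ^ (2 * om η) * N * X ^ (-(8 * bE η)) :=
          mul_le_mul (mul_le_mul_of_nonneg_right hMX (Nat.cast_nonneg _)) hεl (abs_nonneg _) (by positivity)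
      _ = N * (X ^ (2 * om η) * X ^ (-(8 * bE η))) := by ring
      _ ≤ _ := by
          refine mul_le_mul_of_nonneg_left ?_ (Nat.cast_nonneg _)
          rw [← Real.rpow_add hX0]
          exact Real.rpow_le_rpow_of_exponent_le hX1 (by unfold om bB bE at *; linarith)
  unfold RB; linarith

variable {ψ : ℕ → ℝ}

/-- A partner of `q` realising the cofactors `u` and `M * V`. -/
def Partner (X t : ℝ) (ψ : ℕ → ℝ) (q u M V r : ℕ) : Prop :=
  PairFacts q r ∧ cu q r = u ∧ cv q r = M * V ∧ tt ψ q r ≤ t ∧ X ≤ r ∧ (r:ℝ) ≤ X ^ (8:ℕ)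

lemma partner_near {t : ℝ} {q u M V r : ℕ} (h : Partner X t ψ q u M V r) {k : ℤ}
    (hk : k ∈ Hits η γ ψ q r) :
    u < M * V ∧ |(k:ℝ) + γ * (((M * V : ℕ):ℝ) - u)| < t := by
  obtain ⟨P, hu, hv, htt, -, -⟩ := h
  have h1 := hits_near P hk
  have h2 := P.huv
  rw [hu, hv] at h1 h2
  rw [Nat.cast_sub h2.le] at h1
  exact ⟨h2, lt_of_lt_of_le h1 htt⟩

/-- The bound for the share of cofactors producing a hit. -/
lemma hit_count (hη : 0 < η) (hη1 : η ≤ 1) (hB : Big η X) {q u M N : ℕ} (hM : 1 ≤ M)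
    (hMX : (M:ℝ) ≤ X ^ (2 * om η)) (hN : X ^ (η / 4) ≤ N) {t : ℝ} (ht : 0 ≤ t)
    (ht' : t ≤ 2 * X ^ (2 * tha η)) (s : Finset ℕ)
    (hs : ∀ V ∈ s, 1 ≤ V ∧ V ≤ N ∧ ∃ r, Partner X t ψ q u M V r ∧ (Hits η γ ψ q r).Nonempty) :
    (s.card : ℝ) ≤ (N:ℝ) * (8 * t + 8 * X ^ (-om η)
      + (Nat.gcd (bandX η γ X).1 M : ℝ) * min (1 / ((bandX η γ X).1 : ℝ)) (4 * t)) := by
  have hX1 := hB.one_le
  have hX0 : (0:ℝ) < X := by linarith
  set B := (bandX η γ X).1
  obtain ⟨hB1, hco⟩ := bandX_spec η γ X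
  have hxs : 0 ≤ X ^ (-om η) := by positivity
  have hd0 : (0:ℝ) ≤ Nat.gcd B M := Nat.cast_nonneg _
  have hmin : 0 ≤ min (1 / (B:ℝ)) (4 * t) := le_min (by positivity) (by linarith)
  by_cases hb : ∃ x, BandFrac η γ X x
  · have h := count_major γ B (bandX η γ X).2 hB1 hco M u hM t ht N 1 le_rfl (Nat.coprime_one_left B) s ?_
    · simp only [Nat.cast_one, div_one] at h
      have hR := RB_small hη hη1 hB hb hMX hN ht ht'
      have h1 : (1:ℝ) ≤ N * X ^ (-om η) := by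
        rw [Real.rpow_neg hX0.le, ← div_eq_mul_inv, le_div_iff₀ (by positivity), one_mul]
        exact le_trans (Real.rpow_le_rpow_of_exponent_le hX1 (by have := om_pos hη; unfold om bB at *; linarith)) hN
      have hRdef : RB η γ X t M N = (B:ℝ) * t + (M:ℝ) * N * |(B:ℝ) * γ - (bandX η γ X).2| := rfl
      rw [← hRdef] at h
      refine h.trans ?_
      have hNm : 0 ≤ (N:ℝ) * ((Nat.gcd B M : ℝ) * min (1 / (B:ℝ)) (4 * t)) := by positivity
      split_ifs with hR1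
      · have h2 : (Nat.gcd B M : ℝ) * min ((N:ℝ) / B) (4 * t * N / RB η γ X t M N)
            ≤ (N:ℝ) * ((Nat.gcd B M : ℝ) * min (1 / (B:ℝ)) (4 * t)) := by
          rw [mul_left_comm (N:ℝ)]
          refine mul_le_mul_of_nonneg_left ?_ hd0
          rw [mul_min_of_nonneg _ _ (Nat.cast_nonneg N), mul_one_div]
          refine min_le_min le_rfl ?_
          rw [mul_comm (N:ℝ) (4 * t)]
          exact div_le_self (by positivity) hR1
        linarith
      · linarith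
    intro V hV
    obtain ⟨h1, h2, r, hp, k, hk⟩ := hs V hV
    obtain ⟨h3, h4⟩ := partner_near hp hk
    refine ⟨h1, h2, h3, k, h4, ?_, by simp⟩
    obtain ⟨P, hu, hv, -, hrX, hr8⟩ := hp
    have hk' := kill P hk
    rw [band_star hη hX1 (bandX_mem hb) hrX hr8 (hB.star_big hη hrX), hu, hv] at hk'
    exact hk'
  · have hc := minor_bound hη hη1 hB hb hM hMX (m := 1) le_rfl (by
      push_cast; exact Real.one_le_rpow hX1 (om_pos hη).le) hN 0 (γ * u) t ht s ?_
    · refine hc.trans ?_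
      have : 0 ≤ (N:ℝ) * ((Nat.gcd B M : ℝ) * min (1 / (B:ℝ)) (4 * t)) := by positivity
      have : 0 ≤ t * (N:ℝ) := by positivity
      have : 0 ≤ (N:ℝ) * X ^ (-om η) := by positivity
      linarith
    intro V hV
    obtain ⟨h1, h2, r, hp, k, hk⟩ := hs V hV
    refine ⟨h1, h2, k, ?_⟩
    have h4 := (partner_near hp hk).2
    convert h4 using 2
    push_cast; ring

/-- The primes in the range of the second statistic. -/
noncomputable def Qset (W : ℝ) (q : ℕ) : Finset ℕ :=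
  q.primeFactors.filter (fun p : ℕ => W < p ∧ (p:ℝ) ≤ Real.log q)

/-- The bound for one tuple of primes. -/
lemma lev_count_T (hη : 0 < η) (hη1 : η ≤ 1) (hB : Big η X) {q u M N : ℕ} (hq : X ≤ q)
    (hq8 : (q:ℝ) ≤ X ^ (8:ℕ)) (hM : 1 ≤ M) (hMX : (M:ℝ) ≤ X ^ (2 * om η)) (hN : X ^ (η / 4) ≤ N)
    {t : ℝ} (ht : 0 ≤ t) (ht' : t ≤ 2 * X ^ (2 * tha η)) (T : Finset ℕ) (hT : ∀ p ∈ T, p.Prime)
    (hTm : ((∏ p ∈ T, p : ℕ):ℝ) ≤ X ^ om η) (s : Finset ℕ)
    (hs : ∀ V ∈ s, 1 ≤ V ∧ V ≤ N ∧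
      ∃ r, Partner X t ψ q u M V r ∧ ∃ k ∈ Hits η γ ψ q r, ∀ p ∈ T, Coin η γ q r k p) :
    (s.card : ℝ) ≤ (N:ℝ) * (8 * t / ((∏ p ∈ T, p : ℕ):ℝ) + 16 * X ^ (-om η)
      + (if (∀ p ∈ T, (p:ℝ) ≤ max ((bandX η γ X).1 : ℝ) (RB η γ X t M N)) ∧
            ((∏ p ∈ T, p : ℕ):ℝ) ≤ max ((bandX η γ X).1 : ℝ) (RB η γ X t M N) ^ 2 then
          4 * (1 + t) * (Nat.gcd (bandX η γ X).1 M : ℝ) / max ((bandX η γ X).1 : ℝ) (RB η γ X t M N)
        else 0)) := by
  have hX1 := hB.one_le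
  have hX0 : (0:ℝ) < X := by linarith
  set B := (bandX η γ X).1
  set A := (bandX η γ X).2
  set R := RB η γ X t M N
  set Z := max (B:ℝ) R
  set m := ∏ p ∈ T, p
  have hm : 0 < m := Finset.prod_pos fun p hp => (hT p hp).pos
  have hm0 : (0:ℝ) < m := by exact_mod_cast hm
  obtain ⟨hB1, hco⟩ := bandX_spec η γ X
  have hZ1 : 1 ≤ Z := le_trans (by exact_mod_cast hB1) (le_max_left _ _)
  have hxs : 0 ≤ X ^ (-om η) := by positivity
  have hN1 : (1:ℝ) ≤ N * X ^ (-om η) := by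
    rw [Real.rpow_neg hX0.le, ← div_eq_mul_inv, le_div_iff₀ (by positivity), one_mul]
    exact le_trans (Real.rpow_le_rpow_of_exponent_le hX1 (by have := om_pos hη; unfold om bB at *; linarith)) hN
  by_cases hb : ∃ x, BandFrac η γ X x
  · -- major arcs
    have hbase : ∀ (r : ℕ), X ≤ r → (r:ℝ) ≤ X ^ (8:ℕ) → ∀ p, base η γ r p = cls (B, A) p := fun r h1 h2 p => by
      unfold base; rw [band_star hη hX1 (bandX_mem hb) h1 h2 (hB.star_big hη h1)]
    set TB := T.filter (fun p : ℕ => p ∣ B)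
    set TJ := T.filter (fun p : ℕ => ¬ p ∣ B)
    set mB := ∏ p ∈ TB, p
    set mJ := ∏ p ∈ TJ, p
    have hmm : mB * mJ = m := Finset.prod_filter_mul_prod_filter_not T _ _
    have hmB : 0 < mB := Finset.prod_pos fun p hp => (hT p (Finset.mem_filter.1 hp).1).pos
    have hmJ : 0 < mJ := Finset.prod_pos fun p hp => (hT p (Finset.mem_filter.1 hp).1).pos
    have hmB0 : (0:ℝ) < mB := by exact_mod_cast hmB
    have hmBB : mB ∣ B := Finset.prod_primes_dvd B
      (fun p hp => (hT p (Finset.mem_filter.1 hp).1).prime) (fun p hp => (Finset.mem_filter.1 hp).2)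
    have hmJB : Nat.Coprime mJ B := Nat.Coprime.prod_left fun p hp =>
      (hT p (Finset.mem_filter.1 hp).1).coprime_iff_not_dvd.2 (Finset.mem_filter.1 hp).2
    have hmJmB : Nat.Coprime mJ (B * mB) := Nat.Coprime.mul_right hmJB (hmJB.coprime_dvd_right hmBB)
    have hcoB : IsCoprime ((B * mB : ℕ):ℤ) A := by
      push_cast
      exact hco.mul_left (hco.of_isCoprime_of_dvd_left (Int.natCast_dvd_natCast.2 hmBB))
    have h := count_major (γ / mB) (B * mB) A (Nat.mul_pos hB1 hmB) hcoB M u hM (t / mB) (by positivity)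
      N mJ hmJ hmJmB s ?_
    · have eR : ((B * mB : ℕ):ℝ) * (t / mB) + (M:ℝ) * N * |((B * mB : ℕ):ℝ) * (γ / mB) - A| = R := by
        simp only [R, RB]
        rw [show ((B * mB : ℕ):ℝ) * (γ / mB) = (B:ℝ) * γ by push_cast; field_simp,
          show ((B * mB : ℕ):ℝ) * (t / mB) = (B:ℝ) * t by push_cast; field_simp]
      rw [eR] at h
      have hR := RB_small hη hη1 hB hb hMX hN ht ht'
      refine h.trans ?_
      have e1 : 8 * (t / mB) * N / mJ = (N:ℝ) * (8 * t / m) := by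
        have : (m:ℝ) = (mB:ℝ) * mJ := by exact_mod_cast hmm.symm
        rw [this]; field_simp
      rw [e1]
      by_cases hmR : (mJ:ℝ) ≤ R
      swap
      · rw [if_neg hmR]
        have : 0 ≤ (N:ℝ) * (if (∀ p ∈ T, (p:ℝ) ≤ Z) ∧ (m:ℝ) ≤ Z ^ 2 then
            4 * (1 + t) * (Nat.gcd B M : ℝ) / Z else 0) := by
          refine mul_nonneg (Nat.cast_nonneg _) ?_
          split_ifs <;> positivity
        linarith
      rw [if_pos hmR, if_pos (c := (∀ p ∈ T, (p:ℝ) ≤ Z) ∧ (m:ℝ) ≤ Z ^ 2) ?_]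
      · have hd : (Nat.gcd (B * mB) M : ℝ) ≤ (Nat.gcd B M : ℝ) * mB := by
          have h1 : Nat.gcd (B * mB) M ∣ Nat.gcd B M * mB := by
            have := gcd_mul_dvd_mul_gcd M B mB
            rw [gcd_comm M B] at this
            refine dvd_trans ?_ (dvd_trans this (mul_dvd_mul (dvd_refl _) (gcd_dvd_right _ _)))
            rw [gcd_comm]; exact dvd_refl _
          exact_mod_cast Nat.le_of_dvd (Nat.mul_pos (Nat.gcd_pos_of_pos_left _ hB1) hmB) h1
        have hR0 : 0 < R := lt_of_lt_of_le (by exact_mod_cast hmJ) hmR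
        have h2 : min ((N:ℝ) / B) (4 * t * N / R) ≤ (N:ℝ) * (4 * (1 + t) / Z) := by
          rcases le_total R (B:ℝ) with hle | hle
          · have hZB : Z = B := max_eq_left hle
            rw [hZB]
            refine (min_le_left _ _).trans ?_
            rw [mul_div_assoc']
            refine div_le_div_of_nonneg_right ?_ (by positivity)
            nlinarith [Nat.cast_nonneg (α := ℝ) N]
          · have hZR : Z = R := max_eq_right hle
            rw [hZR]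
            refine (min_le_right _ _).trans ?_
            rw [mul_div_assoc']
            refine div_le_div_of_nonneg_right ?_ hR0.le
            nlinarith [Nat.cast_nonneg (α := ℝ) N]
        have h3 : min ((N:ℝ) / ((B * mB : ℕ):ℝ)) (4 * (t / mB) * N / R)
            = min ((N:ℝ) / B) (4 * t * N / R) / mB := by
          rw [← min_div_div_right hmB0.le]
          push_cast
          congr 1 <;> field_simp
        have hmin0 : 0 ≤ min ((N:ℝ) / B) (4 * t * N / R) := le_min (by positivity) (by positivity)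
        have h4 : (Nat.gcd (B * mB) M : ℝ) * min ((N:ℝ) / ((B * mB : ℕ):ℝ)) (4 * (t / mB) * N / R)
            ≤ (N:ℝ) * (4 * (1 + t) * (Nat.gcd B M : ℝ) / Z) := by
          rw [h3]
          refine (mul_le_mul_of_nonneg_right hd (by positivity)).trans ?_
          rw [mul_assoc, mul_div_cancel₀ _ hmB0.ne']
          refine (mul_le_mul_of_nonneg_left h2 (Nat.cast_nonneg _)).trans (le_of_eq ?_)
          ring
        linarith
      · have hR0 : (1:ℝ) ≤ R := le_trans (by exact_mod_cast hmJ) hmR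
        refine ⟨fun p hp => ?_, ?_⟩
        · by_cases hpB : p ∣ B
          · exact le_trans (by exact_mod_cast Nat.le_of_dvd hB1 hpB) (le_max_left _ _)
          · refine le_trans ?_ ((hmR).trans (le_max_right _ _))
            exact_mod_cast Nat.le_of_dvd hmJ (Finset.dvd_prod_of_mem (fun p => p) (Finset.mem_filter.2 ⟨hp, hpB⟩))
        · rw [sq, ← hmm]
          push_cast
          refine mul_le_mul ?_ (hmR.trans (le_max_right _ _)) (Nat.cast_nonneg _) (by linarith)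
          exact le_trans (by exact_mod_cast Nat.le_of_dvd hB1 hmBB) (le_max_left _ _)
    intro V hV
    obtain ⟨h1, h2, r, hp, k, hk, hcoin⟩ := hs V hV
    obtain ⟨h3, h4⟩ := partner_near hp hk
    obtain ⟨P, hu, hv, -, hrX, hr8⟩ := hp
    have hk' := kill P hk
    rw [band_star hη hX1 (bandX_mem hb) hrX hr8 (hB.star_big hη hrX), hu, hv] at hk'
    change k * (B:ℤ) + A * (((M * V : ℕ):ℤ) - u) ≠ 0 at hk'
    have hc' : ∀ p ∈ T, (p:ℤ) ∣ k - (((M * V : ℕ):ℤ) - u) * cls (B, A) p := fun p hp => by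
      have h := hcoin p hp
      unfold Coin at h
      rw [hbase q hq hq8, hbase r hrX hr8, hu, hv] at h
      exact dvd_eq h (by ring)
    obtain ⟨z, hz⟩ : (mB:ℤ) ∣ k := by
      rw [Int.natCast_dvd]
      refine Finset.prod_primes_dvd _ (fun p hp => (hT p (Finset.mem_filter.1 hp).1).prime) fun p hp => ?_
      obtain ⟨hpT, hpB⟩ := Finset.mem_filter.1 hp
      have h := hc' p hpT
      rw [cls_zero (x := (B, A)) (Int.natCast_dvd_natCast.2 hpB), mul_zero, sub_zero] at h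
      exact Int.natCast_dvd.1 h
    refine ⟨h1, h2, h3, z, ?_, ?_, ?_⟩
    · rw [lt_div_iff₀ hmB0]
      refine lt_of_eq_of_lt ?_ h4
      rw [← abs_of_pos hmB0, ← abs_mul, abs_of_pos hmB0, hz]
      congr 1
      push_cast; field_simp
    · rw [hz] at hk'
      push_cast at hk' ⊢
      intro h0; apply hk'; linear_combination h0
    · rw [Int.natCast_dvd]
      refine Finset.prod_primes_dvd _ (fun p hp => (hT p (Finset.mem_filter.1 hp).1).prime) fun p hp => ?_
      obtain ⟨hpT, hpB⟩ := Finset.mem_filter.1 hp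
      have h5 := cls_spec (x := (B, A)) (hT p hpT) (fun h => hpB (Int.natCast_dvd_natCast.1 h))
      simp only at h5
      have h := dvd_add ((hc' p hpT).mul_right (B:ℤ)) (h5.mul_left (((M * V : ℕ):ℤ) - u))
      refine Int.natCast_dvd.1 (dvd_eq h ?_)
      rw [hz]; push_cast; ring
  · -- minor arcs
    obtain ⟨x1, hx1⟩ := band_options hη γ hX1 hB.b1
    obtain ⟨z1, hz1⟩ := exists_crt_class T hT (base η γ q)
    have hz1' : ∀ p ∈ T, (p:ℤ) ∣ z1 - base η γ q p := (hz1 z1).1 (by simp)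
    set sx := fun x : ℕ × ℤ => s.filter (fun V => ∃ r, Partner X t ψ q u M V r ∧
      star η γ r = x ∧ ∃ k ∈ Hits η γ ψ q r, ∀ p ∈ T, Coin η γ q r k p)
    have hone : ∀ x : ℕ × ℤ, ((sx x).card : ℝ) ≤ 4 * (t / m) * N + 6 * N * X ^ (-om η) := by
      intro x
      obtain ⟨z2, hz2⟩ := exists_crt_class T hT (cls x)
      have hz2' : ∀ p ∈ T, (p:ℤ) ∣ z2 - cls x p := (hz2 z2).1 (by simp)
      refine minor_bound hη hη1 hB hb hM hMX hm hTm hN z1 ((u:ℝ) * (γ + z2) / m) (t / m) (by positivity) _ ?_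
      intro V hV
      obtain ⟨hVs, r, hp, hstar, k, hk, hcoin⟩ := Finset.mem_filter.1 hV
      obtain ⟨h1, h2, -⟩ := hs V hVs
      have h4 := (partner_near hp hk).2
      obtain ⟨P, hu, hv, -, -, -⟩ := hp
      obtain ⟨z, hz⟩ : (m:ℤ) ∣ k - (((M * V : ℕ):ℤ) * z1 - (u:ℤ) * z2) := by
        rw [Int.natCast_dvd]
        refine Finset.prod_primes_dvd _ (fun p hp => (hT p hp).prime) fun p hp => ?_
        have h := hcoin p hp
        unfold Coin base at h
        rw [hstar, hu, hv] at h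
        have h' := dvd_sub h (dvd_sub ((hz1' p hp).mul_left ((M * V : ℕ):ℤ)) ((hz2' p hp).mul_left (u:ℤ)))
        refine Int.natCast_dvd.1 (dvd_eq h' ?_)
        unfold base; ring
      refine ⟨h1, h2, z, ?_⟩
      rw [lt_div_iff₀ hm0]
      refine lt_of_eq_of_lt ?_ h4
      rw [← abs_of_pos hm0, ← abs_mul, abs_of_pos hm0]
      congr 1
      have hz' : (k:ℝ) - (((M * V : ℕ):ℝ) * z1 - (u:ℝ) * z2) = (m:ℝ) * z := by exact_mod_cast hz
      field_simp
      push_cast at hz' ⊢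
      linear_combination -hz'
    have hsub : s ⊆ sx (1, 0) ∪ sx x1 := fun V hV => by
      obtain ⟨-, -, r, hp, hk⟩ := hs V hV
      rcases hx1 r hp.2.2.2.2.1 hp.2.2.2.2.2 with h | h
      · exact Finset.mem_union_left _ (Finset.mem_filter.2 ⟨hV, r, hp, h, hk⟩)
      · exact Finset.mem_union_right _ (Finset.mem_filter.2 ⟨hV, r, hp, h, hk⟩)
    have hc : (s.card : ℝ) ≤ ((sx (1, 0)).card : ℝ) + ((sx x1).card : ℝ) := by
      exact_mod_cast (Finset.card_le_card hsub).trans (Finset.card_union_le _ _)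
    have h0 : 0 ≤ (N:ℝ) * (if (∀ p ∈ T, (p:ℝ) ≤ Z) ∧ (m:ℝ) ≤ Z ^ 2 then
        4 * (1 + t) * (Nat.gcd B M : ℝ) / Z else 0) := by
      refine mul_nonneg (Nat.cast_nonneg _) ?_
      split_ifs <;> positivity
    have := hone (1, 0); have := hone x1
    have : 0 ≤ (N:ℝ) * X ^ (-om η) := by positivity
    have e : (N:ℝ) * (8 * t / m) = 2 * (4 * (t / m) * N) := by ring
    linarith

/-- The bound for the share of cofactors producing a large second statistic. -/
lemma lev_count (hη : 0 < η) (hη1 : η ≤ 1) (hB : Big η X) {q u M N : ℕ} (hq : X ≤ q)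
    (hq8 : (q:ℝ) ≤ X ^ (8:ℕ)) (hM : 1 ≤ M) (hMX : (M:ℝ) ≤ X ^ (2 * om η)) (hN : X ^ (η / 4) ≤ N)
    {t : ℝ} (ht : 0 ≤ t) (ht' : t ≤ 2 * X ^ (2 * tha η)) {W : ℝ} (hW : 1 ≤ W) {l : ℝ} (hl : 0 < l)
    (j : ℕ) (hjW : (j:ℝ) / W ≤ l / 2) (hqX : Real.log q ≤ 10 + 4 * Real.log X)
    (hjX : (10 + 4 * Real.log X) ^ j ≤ X ^ (om η / 2)) (s : Finset ℕ)
    (hs : ∀ V ∈ s, 1 ≤ V ∧ V ≤ N ∧
      ∃ r, Partner X t ψ q u M V r ∧ ∃ k ∈ Hits η γ ψ q r, l ≤ x2 W η γ q r k) :
    (s.card : ℝ) ≤ (N:ℝ) * (8 * t * (4 / (l * W)) ^ j + 16 * (2 / l) ^ j * X ^ (-(om η / 2))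
      + (if W ^ j ≤ max ((bandX η γ X).1 : ℝ) (RB η γ X t M N) ^ 2 then
          4 * (1 + t) * (Nat.gcd (bandX η γ X).1 M : ℝ) / max ((bandX η γ X).1 : ℝ) (RB η γ X t M N)
            * (2 * (1 + Real.log (max ((bandX η γ X).1 : ℝ) (RB η γ X t M N))) / l) ^ j
        else 0)) := by
  have hX1 := hB.one_le
  have hX0 : (0:ℝ) < X := by linarith
  set B := (bandX η γ X).1
  set R := RB η γ X t M N
  set Z := max (B:ℝ) R
  have hB1 : (1:ℝ) ≤ B := by exact_mod_cast (bandX_spec η γ X).1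
  have hZ1 : 1 ≤ Z := hB1.trans (le_max_left _ _)
  set Q := Qset W q
  have hQp : ∀ p ∈ Q, p.Prime := fun p hp => Nat.prime_of_mem_primeFactors (Finset.mem_filter.1 hp).1
  have hQW : ∀ p ∈ Q, W < p ∧ (p:ℝ) ≤ Real.log q := fun p hp => (Finset.mem_filter.1 hp).2
  set c := 4 * (1 + t) * (Nat.gcd B M : ℝ) / Z
  have hc : 0 ≤ c := by positivity
  set sT := fun T : Finset ℕ => s.filter (fun V => ∃ r, Partner X t ψ q u M V r ∧
    ∃ k ∈ Hits η γ ψ q r, ∀ p ∈ T, Coin η γ q r k p)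
  set w := fun T : Finset ℕ => ∏ p ∈ T, 1 / (p:ℝ)
  have hw : ∀ T, 0 ≤ w T := fun T => Finset.prod_nonneg fun p _ => by positivity
  -- the symmetric function inequality
  have hkey : (s.card : ℝ) * (l / 2) ^ j
      ≤ (j.factorial : ℝ) * ∑ T ∈ Q.powersetCard j, w T * ((sT T).card : ℝ) := by
    have h : ∀ V ∈ s, (l / 2) ^ j ≤ (j.factorial : ℝ) * ∑ T ∈ Q.powersetCard j,
        w T * (if V ∈ sT T then (1:ℝ) else 0) := by
      intro V hV
      obtain ⟨-, -, r, hp, k, hk, hx⟩ := hs V hV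
      unfold x2 xw at hx
      set Qk := Q.filter (fun p => Coin η γ q r k p)
      have hlow : l ≤ ∑ p ∈ Qk, 1 / (p:ℝ) := by
        refine hx.trans (Finset.sum_le_sum_of_subset_of_nonneg (fun p hp' => ?_) fun p _ _ => by positivity)
        simp only [Finset.mem_filter] at hp'
        obtain ⟨⟨hg, h1, h2⟩, h3⟩ := hp'
        exact Finset.mem_filter.2 ⟨Finset.mem_filter.2
          ⟨mem_q hp.1 (Nat.prime_of_mem_primeFactors hg) (Or.inr (Nat.dvd_of_mem_primeFactors hg)), h3, h1⟩, h2⟩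
      have h1 := esum_lower (Q := Qk) (a := fun p : ℕ => 1 / (p:ℝ)) (fun p _ => by positivity) hl.le
        (b := 1 / W) (fun p hp => one_div_le_one_div_of_le (by linarith) (hQW p (Finset.mem_filter.1 hp).1).1.le)
        hlow j (by rw [mul_one_div]; exact hjW) (by positivity)
      refine h1.trans (mul_le_mul_of_nonneg_left ?_ (Nat.cast_nonneg _))
      refine le_trans (le_of_eq ?_) (Finset.sum_le_sum_of_subset_of_nonneg
        (Finset.powersetCard_mono (Finset.filter_subset (fun p => Coin η γ q r k p) Q)) fun T _ _ => mul_nonneg (hw T) (by split_ifs <;> norm_num))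
      refine Finset.sum_congr rfl fun T hT => ?_
      rw [if_pos (Finset.mem_filter.2 ⟨hV, r, hp, k, hk, fun p hp =>
        (Finset.mem_filter.1 ((Finset.mem_powersetCard.1 hT).1 hp)).2⟩), mul_one]
    refine le_trans (le_of_eq (by rw [Finset.sum_const, nsmul_eq_mul])) ((Finset.sum_le_sum h).trans ?_)
    rw [← Finset.mul_sum, Finset.sum_comm]
    refine mul_le_mul_of_nonneg_left (Finset.sum_le_sum fun T _ => ?_) (Nat.cast_nonneg _)
    rw [← Finset.mul_sum, Finset.sum_boole]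
    exact mul_le_mul_of_nonneg_left (Nat.cast_le.2 (Finset.card_le_card fun V hV => (Finset.mem_filter.1 hV).2))
      (hw T)
  have hlogq : ∀ T ∈ Q.powersetCard j, ((∏ p ∈ T, p : ℕ):ℝ) ≤ X ^ om η := fun T hT => by
    obtain ⟨hTQ, hTc⟩ := Finset.mem_powersetCard.1 hT
    push_cast
    calc ∏ p ∈ T, (p:ℝ) ≤ ∏ _p ∈ T, (10 + 4 * Real.log X) :=
          Finset.prod_le_prod (fun p _ => Nat.cast_nonneg _) fun p hp => (hQW p (hTQ hp)).2.trans hqX
      _ = (10 + 4 * Real.log X) ^ j := by rw [Finset.prod_const, hTc]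
      _ ≤ X ^ (om η / 2) := hjX
      _ ≤ X ^ om η := Real.rpow_le_rpow_of_exponent_le hX1 (by linarith [om_pos hη])
  -- bound each tuple
  have hT : ∀ T ∈ Q.powersetCard j, w T * ((sT T).card : ℝ) ≤ (N:ℝ) * (8 * t * ∏ p ∈ T, 1 / (p:ℝ) ^ 2)
      + (N:ℝ) * (16 * X ^ (-om η)) * w T
      + (if W ^ j ≤ Z ^ 2 then (N:ℝ) * c * (if ∀ p ∈ T, (p:ℝ) ≤ Z then w T else 0) else 0) := by
    intro T hT
    obtain ⟨hTQ, hTc⟩ := Finset.mem_powersetCard.1 hT
    have h := lev_count_T (ψ := ψ) (γ := γ) (u := u) hη hη1 hB hq hq8 hM hMX hN ht ht' T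
      (fun p hp => hQp p (hTQ hp)) (hlogq T hT) (sT T) fun V hV => by
        obtain ⟨hVs, hr⟩ := Finset.mem_filter.1 hV
        exact ⟨(hs V hVs).1, (hs V hVs).2.1, hr⟩
    refine (mul_le_mul_of_nonneg_left h (hw T)).trans ?_
    have e : w T * ((N:ℝ) * (8 * t / ((∏ p ∈ T, p : ℕ):ℝ))) = (N:ℝ) * (8 * t * ∏ p ∈ T, 1 / (p:ℝ) ^ 2) := by
      have e2 : ∏ p ∈ T, 1 / (p:ℝ) ^ 2 = w T * (1 / ((∏ p ∈ T, p : ℕ):ℝ)) := by
        simp only [w]; push_cast
        rw [← Finset.prod_const_one, ← Finset.prod_div_distrib, ← Finset.prod_mul_distrib]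
        exact Finset.prod_congr rfl fun p _ => by rw [sq]; ring
      rw [e2]; ring
    rw [mul_add, mul_add, mul_add, mul_add, e]
    refine add_le_add (le_of_eq (by ring)) ?_
    change w T * ((N:ℝ) * (if (∀ p ∈ T, (p:ℝ) ≤ Z) ∧ ((∏ p ∈ T, p : ℕ):ℝ) ≤ Z ^ 2 then c else 0)) ≤ _
    by_cases hh : (∀ p ∈ T, (p:ℝ) ≤ Z) ∧ ((∏ p ∈ T, p : ℕ):ℝ) ≤ Z ^ 2
    · have hWj : W ^ j ≤ Z ^ 2 := by
        refine le_trans ?_ hh.2
        push_cast
        rw [← hTc, ← Finset.prod_const]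
        exact Finset.prod_le_prod (fun p _ => by linarith) fun p hp => (hQW p (hTQ hp)).1.le
      rw [if_pos hh, if_pos hWj, if_pos hh.1]
      exact le_of_eq (by ring)
    · rw [if_neg hh, mul_zero, mul_zero]
      split_ifs
      · exact mul_nonneg (mul_nonneg (Nat.cast_nonneg _) hc) (hw T)
      · exact le_of_eq (mul_zero _).symm
      · exact le_rfl
  have hsum := hkey.trans (mul_le_mul_of_nonneg_left (Finset.sum_le_sum hT) (Nat.cast_nonneg _))
  simp only [Finset.sum_add_distrib, mul_add] at hsum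
  -- the three sums
  have s1 : (j.factorial : ℝ) * ∑ T ∈ Q.powersetCard j, (N:ℝ) * (8 * t * ∏ p ∈ T, 1 / (p:ℝ) ^ 2)
      ≤ (N:ℝ) * (8 * t) * (2 / W) ^ j := by
    have h := esum_upper (Q := Q) (a := fun p : ℕ => 1 / (p:ℝ) ^ 2) (fun p _ => by positivity) j
    unfold esum at h
    have e : ∀ T : Finset ℕ, (N:ℝ) * (8 * t * ∏ p ∈ T, 1 / (p:ℝ) ^ 2) = (N:ℝ) * (8 * t) * ∏ p ∈ T, 1 / (p:ℝ) ^ 2 :=
      fun T => by ring
    rw [Finset.sum_congr rfl fun T _ => e T, ← Finset.mul_sum, mul_left_comm]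
    refine mul_le_mul_of_nonneg_left (h.trans (pow_le_pow_left₀ (Finset.sum_nonneg fun p _ => by positivity) ?_ j))
      (by positivity)
    refine le_trans (le_of_eq (Finset.sum_congr ?_ fun p _ => rfl)) (sum_sq_inv_le hW Q)
    exact (Finset.filter_true_of_mem fun p hp => (hQW p hp).1).symm
  have hlX : 0 ≤ Real.log X := Real.log_nonneg hX1
  have s2 : (j.factorial : ℝ) * ∑ T ∈ Q.powersetCard j, (N:ℝ) * (16 * X ^ (-om η)) * w T
      ≤ (N:ℝ) * (16 * X ^ (-(om η / 2))) := by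
    have h := esum_upper (Q := Q) (a := fun p : ℕ => 1 / (p:ℝ)) (fun p _ => by positivity) j
    unfold esum at h
    rw [← Finset.mul_sum, mul_left_comm]
    have hY : ∑ p ∈ Q, 1 / (p:ℝ) ≤ 10 + 4 * Real.log X := by
      rcases Q.eq_empty_or_nonempty with h0 | ⟨p0, hp0⟩
      · rw [h0, Finset.sum_empty]; linarith
      have hp0' := hQW p0 hp0
      have h2 : (2:ℝ) ≤ p0 := by exact_mod_cast (hQp p0 hp0).two_le
      have hfl : 1 ≤ ⌊Real.log q⌋₊ := Nat.le_floor (by push_cast; linarith)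
      refine (sum_inv_le hfl fun p hp => ⟨(hQp p hp).one_le, Nat.le_floor (hQW p hp).2⟩).trans ?_
      have h5 := Real.log_le_sub_one_of_pos (x := ((⌊Real.log q⌋₊ : ℕ):ℝ)) (by exact_mod_cast hfl)
      have h6 := Nat.floor_le (by linarith : 0 ≤ Real.log q)
      linarith
    refine (mul_le_mul_of_nonneg_left (h.trans ((pow_le_pow_left₀
      (Finset.sum_nonneg fun p _ => by positivity) hY j).trans hjX)) (by positivity)).trans ?_
    rw [mul_assoc (N:ℝ), mul_assoc (16:ℝ), ← Real.rpow_add hX0]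
    exact le_of_eq (by ring_nf)
  have s3 : (j.factorial : ℝ) * ∑ T ∈ Q.powersetCard j,
      (if W ^ j ≤ Z ^ 2 then (N:ℝ) * c * (if ∀ p ∈ T, (p:ℝ) ≤ Z then w T else 0) else 0)
      ≤ (if W ^ j ≤ Z ^ 2 then (N:ℝ) * (c * (1 + Real.log Z) ^ j) else 0) := by
    split_ifs with hWZ
    swap
    · simp
    set QZ := Q.filter (fun p : ℕ => (p:ℝ) ≤ Z)
    have e : ∑ T ∈ Q.powersetCard j, (N:ℝ) * c * (if ∀ p ∈ T, (p:ℝ) ≤ Z then w T else 0)
        = (N:ℝ) * c * ∑ T ∈ QZ.powersetCard j, w T := by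
      rw [← Finset.mul_sum, ← Finset.sum_filter]
      congr 1
      refine Finset.sum_congr ?_ fun _ _ => rfl
      ext T
      simp only [QZ, Finset.mem_filter, Finset.mem_powersetCard, Finset.subset_iff]
      exact ⟨fun h => ⟨fun p hp => ⟨h.1.1 hp, h.2 p hp⟩, h.1.2⟩,
        fun h => ⟨⟨fun p hp => (h.1 hp).1, h.2⟩, fun p hp => (h.1 hp).2⟩⟩
    rw [e, mul_left_comm, mul_assoc (N:ℝ)]
    have h := esum_upper (Q := QZ) (a := fun p : ℕ => 1 / (p:ℝ)) (fun p _ => by positivity) j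
    unfold esum at h
    refine mul_le_mul_of_nonneg_left (mul_le_mul_of_nonneg_left (h.trans
      (pow_le_pow_left₀ (Finset.sum_nonneg fun p _ => by positivity) ?_ j)) hc) (Nat.cast_nonneg _)
    rcases QZ.eq_empty_or_nonempty with h0 | ⟨p0, hp0⟩
    · rw [h0, Finset.sum_empty]; linarith [Real.log_nonneg hZ1]
    have hfl : 1 ≤ ⌊Z⌋₊ := Nat.le_floor (by push_cast; exact hZ1)
    refine (sum_inv_le hfl fun p hp => ⟨(hQp p (Finset.mem_filter.1 hp).1).one_le,
      Nat.le_floor (Finset.mem_filter.1 hp).2⟩).trans ?_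
    have := Real.log_le_log (by exact_mod_cast hfl) (Nat.floor_le (by linarith : 0 ≤ Z))
    linarith
  have hl2 : 0 < (l / 2) ^ j := by positivity
  rw [← le_div_iff₀ hl2] at hsum
  refine hsum.trans ?_
  rw [div_le_iff₀ hl2]
  refine (add_le_add (add_le_add s1 s2) s3).trans (le_of_eq ?_)
  have p1 : (4 / (l * W)) ^ j * (l / 2) ^ j = (2 / W) ^ j := by
    rw [← mul_pow]; congr 1; field_simp; ring
  have p2 : (2 / l) ^ j * (l / 2) ^ j = 1 := by
    rw [← mul_pow, show 2 / l * (l / 2) = 1 by field_simp, one_pow]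
  have p3 : (2 * (1 + Real.log Z) / l) ^ j * (l / 2) ^ j = (1 + Real.log Z) ^ j := by
    rw [← mul_pow]; congr 1; field_simp
  split_ifs
  · linear_combination -(N:ℝ) * 8 * t * p1 - (N:ℝ) * 16 * X ^ (-(om η / 2)) * p2 - (N:ℝ) * c * p3
  · linear_combination -(N:ℝ) * 8 * t * p1 - (N:ℝ) * 16 * X ^ (-(om η / 2)) * p2

end Vale.Agent.P028.Wide
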