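import Vale.Agent.P028.Wide.LCount
import Vale.Agent.P028.Wide.GcdGraph

namespace Vale.Agent.P028.Wide

open Finset
open scoped Classical

/-- The ratio of the gain to the integer. -/
noncomputable def cg (Fc : Finset ℕ) (n : ℕ) : ℝ := cgain Fc n / n

lemma cg_eq (Fc : Finset ℕ) {n : ℕ} (hn : 0 < n) :
    cg Fc n = ∏ p ∈ n.primeFactors, ((p:ℝ) ^ n.factorization p) ^ (th Fc p - 1) := by
  have h := Nat.prod_factorization_pow_eq_self hn.ne'
  rw [Finsupp.prod, Nat.support_factorization] at h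
  have h' : (n:ℝ) = ∏ p ∈ n.primeFactors, (p:ℝ) ^ n.factorization p := by exact_mod_cast h.symm
  unfold cg cgain
  rw [h', ← Finset.prod_div_distrib]
  refine Finset.prod_congr rfl fun p hp => ?_
  have hp0 : (0:ℝ) < (p:ℝ) ^ n.factorization p := by
    have : (0:ℝ) < p := by exact_mod_cast (Nat.prime_of_mem_primeFactors hp).pos
    positivity
  rw [Real.rpow_sub hp0, Real.rpow_one]

lemma cg_nonneg (Fc : Finset ℕ) (n : ℕ) : 0 ≤ cg Fc n := by
  unfold cg cgain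
  positivity

lemma th_le (Fc : Finset ℕ) (p : ℕ) : th Fc p ≤ 199 / 200 := by unfold th; split_ifs <;> norm_num

lemma one_le_pp {n p : ℕ} (hp : p ∈ n.primeFactors) : (1:ℝ) ≤ (p:ℝ) ^ n.factorization p :=
  one_le_pow₀ (by exact_mod_cast (Nat.prime_of_mem_primeFactors hp).one_le)

lemma cg_le (Fc : Finset ℕ) {n : ℕ} (hn : 0 < n) : cg Fc n ≤ (n:ℝ) ^ (-(1/200 : ℝ)) := by
  have h := Nat.prod_factorization_pow_eq_self hn.ne'
  rw [Finsupp.prod, Nat.support_factorization] at h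
  have h' : (n:ℝ) = ∏ p ∈ n.primeFactors, (p:ℝ) ^ n.factorization p := by exact_mod_cast h.symm
  rw [cg_eq Fc hn, h', ← Real.finsetProd_rpow _ _ fun p hp => le_trans zero_le_one (one_le_pp hp)]
  refine Finset.prod_le_prod (fun p hp => Real.rpow_nonneg (le_trans zero_le_one (one_le_pp hp)) _) fun p hp => ?_
  exact Real.rpow_le_rpow_of_exponent_le (one_le_pp hp) (by linarith [th_le Fc p])

lemma cg_le_one (Fc : Finset ℕ) {n : ℕ} (hn : 0 < n) : cg Fc n ≤ 1 :=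
  (cg_le Fc hn).trans (Real.rpow_le_one_of_one_le_of_nonpos (by exact_mod_cast hn) (by norm_num))

lemma cg_forced (Fc : Finset ℕ) {n B : ℕ} (hn : 0 < n) (hB : 0 < B) (hFc : B.primeFactors ⊆ Fc) :
    cg Fc n ≤ (Nat.gcd B n : ℝ) ^ (-(19/20 : ℝ)) := by
  set d := Nat.gcd B n
  have hd : 0 < d := Nat.gcd_pos_of_pos_left _ hB
  have h := Nat.prod_factorization_pow_eq_self hd.ne'
  rw [Finsupp.prod, Nat.support_factorization] at h
  have h' : (d:ℝ) = ∏ p ∈ d.primeFactors, (p:ℝ) ^ d.factorization p := by exact_mod_cast h.symm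
  have hsub : d.primeFactors ⊆ n.primeFactors := Nat.primeFactors_mono (Nat.gcd_dvd_right _ _) hn.ne'
  have hsubB : d.primeFactors ⊆ B.primeFactors := Nat.primeFactors_mono (Nat.gcd_dvd_left _ _) hB.ne'
  rw [cg_eq Fc hn, h', ← Real.finsetProd_rpow _ _ fun p hp => le_trans zero_le_one (one_le_pp hp),
    ← Finset.prod_sdiff hsub]
  refine le_trans (mul_le_of_le_one_left (Finset.prod_nonneg fun p hp =>
    Real.rpow_nonneg (le_trans zero_le_one (one_le_pp (hsub hp))) _) ?_) ?_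
  · refine Finset.prod_le_one (fun p hp => Real.rpow_nonneg (le_trans zero_le_one (one_le_pp (Finset.mem_sdiff.1 hp).1)) _)
      fun p hp => ?_
    exact Real.rpow_le_one_of_one_le_of_nonpos (one_le_pp (Finset.mem_sdiff.1 hp).1) (by linarith [th_le Fc p])
  refine Finset.prod_le_prod (fun p hp => Real.rpow_nonneg (le_trans zero_le_one (one_le_pp (hsub hp))) _) fun p hp => ?_
  have hth : th Fc p = 1/20 := by unfold th; rw [if_pos (hFc (hsubB hp))]
  rw [hth, show (1/20 : ℝ) - 1 = -(19/20) by norm_num]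
  refine Real.rpow_le_rpow_of_nonpos (lt_of_lt_of_le zero_lt_one (one_le_pp hp)) ?_ (by norm_num)
  refine pow_le_pow_right₀ (by exact_mod_cast (Nat.prime_of_mem_primeFactors hp).one_le) ?_
  exact (Nat.factorization_le_iff_dvd hd.ne' hn.ne').2 (Nat.gcd_dvd_right _ _) p

lemma gain_eq {E : Finset (ℕ × ℕ)} (S : Conf E) (Fc : Finset ℕ) :
    cgain Fc (S.c * S.e) / ((S.c : ℝ) * S.e) = cg Fc (S.c * S.e) := by unfold cg; push_cast; ring

lemma gain_small {E : Finset (ℕ × ℕ)} (S : Conf E) (Fc : Finset ℕ) {Y : ℝ} (hY : 0 < Y)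
    (h : Y ≤ ((S.c * S.e : ℕ) : ℝ)) : cg Fc (S.c * S.e) ≤ Y ^ (-(1/200 : ℝ)) :=
  (cg_le Fc (Nat.mul_pos S.hc S.he)).trans (Real.rpow_le_rpow_of_nonpos hY h (by norm_num))

/-- Counting weighted fibres. -/
lemma sum_wT_count {G : Finset ℕ} (hG : ∀ p ∈ G, 1 ≤ p) (A : Finset ℕ) (N : ℕ) (U : ℕ → ℕ)
    (T : ℕ → Finset ℕ) (Q : Finset ℕ → ℕ → Prop) [∀ T0, DecidablePred (Q T0)] (hU : ∀ x ∈ A, 1 ≤ U x ∧ U x ≤ N) (hT : ∀ x ∈ A, T x ⊆ G)
    (hQ : ∀ x ∈ A, Q (T x) (U x))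
    (hinj : ∀ x ∈ A, ∀ y ∈ A, U x = U y → T x = T y → x = y) :
    ∑ x ∈ A, wT G (T x)
      ≤ ∑ T0 ∈ G.powerset, wT G T0 * (((Finset.Icc 1 N).filter (fun V => Q T0 V)).card : ℝ) := by
  rw [← Finset.sum_fiberwise_of_maps_to (g := T) (t := G.powerset) fun x hx => Finset.mem_powerset.2 (hT x hx)]
  refine Finset.sum_le_sum fun T0 _ => ?_
  rw [Finset.sum_congr rfl (fun x hx => by rw [(Finset.mem_filter.1 hx).2]), Finset.sum_const, nsmul_eq_mul,
    mul_comm]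
  refine mul_le_mul_of_nonneg_left (Nat.cast_le.2 (Finset.card_le_card_of_injOn U (fun x hx => ?_)
    fun x hx y hy he => ?_)) (wT_nonneg hG T0)
  · obtain ⟨h1, h2⟩ := Finset.mem_filter.1 hx
    exact Finset.mem_filter.2 ⟨Finset.mem_Icc.2 (hU x h1), h2 ▸ hQ x h1⟩
  · obtain ⟨h1, h2⟩ := Finset.mem_filter.1 hx
    obtain ⟨h3, h4⟩ := Finset.mem_filter.1 hy
    exact hinj x h1 y h3 he (h2.trans h4.symm)

/-- The standing hypotheses on an edge set. -/
structure Sys (η γ X t : ℝ) (ψ : ℕ → ℝ) (E : Finset (ℕ × ℕ)) : Prop where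
  hη : 0 < η
  hη1 : η ≤ 1
  hB : Big η X
  ht : 0 < t
  tlo : X ^ (-(2 * tha η)) ≤ t
  thi : t ≤ 2 * X ^ (2 * tha η)
  pair : ∀ x ∈ E, PairFacts x.1 x.2 ∧ X ≤ x.1 ∧ (x.1:ℝ) ≤ X ^ (2:ℕ) ∧ X ≤ x.2 ∧
    (x.2:ℝ) ≤ X ^ (8:ℕ) ∧ X ^ (η / 3) ≤ (cv x.1 x.2 : ℝ) ∧ tt ψ x.1 x.2 ≤ t

variable {η γ X t : ℝ} {ψ : ℕ → ℝ} {E : Finset (ℕ × ℕ)}

lemma card_G_le (H : Sys η γ X t ψ E) (S : Conf E) {q r : ℕ} (h : (q, r) ∈ S.E2) :
    (S.G.card : ℝ) ≤ 16 * Real.log X := by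
  obtain ⟨P, -, hq2, -, hr8, -, -⟩ := H.pair _ (S.sub h)
  simp only at P hq2 hr8
  have hX1 := H.hB.one_le
  have h1 := S.dvdG _ h
  have hT0 : 0 < ∏ p ∈ S.Tl q, p := Finset.prod_pos fun p hp => (S.primeG p ((S.left _ h).2 hp)).pos
  have hTv : ∏ p ∈ S.Tl q, p ≤ r := by
    refine le_trans (Nat.le_of_dvd (lt_trans P.hu0 P.huv) ?_) ((Nat.div_le_self r (Nat.gcd q r)))
    exact Dvd.intro_left _ (S.cofV _ h).symm
  have h2 : 2 ^ S.G.card ≤ q * r := by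
    refine le_trans ?_ ((Nat.le_of_dvd (Nat.mul_pos P.hq hT0) h1).trans (Nat.mul_le_mul_left q hTv))
    rw [← Finset.prod_const]
    exact Finset.prod_le_prod' fun p hp => (S.primeG p hp).two_le
  have h3 : (2:ℝ) ^ S.G.card ≤ X ^ (10:ℕ) := by
    have h2' : (2:ℝ) ^ S.G.card ≤ (q:ℝ) * r := by exact_mod_cast h2
    refine h2'.trans ((mul_le_mul hq2 hr8 (Nat.cast_nonneg _) (by positivity)).trans (le_of_eq ?_))
    rw [← pow_add]
  have h4 := Real.log_le_log (by positivity) h3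
  rw [Real.log_pow, Real.log_pow] at h4
  push_cast at h4
  have := Real.log_two_gt_d9
  have : (0:ℝ) ≤ S.G.card := Nat.cast_nonneg _
  nlinarith

lemma tail_T1 (H : Sys η γ X t ψ E) (S : Conf E) {q r : ℕ} (h : (q, r) ∈ S.E2) :
    ∑ T ∈ S.G.powerset.filter (fun T => X ^ om η < ((∏ p ∈ T, p : ℕ):ℝ)), wT S.G T
      ≤ X ^ (-(om η / 4)) := by
  have hX0 : (0:ℝ) < X := by linarith [H.hB.one_le]
  refine (wT_prod_tail (fun p hp => (S.primeG p hp).one_le) (by positivity)).trans ?_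
  rw [Real.sqrt_eq_rpow (X ^ om η), ← Real.rpow_mul hX0.le, div_le_iff₀ (by positivity),
    ← Real.rpow_add hX0, show -(om η / 4) + om η * (1 / 2) = om η / 4 by ring]
  refine le_trans (Real.exp_le_exp.2 ?_) H.hB.b3
  exact mul_le_mul_of_nonneg_left (Real.sqrt_le_sqrt (card_G_le H S h)) (by norm_num)

/-- Weighted sum over the vertices whose data lie in an exceptional set. -/
lemma atyp_sum {G : Finset ℕ} (hG : ∀ p ∈ G, 1 ≤ p) (A : Finset ℕ) (N : ℕ) (U : ℕ → ℕ)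
    (T : ℕ → Finset ℕ) (P1 : ℕ → Prop) (P2 P3 P4 : Finset ℕ → Prop)
    [DecidablePred P1] [DecidablePred P2] [DecidablePred P3] [DecidablePred P4]
    (hU : ∀ x ∈ A, 1 ≤ U x ∧ U x ≤ N) (hT : ∀ x ∈ A, T x ⊆ G)
    (hP : ∀ x ∈ A, P1 (U x) ∨ P2 (T x) ∨ P3 (T x) ∨ P4 (T x))
    (hinj : ∀ x ∈ A, ∀ y ∈ A, U x = U y → T x = T y → x = y) :
    ∑ x ∈ A, wT G (T x) ≤ (((Finset.Icc 1 N).filter P1).card : ℝ) + (N:ℝ) * ((∑ T ∈ G.powerset.filter P2, wT G T)
      + (∑ T ∈ G.powerset.filter P3, wT G T) + ∑ T ∈ G.powerset.filter P4, wT G T) := by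
  refine (sum_wT_count hG A N U T (fun T0 V => P1 V ∨ P2 T0 ∨ P3 T0 ∨ P4 T0) hU hT hP hinj).trans ?_
  have hc : ∀ T0, (((Finset.Icc 1 N).filter (fun V => P1 V ∨ P2 T0 ∨ P3 T0 ∨ P4 T0)).card : ℝ)
      ≤ (((Finset.Icc 1 N).filter P1).card : ℝ) + (N:ℝ) * ((if P2 T0 then 1 else 0)
        + (if P3 T0 then 1 else 0) + (if P4 T0 then (1:ℝ) else 0)) := fun T0 => by
    by_cases h : P2 T0 ∨ P3 T0 ∨ P4 T0
    · refine (Nat.cast_le.2 (Finset.card_filter_le _ _)).trans ?_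
      rw [Nat.card_Icc, Nat.add_sub_cancel]
      refine le_add_of_nonneg_of_le (Nat.cast_nonneg _) (le_mul_of_one_le_right (Nat.cast_nonneg _) ?_)
      rcases h with h | h | h <;> simp only [h, if_true] <;> split_ifs <;> norm_num
    · push Not at h
      simp only [h.1, h.2.1, h.2.2, or_false, if_false, add_zero, mul_zero, le_refl]
  refine (Finset.sum_le_sum fun T0 _ => mul_le_mul_of_nonneg_left (hc T0) (wT_nonneg hG T0)).trans ?_
  refine le_of_eq ?_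
  simp only [mul_add, Finset.sum_add_distrib]
  rw [← Finset.sum_mul, sum_wT, one_mul]
  simp only [Finset.sum_filter, Finset.mul_sum]
  congr 1
  congr 1
  congr 1
  all_goals exact Finset.sum_congr rfl fun T0 _ => by split_ifs <;> ring

lemma gcd_tail {G : Finset ℕ} (hG : ∀ p ∈ G, p.Prime) {B : ℕ} (hB : 0 < B) (C : ℝ)
    (hC : ∀ n : ℕ, 0 < n → (2:ℝ) ^ n.primeFactors.card ≤ C * (n:ℝ) ^ (1/10 : ℝ)) :
    ∑ T ∈ G.powerset.filter (fun T => Real.sqrt B < (Nat.gcd B (∏ p ∈ T, p) : ℝ)), wT G T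
      ≤ C * (B:ℝ) ^ (-(2/5 : ℝ)) := by
  have hB0 : (0:ℝ) < B := by exact_mod_cast hB
  refine (wT_gcd_tail hG hB (Real.sqrt_pos.2 hB0)).trans ?_
  refine (div_le_div_of_nonneg_right (hC B hB) (Real.sqrt_nonneg _)).trans (le_of_eq ?_)
  rw [Real.sqrt_eq_rpow, mul_div_assoc, ← Real.rpow_sub hB0]
  norm_num

lemma rpow_T8 (ht : 0 < t) (ht1 : t ≤ 1) {a : ℝ} (ha : 1/8 ≤ a) : t ^ a ≤ t ^ (1/8 : ℝ) :=
  Real.rpow_le_rpow_of_exponent_ge ht ht1 ha

lemma Xneg_le_T8 (H : Sys η γ X t ψ E) {a : ℝ} (ha : om η / 200 ≤ a) : X ^ (-a) ≤ t ^ (1/8 : ℝ) := by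
  have hX1 := H.hB.one_le
  refine le_trans ?_ (Real.rpow_le_rpow (by positivity) H.tlo (by norm_num))
  rw [← Real.rpow_mul (by linarith)]
  exact Real.rpow_le_rpow_of_exponent_le hX1 (by
    have := tha_pos H.hη; have := om_pos H.hη
    simp only [tha] at *; linarith)

/-- The facts shared by the partners of a fixed left vertex. -/
lemma nbr_facts (H : Sys η γ X t ψ E) (S : Conf E) {q r : ℕ} (hqr : (q, r) ∈ S.E2)
    (hce : ((S.c * S.e : ℕ):ℝ) ≤ X ^ om η) (hT1 : ((∏ p ∈ S.Tl q, p : ℕ):ℝ) ≤ X ^ om η) :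
    1 ≤ S.c * ∏ p ∈ S.Tl q, p ∧ ((S.c * ∏ p ∈ S.Tl q, p : ℕ):ℝ) ≤ X ^ (2 * om η) ∧
      X ^ (η / 4) ≤ (S.Vf r : ℝ) := by
  have hX1 := H.hB.one_le
  have hX0 : (0:ℝ) < X := by linarith
  have hT0 : 0 < ∏ p ∈ S.Tl q, p := Finset.prod_pos fun p hp => (S.primeG p ((S.left _ hqr).2 hp)).pos
  obtain ⟨-, -, -, -, -, hv, -⟩ := H.pair _ (S.sub hqr)
  have hM : ((S.c * ∏ p ∈ S.Tl q, p : ℕ):ℝ) ≤ X ^ (2 * om η) := by
    rw [Nat.cast_mul, two_mul, Real.rpow_add hX0]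
    refine mul_le_mul ?_ hT1 (Nat.cast_nonneg _) (by positivity)
    refine le_trans ?_ hce
    exact_mod_cast Nat.le_mul_of_pos_right _ S.he
  refine ⟨Nat.mul_pos S.hc hT0, hM, ?_⟩
  have e : (cv q r : ℝ) = ((S.c * ∏ p ∈ S.Tl q, p : ℕ):ℝ) * (S.Vf r : ℝ) := by
    have := S.cofV _ hqr
    rw [this]; push_cast; ring
  simp only at hv
  rw [e] at hv
  by_contra hlt
  push Not at hlt
  have h2 := lt_of_le_of_lt hv (lt_of_le_of_lt (mul_le_mul_of_nonneg_right hM (Nat.cast_nonneg _))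
    (mul_lt_mul_of_pos_left hlt (by positivity)))
  rw [← Real.rpow_add hX0] at h2
  exact absurd h2 (not_lt.2 (Real.rpow_le_rpow_of_exponent_le hX1 (by
    have := H.hη; unfold om bB; linarith)))

lemma nbr_partner (H : Sys η γ X t ψ E) (S : Conf E) {q r : ℕ} (h : (q, r) ∈ S.E2) :
    Partner X t ψ q (S.e * S.Uf q * ∏ p ∈ S.Tr r, p) (S.c * ∏ p ∈ S.Tl q, p) (S.Vf r) r := by
  obtain ⟨P, -, -, hr, hr8, -, htt⟩ := H.pair _ (S.sub h)
  exact ⟨P, S.cofU _ h, (S.cofV _ h).trans (by ring), htt, hr, hr8⟩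

lemma gcd_split (B c T : ℕ) (hB : 0 < B) : (Nat.gcd B (c * T) : ℝ) ≤ (Nat.gcd B c : ℝ) * (Nat.gcd B T : ℝ) := by
  have h : Nat.gcd B (c * T) ∣ Nat.gcd B c * Nat.gcd B T := gcd_mul_dvd_mul_gcd B c T
  exact_mod_cast Nat.le_of_dvd (Nat.mul_pos (Nat.gcd_pos_of_pos_left _ hB) (Nat.gcd_pos_of_pos_left _ hB)) h

/-- Typical left vertices for the hit bound. -/
def TypHit (η γ X t : ℝ) {E : Finset (ℕ × ℕ)} (S : Conf E) (_r q : ℕ) : Prop :=
  ((∏ p ∈ S.Tl q, p : ℕ):ℝ) ≤ X ^ om η ∧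
    (t ^ (-(1/2 : ℝ)) < ((bandX η γ X).1 : ℝ) →
      (Nat.gcd (bandX η γ X).1 (∏ p ∈ S.Tl q, p) : ℝ) ≤ Real.sqrt (bandX η γ X).1)

lemma hit_atyp (H : Sys η γ X t ψ E) (ht1 : t ≤ 1) (Fc : Finset ℕ) {C : ℝ} (hC0 : 0 ≤ C)
    (hC : ∀ n : ℕ, 0 < n → (2:ℝ) ^ n.primeFactors.card ≤ C * (n:ℝ) ^ (1/10 : ℝ))
    (S : Conf E) (r : ℕ) (N : ℕ) (A : Finset ℕ)
    (hA : ∀ q ∈ A, (q, r) ∈ S.E2 ∧ S.Uf q ≤ N ∧ ¬ TypHit η γ X t S r q) :
    (∑ q ∈ A, wT S.G (S.Tl q)) * (cgain Fc (S.c * S.e) / ((S.c : ℝ) * S.e))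
      ≤ (50 + C) * t ^ (1/8 : ℝ) * N := by
  have ht := H.ht
  have hG1 : ∀ p ∈ S.G, 1 ≤ p := fun p hp => (S.primeG p hp).one_le
  rcases A.eq_empty_or_nonempty with h0 | ⟨q0, hq0⟩
  · rw [h0, Finset.sum_empty, zero_mul]; positivity
  set B := (bandX η γ X).1
  have hB1 : 1 ≤ B := (bandX_spec η γ X).1
  have h := atyp_sum hG1 A N S.Uf S.Tl (fun _ => False) (fun T => X ^ om η < ((∏ p ∈ T, p : ℕ):ℝ))
    (fun T => t ^ (-(1/2 : ℝ)) < (B:ℝ) ∧ Real.sqrt B < (Nat.gcd B (∏ p ∈ T, p) : ℝ)) (fun _ => False)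
    (fun q hq => ⟨(S.left _ (hA q hq).1).1, (hA q hq).2.1⟩) (fun q hq => (S.left _ (hA q hq).1).2)
    (fun q hq => by
      have h := (hA q hq).2.2
      unfold TypHit at h
      by_cases h1 : ((∏ p ∈ S.Tl q, p : ℕ):ℝ) ≤ X ^ om η
      · rw [not_and] at h
        have h2 := h h1
        rw [Classical.not_imp, not_le] at h2
        exact Or.inr (Or.inr (Or.inl h2))
      · exact Or.inr (Or.inl (not_le.1 h1)))
    fun x hx y hy => S.injL _ (hA x hx).1 _ (hA y hy).1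
  simp only [Finset.filter_false, Finset.card_empty, Nat.cast_zero, zero_add, Finset.sum_empty, add_zero] at h
  rw [gain_eq]
  refine (mul_le_of_le_one_right (Finset.sum_nonneg fun q _ => wT_nonneg hG1 _)
    (cg_le_one Fc (Nat.mul_pos S.hc S.he))).trans (h.trans ?_)
  rw [mul_comm _ (N:ℝ)]
  refine mul_le_mul_of_nonneg_left ?_ (Nat.cast_nonneg _)
  have h1 := (tail_T1 H S (hA q0 hq0).1).trans (Xneg_le_T8 H (by linarith [om_pos H.hη] : om η / 200 ≤ om η / 4))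
  have h2 : ∑ T ∈ S.G.powerset.filter (fun T => t ^ (-(1/2 : ℝ)) < (B:ℝ) ∧
      Real.sqrt B < (Nat.gcd B (∏ p ∈ T, p) : ℝ)), wT S.G T ≤ C * t ^ (1/8 : ℝ) := by
    by_cases hb : t ^ (-(1/2 : ℝ)) < (B:ℝ)
    · simp only [hb, true_and]
      refine (gcd_tail S.primeG hB1 C hC).trans (mul_le_mul_of_nonneg_left ?_ hC0)
      refine (Real.rpow_le_rpow_of_nonpos (by positivity) hb.le (by norm_num)).trans ?_
      rw [← Real.rpow_mul ht.le]
      exact rpow_T8 ht ht1 (by norm_num)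
    · simp only [hb, false_and, Finset.filter_false, Finset.sum_empty]; positivity
  have : 0 ≤ t ^ (1/8 : ℝ) := by positivity
  linarith

lemma hit_nbr (H : Sys η γ X t ψ E) (hH : ∀ x ∈ E, (Hits η γ ψ x.1 x.2).Nonempty) (ht1 : t ≤ 1)
    (Fc : Finset ℕ) (hFc : ((bandX η γ X).1 : ℝ) ≤ t ^ (-(100 : ℝ)) → (bandX η γ X).1.primeFactors ⊆ Fc)
    {C : ℝ} (hC0 : 0 ≤ C) (S : Conf E) (r q : ℕ) (A : Finset ℕ) (hqr : (q, r) ∈ S.E2)
    (hTyp : TypHit η γ X t S r q) (hA : ∀ r' ∈ A, (q, r') ∈ S.E2 ∧ S.Vf r' ≤ S.Vf r) :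
    (∑ r' ∈ A, wT S.G (S.Tr r')) * (cgain Fc (S.c * S.e) / ((S.c : ℝ) * S.e))
      ≤ (50 + C) * t ^ (1/8 : ℝ) * S.Vf r := by
  have ht := H.ht
  have hG1 : ∀ p ∈ S.G, 1 ≤ p := fun p hp => (S.primeG p hp).one_le
  have hX0 : (0:ℝ) < X := by linarith [H.hB.one_le]
  have hce0 : 0 < S.c * S.e := Nat.mul_pos S.hc S.he
  set N := S.Vf r
  have hN0 : (0:ℝ) ≤ N := Nat.cast_nonneg _
  have hT8 : 0 ≤ t ^ (1/8 : ℝ) := by positivity
  rw [gain_eq]
  set g := cg Fc (S.c * S.e)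
  have hg0 : 0 ≤ g := cg_nonneg _ _
  have hg1 : g ≤ 1 := cg_le_one _ hce0
  have hsum1 : ∑ r' ∈ A, wT S.G (S.Tr r') ≤ (N:ℝ) := sum_wT_le hG1 A N S.Vf S.Tr
    (fun x hx => ⟨(S.right _ (hA x hx).1).1, (hA x hx).2⟩) (fun x hx => (S.right _ (hA x hx).1).2)
    fun x hx y hy => S.injR _ (hA x hx).1 _ (hA y hy).1
  have hsmallg : g ≤ t ^ (1/8 : ℝ) → (∑ r' ∈ A, wT S.G (S.Tr r')) * g ≤ (50 + C) * t ^ (1/8 : ℝ) * N := fun h => by
    refine (mul_le_mul hsum1 h hg0 hN0).trans ?_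
    rw [mul_comm (N:ℝ)]
    exact mul_le_mul_of_nonneg_right (le_mul_of_one_le_left hT8 (by linarith)) hN0
  by_cases hbig : X ^ om η < ((S.c * S.e : ℕ):ℝ)
  · refine hsmallg ((gain_small S Fc (by positivity) hbig.le).trans ?_)
    rw [← Real.rpow_mul hX0.le, mul_neg, mul_one_div]
    exact Xneg_le_T8 H le_rfl
  push Not at hbig
  obtain ⟨hT1, hT2⟩ := hTyp
  obtain ⟨hM, hMX, hN⟩ := nbr_facts H S hqr hbig hT1
  set T1 := ∏ p ∈ S.Tl q, p
  set M := S.c * T1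
  set B := (bandX η γ X).1
  have hB1 : 1 ≤ B := (bandX_spec η γ X).1
  have hBr : (1:ℝ) ≤ B := by exact_mod_cast hB1
  set gc := (Nat.gcd B S.c : ℝ)
  set gT := (Nat.gcd B T1 : ℝ)
  have hgc1 : 1 ≤ gc := by simp only [gc]; exact_mod_cast Nat.gcd_pos_of_pos_left _ hB1
  have hgcB : gc ≤ B := by simp only [gc]; exact_mod_cast Nat.le_of_dvd hB1 (Nat.gcd_dvd_left _ _)
  have hgTB : gT ≤ B := by simp only [gT]; exact_mod_cast Nat.le_of_dvd hB1 (Nat.gcd_dvd_left _ _)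
  have hgT0 : 0 ≤ gT := Nat.cast_nonneg _
  by_cases hBbig : t ^ (-(100:ℝ)) < (B:ℝ) ∧ (B:ℝ) ^ (1/4 : ℝ) < gc
  · refine hsmallg ((gain_small S Fc (by linarith) (?_ : gc ≤ _)).trans ?_)
    · simp only [gc]
      refine Nat.cast_le.2 (le_trans (Nat.le_of_dvd S.hc (Nat.gcd_dvd_right _ _)) ?_)
      exact Nat.le_mul_of_pos_right _ S.he
    refine (Real.rpow_le_rpow_of_nonpos (by positivity) hBbig.2.le (by norm_num)).trans ?_
    rw [← Real.rpow_mul (by linarith)]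
    refine (Real.rpow_le_rpow_of_nonpos (by positivity) hBbig.1.le (by norm_num)).trans (le_of_eq ?_)
    rw [← Real.rpow_mul ht.le]; norm_num
  have hcount : ∑ r' ∈ A, wT S.G (S.Tr r')
      ≤ (N:ℝ) * (8 * t + 8 * X ^ (-om η) + (Nat.gcd B M : ℝ) * min (1 / (B:ℝ)) (4 * t)) := by
    refine (sum_wT_count hG1 A N S.Vf S.Tr (fun T0 V => ∃ r' ∈ A, S.Vf r' = V ∧ S.Tr r' = T0)
      (fun x hx => ⟨(S.right _ (hA x hx).1).1, (hA x hx).2⟩) (fun x hx => (S.right _ (hA x hx).1).2)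
      (fun x hx => ⟨x, hx, rfl, rfl⟩) fun x hx y hy => S.injR _ (hA x hx).1 _ (hA y hy).1).trans ?_
    refine (Finset.sum_le_sum fun T0 _ => mul_le_mul_of_nonneg_left (hit_count H.hη H.hη1 H.hB
      (u := S.e * S.Uf q * ∏ p ∈ T0, p) (q := q) (ψ := ψ) (γ := γ) hM hMX hN ht.le H.thi _ fun V hV => ?_)
      (wT_nonneg hG1 T0)).trans ?_
    · obtain ⟨hV', r', hr', hVf, hTr⟩ := Finset.mem_filter.1 hV
      obtain ⟨h1, h2⟩ := Finset.mem_Icc.1 hV'
      refine ⟨h1, h2, r', ?_, hH (q, r') (S.sub (hA r' hr').1)⟩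
      rw [← hVf, ← hTr]
      exact nbr_partner H S (hA r' hr').1
    · rw [← Finset.sum_mul, sum_wT, one_mul]
  have hmin0 : 0 ≤ min (1 / (B:ℝ)) (4 * t) := le_min (by positivity) (by linarith)
  refine (mul_le_mul_of_nonneg_right hcount hg0).trans ?_
  rw [mul_assoc, mul_comm _ (N:ℝ)]
  refine mul_le_mul_of_nonneg_left ?_ hN0
  have hfirst : (8 * t + 8 * X ^ (-om η)) * g ≤ 16 * t ^ (1/8 : ℝ) := by
    refine (mul_le_of_le_one_right (by positivity) hg1).trans ?_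
    have h1 : t ≤ t ^ (1/8 : ℝ) := by
      conv_lhs => rw [← Real.rpow_one t]
      exact rpow_T8 ht ht1 (by norm_num)
    have h2 := Xneg_le_T8 H (by linarith [om_pos H.hη] : om η / 200 ≤ om η)
    linarith
  have hd : (Nat.gcd B M : ℝ) ≤ gc * gT := gcd_split B S.c T1 hB1
  have hsecond : gc * gT * min (1 / (B:ℝ)) (4 * t) * g ≤ 4 * t ^ (1/8 : ℝ) := by
    have hgT_le : ∀ y : ℝ, ((B:ℝ) ≤ t ^ (-(1/2 : ℝ)) → y * B ≤ 4 * t ^ (1/8:ℝ)) →
        (¬ (B:ℝ) ≤ t ^ (-(1/2 : ℝ)) → y * Real.sqrt B ≤ 4 * t ^ (1/8:ℝ)) → 0 ≤ y →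
        y * gT ≤ 4 * t ^ (1/8:ℝ) := fun y h1 h2 hy => by
      by_cases hb : (B:ℝ) ≤ t ^ (-(1/2 : ℝ))
      · exact (mul_le_mul_of_nonneg_left hgTB hy).trans (h1 hb)
      · exact (mul_le_mul_of_nonneg_left (hT2 (not_le.1 hb)) hy).trans (h2 hb)
    by_cases hforced : (B:ℝ) ≤ t ^ (-(100:ℝ))
    · have hgf : gc * g ≤ (B:ℝ) ^ (1/20 : ℝ) := by
        have h := cg_forced Fc hce0 hB1 (hFc hforced)
        have hmono : gc ≤ (Nat.gcd B (S.c * S.e) : ℝ) := Nat.cast_le.2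
          (Nat.le_of_dvd (Nat.gcd_pos_of_pos_left _ hB1)
            (Nat.gcd_dvd_gcd_of_dvd_right _ (Dvd.intro S.e rfl)))
        refine (mul_le_mul_of_nonneg_left (h.trans (Real.rpow_le_rpow_of_nonpos (by linarith) hmono (by norm_num)))
          (by linarith)).trans ?_
        conv_lhs => arg 1; rw [← Real.rpow_one gc]
        rw [← Real.rpow_add (by linarith)]
        norm_num
        exact Real.rpow_le_rpow (by linarith) hgcB (by norm_num)
      have e : gc * gT * min (1 / (B:ℝ)) (4 * t) * g = (min (1 / (B:ℝ)) (4 * t) * (gc * g)) * gT := by ring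
      rw [e]
      refine hgT_le _ (fun hb => ?_) (fun _ => ?_) (by positivity)
      · calc min (1 / (B:ℝ)) (4 * t) * (gc * g) * B ≤ 4 * t * (B:ℝ) ^ (1/20 : ℝ) * B :=
              mul_le_mul_of_nonneg_right (mul_le_mul (min_le_right _ _) hgf (by positivity) (by linarith)) (by linarith)
          _ = 4 * (t * (B:ℝ) ^ (21/20 : ℝ)) := by
              rw [show (21/20 : ℝ) = 1/20 + 1 by norm_num, Real.rpow_add (by linarith), Real.rpow_one]; ring
          _ ≤ 4 * t ^ (1/8 : ℝ) := by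
              refine mul_le_mul_of_nonneg_left ?_ (by norm_num)
              refine (mul_le_mul_of_nonneg_left (Real.rpow_le_rpow (by linarith) hb (by norm_num)) ht.le).trans ?_
              rw [← Real.rpow_mul ht.le]
              conv_lhs => arg 1; rw [← Real.rpow_one t]
              rw [← Real.rpow_add ht]
              exact rpow_T8 ht ht1 (by norm_num)
      · have hm : min (1 / (B:ℝ)) (4 * t) ≤ (1 / (B:ℝ)) ^ (11/20 : ℝ) * (4 * t) ^ (9/20 : ℝ) := by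
          have hm0 : 0 < min (1 / (B:ℝ)) (4 * t) := lt_min (by positivity) (by linarith)
          calc min (1 / (B:ℝ)) (4 * t)
              = min (1 / (B:ℝ)) (4 * t) ^ (11/20 : ℝ) * min (1 / (B:ℝ)) (4 * t) ^ (9/20 : ℝ) := by
                rw [← Real.rpow_add hm0]; norm_num
            _ ≤ _ := mul_le_mul (Real.rpow_le_rpow hm0.le (min_le_left _ _) (by norm_num))
                (Real.rpow_le_rpow hm0.le (min_le_right _ _) (by norm_num)) (by positivity) (by positivity)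
        calc min (1 / (B:ℝ)) (4 * t) * (gc * g) * Real.sqrt B
            ≤ (1 / (B:ℝ)) ^ (11/20 : ℝ) * (4 * t) ^ (9/20 : ℝ) * (B:ℝ) ^ (1/20 : ℝ) * Real.sqrt B :=
              mul_le_mul_of_nonneg_right (mul_le_mul hm hgf (by positivity) (by positivity)) (Real.sqrt_nonneg _)
          _ = (4 * t) ^ (9/20 : ℝ) := by
              have hB0 : (0:ℝ) < B := by linarith
              rw [Real.sqrt_eq_rpow, one_div (B:ℝ), Real.inv_rpow hB0.le, mul_assoc, mul_assoc,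
                ← Real.rpow_add hB0]
              norm_num
              field_simp
          _ ≤ 4 * t ^ (1/8 : ℝ) := by
              rw [Real.mul_rpow (by norm_num) ht.le]
              refine mul_le_mul ?_ (rpow_T8 ht ht1 (by norm_num)) (by positivity) (by norm_num)
              exact (Real.rpow_le_rpow_of_exponent_le (by norm_num) (by norm_num : (9/20 : ℝ) ≤ 1)).trans
                (le_of_eq (Real.rpow_one 4))
    · push Not at hforced
      have hgc4 : gc ≤ (B:ℝ) ^ (1/4 : ℝ) := not_lt.1 fun h => hBbig ⟨hforced, h⟩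
      have hb : ¬ (B:ℝ) ≤ t ^ (-(1/2 : ℝ)) := by
        intro hle
        have := Real.rpow_le_rpow_of_exponent_ge ht ht1 (by norm_num : -(100:ℝ) ≤ -(1/2 : ℝ))
        linarith
      refine (mul_le_of_le_one_right (by positivity) hg1).trans ?_
      refine (mul_le_mul (mul_le_mul hgc4 (hT2 (not_le.1 hb)) hgT0 (by positivity)) (min_le_left _ _)
        hmin0 (by positivity)).trans ?_
      have hB0 : (0:ℝ) < B := by linarith
      have e : (B:ℝ) ^ (1/4 : ℝ) * Real.sqrt B * (1 / (B:ℝ)) = (B:ℝ) ^ (-(1/4 : ℝ)) := by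
        rw [Real.sqrt_eq_rpow, one_div (B:ℝ), ← Real.rpow_neg_one, ← Real.rpow_add hB0, ← Real.rpow_add hB0]
        norm_num
      rw [e]
      refine (Real.rpow_le_rpow_of_nonpos (by positivity) hforced.le (by norm_num)).trans ?_
      rw [← Real.rpow_mul ht.le]
      refine (rpow_T8 ht ht1 (by norm_num)).trans ?_
      linarith
  have hd2 : (Nat.gcd B M : ℝ) * min (1 / (B:ℝ)) (4 * t) * g ≤ gc * gT * min (1 / (B:ℝ)) (4 * t) * g :=
    mul_le_mul_of_nonneg_right (mul_le_mul_of_nonneg_right hd hmin0) hg0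
  have : 0 ≤ C * t ^ (1/8 : ℝ) := by positivity
  linarith

/-- Typical left vertices for the statistics bound. -/
def TypLev (η γ X W1 W2 : ℝ) (l j : ℕ) {E : Finset (ℕ × ℕ)} (S : Conf E) (_r q : ℕ) : Prop :=
  ((∏ p ∈ S.Tl q, p : ℕ):ℝ) ≤ X ^ om η ∧
    (W2 ^ ((j:ℝ) / 4) < ((bandX η γ X).1 : ℝ) →
      (Nat.gcd (bandX η γ X).1 (∏ p ∈ S.Tl q, p) : ℝ) ≤ Real.sqrt (bandX η γ X).1) ∧
    xw W1 (S.Uf q).primeFactors ≤ (l:ℝ) / 16 ∧ xw W1 (S.Tl q) ≤ (l:ℝ) / 16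

/-- The parameters of the statistics bound. -/
structure Lev (η X t W1 W2 : ℝ) (l j : ℕ) : Prop where
  hl : 1 ≤ l
  hj : j = J0 * (l + 1)
  hW1 : 12000 * (Real.log (2 + t) + 1) ≤ W1
  hW2 : 8 * Real.log (64 * (J0:ℝ)) + 8 + Real.log (2 + t) / 4 ≤ Real.log W2
  hW2pos : 0 < W2
  hQ : Real.exp (30 * Real.log (2 + t) + 30 * l) ≤ X ^ (om η / 500)

/-- The target saving. -/
noncomputable def Eps (t : ℝ) (l : ℕ) : ℝ := Real.exp (-(30 * Real.log (2 + t) + 30 * l))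

variable {W1 W2 : ℝ} {l j : ℕ}

lemma exp_le_eps (a : ℝ) (h : 30 * Real.log (2 + t) + 30 * l ≤ a) : Real.exp (-a) ≤ Eps t l :=
  Real.exp_le_exp.2 (by linarith)

lemma W1_tail (H : Sys η γ X t ψ E) (hL : Lev η X t W1 W2 l j) {a : ℝ} (ha : (l:ℝ) / 400 ≤ a) :
    Real.exp (-(W1 * a)) ≤ Eps t l := by
  have hl : (1:ℝ) ≤ l := by exact_mod_cast hL.hl
  have hlog : 0 ≤ Real.log (2 + t) := Real.log_nonneg (by linarith [H.ht])
  refine exp_le_eps _ ?_
  have h1 := mul_le_mul hL.hW1 ha (by positivity) (by linarith [hL.hW1])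
  have h2 : Real.log (2 + t) ≤ Real.log (2 + t) * l := le_mul_of_one_le_right hlog hl
  linarith

lemma W1_ge (H : Sys η γ X t ψ E) (hL : Lev η X t W1 W2 l j) : 3 ≤ W1 := by
  have hlog : 0 ≤ Real.log (2 + t) := Real.log_nonneg (by linarith [H.ht])
  linarith [hL.hW1]

lemma logJ0 : 0 ≤ Real.log (64 * (J0:ℝ)) := Real.log_nonneg (by norm_num [J0])

lemma W2_ge (H : Sys η γ X t ψ E) (hL : Lev η X t W1 W2 l j) : 1 ≤ W2 := by
  have hlog : 0 ≤ Real.log (2 + t) := Real.log_nonneg (by linarith [H.ht])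
  have := logJ0
  refine ((Real.log_nonneg_iff hL.hW2pos).1 ?_)
  linarith [hL.hW2]

lemma W2_rpow (H : Sys η γ X t ψ E) (hL : Lev η X t W1 W2 l j) {a : ℝ} (ha : 1 / 3200 ≤ a) :
    W2 ^ (-((j:ℝ) * a)) ≤ Eps t l := by
  have hlog : 0 ≤ Real.log (2 + t) := Real.log_nonneg (by linarith [H.ht])
  have hl : (1:ℝ) ≤ l := by exact_mod_cast hL.hl
  rw [Real.rpow_def_of_pos hL.hW2pos, mul_neg]
  refine exp_le_eps _ ?_
  have hj : (1000000:ℝ) * ((l:ℝ) + 1) = j := by rw [hL.hj]; norm_num [J0]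
  have h1 : (1000000:ℝ) * ((l:ℝ) + 1) * (1 / 3200) ≤ (j:ℝ) * a := by
    rw [hj]; exact mul_le_mul_of_nonneg_left ha (Nat.cast_nonneg _)
  have h2 : Real.log (2 + t) / 4 + 1 ≤ Real.log W2 := by linarith [hL.hW2, logJ0]
  have h3 := mul_le_mul h2 h1 (by positivity) (by linarith)
  have h4 : Real.log (2 + t) ≤ Real.log (2 + t) * l := le_mul_of_one_le_right hlog hl
  linarith

lemma Xneg_le_eps (H : Sys η γ X t ψ E) (hL : Lev η X t W1 W2 l j) {a : ℝ} (ha : om η / 500 ≤ a) :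
    X ^ (-a) ≤ Eps t l := by
  have hX1 := H.hB.one_le
  refine (Real.rpow_le_rpow_of_exponent_le hX1 (by linarith : -a ≤ -(om η / 500))).trans ?_
  rw [Real.rpow_neg (by linarith), Eps, Real.exp_neg]
  exact inv_anti₀ (Real.exp_pos _) hL.hQ

lemma lev_atyp (H : Sys η γ X t ψ E) (hL : Lev η X t W1 W2 l j) (Fc : Finset ℕ) {C : ℝ} (hC0 : 0 ≤ C)
    (hC : ∀ n : ℕ, 0 < n → (2:ℝ) ^ n.primeFactors.card ≤ C * (n:ℝ) ^ (1/10 : ℝ))
    (S : Conf E) (r : ℕ) (N : ℕ) (A : Finset ℕ)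
    (hA : ∀ q ∈ A, (q, r) ∈ S.E2 ∧ S.Uf q ≤ N ∧ ¬ TypLev η γ X W1 W2 l j S r q) :
    (∑ q ∈ A, wT S.G (S.Tl q)) * (cgain Fc (S.c * S.e) / ((S.c : ℝ) * S.e))
      ≤ (100 * Real.exp 4 + C) * Eps t l * N := by
  have hG1 : ∀ p ∈ S.G, 1 ≤ p := fun p hp => (S.primeG p hp).one_le
  have hE0 : 0 ≤ Eps t l := (Real.exp_pos _).le
  rcases A.eq_empty_or_nonempty with h0 | ⟨q0, hq0⟩
  · rw [h0, Finset.sum_empty, zero_mul]; positivity
  set B := (bandX η γ X).1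
  have hB1 : 1 ≤ B := (bandX_spec η γ X).1
  have h := atyp_sum hG1 A N S.Uf S.Tl (fun U => (l:ℝ) / 16 ≤ xw W1 U.primeFactors)
    (fun T => X ^ om η < ((∏ p ∈ T, p : ℕ):ℝ))
    (fun T => W2 ^ ((j:ℝ) / 4) < (B:ℝ) ∧ Real.sqrt B < (Nat.gcd B (∏ p ∈ T, p) : ℝ))
    (fun T => (l:ℝ) / 16 ≤ xw W1 T)
    (fun q hq => ⟨(S.left _ (hA q hq).1).1, (hA q hq).2.1⟩) (fun q hq => (S.left _ (hA q hq).1).2)
    (fun q hq => by
      have h := (hA q hq).2.2
      unfold TypLev at h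
      simp only [not_and_or, Classical.not_imp, not_le] at h
      rcases h with h | h | h | h
      · exact Or.inr (Or.inl h)
      · exact Or.inr (Or.inr (Or.inl h))
      · exact Or.inl h.le
      · exact Or.inr (Or.inr (Or.inr h.le)))
    fun x hx y hy => S.injL _ (hA x hx).1 _ (hA y hy).1
  rw [gain_eq]
  refine (mul_le_of_le_one_right (Finset.sum_nonneg fun q _ => wT_nonneg hG1 _)
    (cg_le_one Fc (Nat.mul_pos S.hc S.he))).trans (h.trans ?_)
  have hW1 : 1 ≤ W1 := by linarith [W1_ge H hL]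
  have hl0 : (0:ℝ) ≤ l := Nat.cast_nonneg _
  have hw := W1_tail H hL (show (l:ℝ) / 400 ≤ (l:ℝ) / 16 by linarith)
  have h1 := (tail_T1 H S (hA q0 hq0).1).trans (Xneg_le_eps H hL (by linarith [om_pos H.hη]))
  have h2 : ∑ T ∈ S.G.powerset.filter (fun T => W2 ^ ((j:ℝ) / 4) < (B:ℝ) ∧
      Real.sqrt B < (Nat.gcd B (∏ p ∈ T, p) : ℝ)), wT S.G T ≤ C * Eps t l := by
    by_cases hb : W2 ^ ((j:ℝ) / 4) < (B:ℝ)
    · simp only [hb, true_and]
      refine (gcd_tail S.primeG hB1 C hC).trans (mul_le_mul_of_nonneg_left ?_ hC0)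
      refine (Real.rpow_le_rpow_of_nonpos (Real.rpow_pos_of_pos hL.hW2pos _) hb.le (by norm_num)).trans ?_
      rw [← Real.rpow_mul hL.hW2pos.le, show (j:ℝ) / 4 * -(2/5) = -((j:ℝ) * (1/10)) by ring]
      exact W2_rpow H hL (by norm_num)
    · simp only [hb, false_and, Finset.filter_false, Finset.sum_empty]; positivity
  have h3 := (wT_xw_tail hG1 hW1 ((l:ℝ) / 16)).trans (mul_le_mul_of_nonneg_left hw (Real.exp_pos 4).le)
  have h4 := (card_xw_tail hW1 ((l:ℝ) / 16) N).trans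
    (mul_le_mul_of_nonneg_left (mul_le_mul_of_nonneg_left hw (Real.exp_pos 4).le) (Nat.cast_nonneg _))
  have h5 := mul_le_mul_of_nonneg_left (add_le_add (add_le_add h1 h2) h3) (Nat.cast_nonneg (α := ℝ) N)
  have he : 1 ≤ Real.exp 4 := Real.one_le_exp (by norm_num)
  have := mul_le_mul_of_nonneg_right he (mul_nonneg (Nat.cast_nonneg (α := ℝ) N) hE0)
  have : 0 ≤ Real.exp 4 * ((N:ℝ) * Eps t l) := by positivity
  linarith

/-- Small bounds for the terms of the moment bound. -/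
lemma lev_terms (H : Sys η γ X t ψ E) (hL : Lev η X t W1 W2 l j) {Z d : ℝ} (hd0 : 0 ≤ d)
    (hjX : (10 + 4 * Real.log X) ^ j ≤ X ^ (om η / 2))
    (hd : W2 ^ j ≤ Z ^ 2 → d ≤ Z ^ (5/8 : ℝ)) (hZ : 1 ≤ Z) :
    8 * t * (4 / ((l:ℝ) * W2)) ^ j + 16 * (2 / (l:ℝ)) ^ j * X ^ (-(om η / 2))
      + (if W2 ^ j ≤ Z ^ 2 then 4 * (1 + t) * d / Z * (2 * (1 + Real.log Z) / (l:ℝ)) ^ j else 0)
      ≤ 40 * Eps t l := by
  have hX1 := H.hB.one_le
  have hX0 : (0:ℝ) < X := by linarith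
  have ht := H.ht
  set L := Real.log (2 + t)
  have hLn : 0 ≤ L := Real.log_nonneg (by linarith)
  have ht2 : 2 + t = Real.exp L := (Real.exp_log (by linarith)).symm
  have hl : (1:ℝ) ≤ l := by exact_mod_cast hL.hl
  have hj : (j:ℝ) = 1000000 * ((l:ℝ) + 1) := by rw [hL.hj]; norm_num [J0]
  have hW := W2_ge H hL
  have hJ := logJ0
  have hW2 := hL.hW2
  -- first term
  have a1 : (4 / ((l:ℝ) * W2)) ^ j ≤ Real.exp ((j:ℝ) * (-1 - L / 4)) := by
    rw [Real.exp_nat_mul]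
    refine pow_le_pow_left₀ (by positivity) ?_ j
    refine (div_le_div_of_nonneg_left (by norm_num) hL.hW2pos (le_mul_of_one_le_left hL.hW2pos.le hl)).trans ?_
    rw [← Real.exp_log (show (0:ℝ) < 4 / W2 by positivity), Real.log_div (by norm_num) hL.hW2pos.ne']
    refine Real.exp_le_exp.2 ?_
    have := Real.log_le_sub_one_of_pos (show (0:ℝ) < 4 by norm_num)
    linarith
  have b1 : 8 * t * (4 / ((l:ℝ) * W2)) ^ j ≤ 8 * Eps t l := by
    rw [mul_assoc]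
    refine mul_le_mul_of_nonneg_left ?_ (by norm_num)
    calc t * (4 / ((l:ℝ) * W2)) ^ j ≤ Real.exp L * Real.exp ((j:ℝ) * (-1 - L / 4)) :=
          mul_le_mul (by linarith) a1 (by positivity) (Real.exp_pos _).le
      _ = Real.exp (-((j:ℝ) * (1 + L / 4) - L)) := by rw [← Real.exp_add]; ring_nf
      _ ≤ Eps t l := by
          refine exp_le_eps _ ?_
          rw [hj]
          have : L ≤ L * l := le_mul_of_one_le_right hLn hl
          linarith
  -- second term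
  have hlX : 0 ≤ Real.log X := Real.log_nonneg hX1
  have b2 : 16 * (2 / (l:ℝ)) ^ j * X ^ (-(om η / 2)) ≤ 16 * Eps t l := by
    rw [mul_assoc]
    refine mul_le_mul_of_nonneg_left ?_ (by norm_num)
    have h1 : (2 / (l:ℝ)) ^ j ≤ X ^ (om η / 6) := by
      have h3 : ((2 / (l:ℝ)) ^ j) ^ 3 ≤ X ^ (om η / 2) := by
        refine le_trans ?_ hjX
        rw [← pow_mul, mul_comm, pow_mul]
        refine pow_le_pow_left₀ (by positivity) ?_ j
        have : 2 / (l:ℝ) ≤ 2 := div_le_self (by norm_num) hl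
        calc (2 / (l:ℝ)) ^ 3 ≤ (2:ℝ) ^ 3 := pow_le_pow_left₀ (by positivity) this 3
          _ ≤ _ := by linarith
      refine le_of_pow_le_pow_left₀ (by norm_num : 3 ≠ 0) (by positivity) (h3.trans (le_of_eq ?_))
      rw [← Real.rpow_natCast, ← Real.rpow_mul hX0.le]
      ring_nf
    refine (mul_le_mul_of_nonneg_right h1 (by positivity)).trans ?_
    rw [← Real.rpow_add hX0, show om η / 6 + -(om η / 2) = -(om η / 3) by ring]
    exact Xneg_le_eps H hL (by linarith [om_pos H.hη])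
  -- third term
  have b3 : (if W2 ^ j ≤ Z ^ 2 then 4 * (1 + t) * d / Z * (2 * (1 + Real.log Z) / (l:ℝ)) ^ j else 0)
      ≤ 4 * Eps t l := by
    split_ifs with hWZ
    swap
    · exact mul_nonneg (by norm_num) (Real.exp_pos _).le
    have hj0 : (0:ℝ) < j := by rw [hj]; positivity
    set x := 2 * Real.log Z / (j:ℝ)
    have hxW : Real.log W2 ≤ x := by
      rw [le_div_iff₀ hj0]
      have h := Real.log_le_log (by positivity) hWZ
      rw [Real.log_pow, Real.log_pow] at h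
      push_cast at h
      linarith
    have hlogZ : Real.log Z = (j:ℝ) * x / 2 := by simp only [x]; field_simp
    have hx1 : 2 ≤ x := by linarith
    have hd' : d / Z ≤ Real.exp (-(3 * (j:ℝ) * x / 16)) := by
      refine (div_le_div_of_nonneg_right (hd hWZ) (by linarith)).trans (le_of_eq ?_)
      rw [Real.rpow_def_of_pos (by linarith), hlogZ]
      conv_lhs => rw [← Real.exp_log (by linarith : (0:ℝ) < Z), hlogZ, ← Real.exp_sub]
      ring_nf
    have hbase : 2 * (1 + Real.log Z) / (l:ℝ) ≤ 4 * (J0:ℝ) * x := by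
      rw [div_le_iff₀ (by linarith), hlogZ, hj]
      have : (J0:ℝ) = 1000000 := by norm_num [J0]
      rw [this]
      have h1 : x ≤ x * l := le_mul_of_one_le_right (by linarith) hl
      linarith
    have hone : 4 * (J0:ℝ) * x * Real.exp (-(3 * x / 16)) ≤ Real.exp (-1 - L / 32) := by
      have hx16 : x ≤ 16 * Real.exp (x / 16) := by
        have := Real.add_one_le_exp (x / 16)
        linarith
      calc 4 * (J0:ℝ) * x * Real.exp (-(3 * x / 16))
          ≤ 4 * (J0:ℝ) * (16 * Real.exp (x / 16)) * Real.exp (-(3 * x / 16)) := by gcongr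
        _ = 64 * (J0:ℝ) * Real.exp (-(x / 8)) := by
            rw [show -(x / 8) = x / 16 + -(3 * x / 16) by ring, Real.exp_add]; ring
        _ = Real.exp (Real.log (64 * (J0:ℝ)) - x / 8) := by
            rw [show Real.log (64 * (J0:ℝ)) - x / 8 = Real.log (64 * (J0:ℝ)) + -(x / 8) by ring, Real.exp_add,
              Real.exp_log (by norm_num [J0])]
        _ ≤ _ := Real.exp_le_exp.2 (by linarith)
    have hb0 : 0 ≤ 2 * (1 + Real.log Z) / (l:ℝ) := by have := Real.log_nonneg hZ; positivity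
    calc 4 * (1 + t) * d / Z * (2 * (1 + Real.log Z) / (l:ℝ)) ^ j
        = 4 * ((1 + t) * (d / Z * (2 * (1 + Real.log Z) / (l:ℝ)) ^ j)) := by ring
      _ ≤ 4 * (Real.exp L * (Real.exp (-(3 * (j:ℝ) * x / 16)) * (4 * (J0:ℝ) * x) ^ j)) := by
          gcongr
          linarith
      _ = 4 * (Real.exp L * (4 * (J0:ℝ) * x * Real.exp (-(3 * x / 16))) ^ j) := by
          rw [mul_pow _ (Real.exp _), ← Real.exp_nat_mul,
            show (j:ℝ) * -(3 * x / 16) = -(3 * (j:ℝ) * x / 16) by ring]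
          ring
      _ ≤ 4 * (Real.exp L * Real.exp (-1 - L / 32) ^ j) := by gcongr
      _ ≤ 4 * Eps t l := by
          refine mul_le_mul_of_nonneg_left ?_ (by norm_num)
          rw [← Real.exp_nat_mul, ← Real.exp_add,
            show L + (j:ℝ) * (-1 - L / 32) = -((j:ℝ) * (1 + L / 32) - L) by ring]
          refine exp_le_eps _ ?_
          rw [hj]
          have : L ≤ L * l := le_mul_of_one_le_right hLn hl
          linarith
  have : 0 ≤ Eps t l := (Real.exp_pos _).le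
  linarith

lemma lev_nbr (H : Sys η γ X t ψ E) (hL : Lev η X t W1 W2 l j)
    (hH : ∀ x ∈ E, (l:ℝ) ≤ x1 W1 x.1 x.2 ∨ ∃ k ∈ Hits η γ ψ x.1 x.2, (l:ℝ) ≤ x2 W2 η γ x.1 x.2 k)
    (Fc : Finset ℕ) {C : ℝ} (hC0 : 0 ≤ C) (S : Conf E) (r q : ℕ) (A : Finset ℕ) (hqr : (q, r) ∈ S.E2)
    (hTyp : TypLev η γ X W1 W2 l j S r q) (hA : ∀ r' ∈ A, (q, r') ∈ S.E2 ∧ S.Vf r' ≤ S.Vf r) :
    (∑ r' ∈ A, wT S.G (S.Tr r')) * (cgain Fc (S.c * S.e) / ((S.c : ℝ) * S.e))
      ≤ (100 * Real.exp 4 + C) * Eps t l * S.Vf r := by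
  have hG1 : ∀ p ∈ S.G, 1 ≤ p := fun p hp => (S.primeG p hp).one_le
  have hX1 := H.hB.one_le
  have hX0 : (0:ℝ) < X := by linarith
  have hce0 : 0 < S.c * S.e := Nat.mul_pos S.hc S.he
  set N := S.Vf r
  have hN0 : (0:ℝ) ≤ N := Nat.cast_nonneg _
  have hE0 : 0 ≤ Eps t l := (Real.exp_pos _).le
  have hl0 : (0:ℝ) < l := by exact_mod_cast hL.hl
  rw [gain_eq]
  set g := cg Fc (S.c * S.e)
  have hg0 : 0 ≤ g := cg_nonneg _ _
  have hg1 : g ≤ 1 := cg_le_one _ hce0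
  have he4 : 1 ≤ Real.exp 4 := Real.one_le_exp (by norm_num)
  have hsum1 : ∑ r' ∈ A, wT S.G (S.Tr r') ≤ (N:ℝ) := sum_wT_le hG1 A N S.Vf S.Tr
    (fun x hx => ⟨(S.right _ (hA x hx).1).1, (hA x hx).2⟩) (fun x hx => (S.right _ (hA x hx).1).2)
    fun x hx y hy => S.injR _ (hA x hx).1 _ (hA y hy).1
  have hsmallg : g ≤ Eps t l → (∑ r' ∈ A, wT S.G (S.Tr r')) * g ≤ (100 * Real.exp 4 + C) * Eps t l * N := fun h => by
    refine (mul_le_mul hsum1 h hg0 hN0).trans ?_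
    rw [mul_comm (N:ℝ)]
    exact mul_le_mul_of_nonneg_right (le_mul_of_one_le_left hE0 (by linarith)) hN0
  by_cases hbig : X ^ om η < ((S.c * S.e : ℕ):ℝ)
  · refine hsmallg ((gain_small S Fc (by positivity) hbig.le).trans ?_)
    rw [← Real.rpow_mul hX0.le, mul_neg, mul_one_div]
    exact Xneg_le_eps H hL (by linarith [om_pos H.hη])
  push Not at hbig
  obtain ⟨hT1, hT2, hU16, hT16⟩ := hTyp
  obtain ⟨hM, hMX, hN⟩ := nbr_facts H S hqr hbig hT1
  have hW1 := W1_ge H hL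
  have hW2 := W2_ge H hL
  by_cases hcex : (l:ℝ) / 2 ≤ xw W1 (S.c * S.e).primeFactors
  · refine hsmallg ((cg_le Fc hce0).trans ?_)
    set P := (S.c * S.e).primeFactors.filter (fun p : ℕ => W1 < p)
    have hP : Real.exp (P.card : ℝ) ≤ ((S.c * S.e : ℕ):ℝ) := by
      refine le_trans ?_ (Nat.cast_le.2 (Nat.le_of_dvd hce0
        ((Finset.prod_dvd_prod_of_subset _ _ _ (Finset.filter_subset (fun p : ℕ => W1 < p) _)).trans
          (Nat.prod_primeFactors_dvd _))))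
      push_cast
      rw [← Real.exp_one_pow, ← Finset.prod_const]
      refine Finset.prod_le_prod (fun p _ => (Real.exp_pos 1).le) fun p hp => ?_
      have := (Finset.mem_filter.1 hp).2
      have := Real.exp_one_lt_d9
      linarith
    have hcard : W1 * ((l:ℝ) / 2) ≤ P.card := by
      have h1 : xw W1 (S.c * S.e).primeFactors ≤ (P.card : ℝ) * (1 / W1) := by
        refine (Finset.sum_le_card_nsmul _ _ (1 / W1) fun p hp => ?_).trans (le_of_eq (nsmul_eq_mul _ _))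
        exact one_div_le_one_div_of_le (by linarith) (Finset.mem_filter.1 hp).2.le
      rw [mul_one_div, le_div_iff₀ (by linarith)] at h1
      have h2 := mul_le_mul_of_nonneg_right hcex (by linarith : 0 ≤ W1)
      linarith
    refine (Real.rpow_le_rpow_of_nonpos (Real.exp_pos _) hP (by norm_num)).trans ?_
    rw [← Real.exp_mul]
    refine le_trans (Real.exp_le_exp.2 ?_) (W1_tail H hL (le_refl ((l:ℝ) / 400)))
    linarith
  push Not at hcex
  set T1 := ∏ p ∈ S.Tl q, p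
  set M := S.c * T1
  set B := (bandX η γ X).1
  have hB1 : 1 ≤ B := (bandX_spec η γ X).1
  set Z := max (B:ℝ) (RB η γ X t M N)
  have hZB : (B:ℝ) ≤ Z := le_max_left _ _
  have hZ1 : 1 ≤ Z := le_trans (by exact_mod_cast hB1) hZB
  by_cases hgcbig : W2 ^ j ≤ Z ^ 2 ∧ Z ^ (1/8 : ℝ) < (Nat.gcd B S.c : ℝ)
  · refine hsmallg ((gain_small S Fc (Nat.cast_pos.2 (Nat.gcd_pos_of_pos_left S.c hB1)) (Y := (Nat.gcd B S.c : ℝ)) ?_).trans ?_)
    · exact Nat.cast_le.2 (le_trans (Nat.le_of_dvd S.hc (Nat.gcd_dvd_right _ _)) (Nat.le_mul_of_pos_right _ S.he))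
    refine (Real.rpow_le_rpow_of_nonpos (by positivity) hgcbig.2.le (by norm_num)).trans ?_
    have hZW : W2 ^ ((j:ℝ) / 2) ≤ Z := by
      have h := Real.rpow_le_rpow (by positivity) hgcbig.1 (show (0:ℝ) ≤ 1/2 by norm_num)
      rw [← Real.rpow_natCast, ← Real.rpow_mul hL.hW2pos.le, ← Real.rpow_natCast Z, ← Real.rpow_mul (by linarith)] at h
      norm_num at h
      rwa [div_eq_mul_one_div]
    rw [← Real.rpow_mul (by linarith)]
    refine (Real.rpow_le_rpow_of_nonpos (Real.rpow_pos_of_pos hL.hW2pos _) hZW (by norm_num)).trans ?_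
    rw [← Real.rpow_mul hL.hW2pos.le, show (j:ℝ) / 2 * (1/8 * -(1/200)) = -((j:ℝ) * (1/3200)) by ring]
    exact W2_rpow H hL le_rfl
  have hdZ : W2 ^ j ≤ Z ^ 2 → (Nat.gcd B M : ℝ) ≤ Z ^ (5/8 : ℝ) := fun hWZ => by
    have hgc : (Nat.gcd B S.c : ℝ) ≤ Z ^ (1/8 : ℝ) := not_lt.1 fun h => hgcbig ⟨hWZ, h⟩
    have hgT : (Nat.gcd B T1 : ℝ) ≤ Z ^ (1/2 : ℝ) := by
      by_cases hb : W2 ^ ((j:ℝ) / 4) < (B:ℝ)
      · refine (hT2 hb).trans ?_
        rw [Real.sqrt_eq_rpow]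
        exact Real.rpow_le_rpow (Nat.cast_nonneg _) hZB (by norm_num)
      · refine le_trans (Nat.cast_le.2 (Nat.le_of_dvd hB1 (Nat.gcd_dvd_left _ _))) ((not_lt.1 hb).trans ?_)
        have h := Real.rpow_le_rpow (by positivity) hWZ (show (0:ℝ) ≤ 1/4 by norm_num)
        rw [← Real.rpow_natCast, ← Real.rpow_mul hL.hW2pos.le, ← Real.rpow_natCast Z, ← Real.rpow_mul (by linarith)] at h
        norm_num at h
        rwa [div_eq_mul_one_div]
    refine (gcd_split B S.c T1 hB1).trans ((mul_le_mul hgc hgT (Nat.cast_nonneg _) (by positivity)).trans (le_of_eq ?_))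
    rw [← Real.rpow_add (by linarith)]; norm_num
  obtain ⟨P0, hqX, hq2, -, -, -, -⟩ := H.pair _ (S.sub hqr)
  simp only at P0 hqX hq2
  have hq8 : (q:ℝ) ≤ X ^ (8:ℕ) := hq2.trans (pow_le_pow_right₀ hX1 (by norm_num))
  have hqr0 : (0:ℝ) < q := by exact_mod_cast P0.hq
  have hlogq : Real.log q ≤ 2 * Real.log X := by
    have := Real.log_le_log hqr0 hq2
    rwa [Real.log_pow, Nat.cast_ofNat] at this
  have hlX : 0 ≤ Real.log X := Real.log_nonneg hX1
  -- the three parts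
  have hw := W1_tail H hL (show (l:ℝ) / 400 ≤ (l:ℝ) / 8 by linarith)
  have hTl1 : T1.primeFactors ⊆ S.Tl q := by
    rw [show T1.primeFactors = S.Tl q from Nat.primeFactors_prod fun p hp => S.primeG p ((S.left _ hqr).2 hp)]
  have hcount : ∀ T0 : Finset ℕ,
      (((Finset.Icc 1 N).filter (fun V => ∃ r' ∈ A, S.Vf r' = V ∧ S.Tr r' = T0)).card : ℝ)
        ≤ (N:ℝ) * (if (l:ℝ) / 8 ≤ xw W1 T0 then 1 else 0) + (N:ℝ) * (Real.exp 4 * Eps t l + 40 * Eps t l) := by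
    intro T0
    by_cases hT0 : (l:ℝ) / 8 ≤ xw W1 T0
    · rw [if_pos hT0, mul_one]
      refine le_trans (Nat.cast_le.2 (Finset.card_filter_le _ _)) ?_
      rw [Nat.card_Icc, Nat.add_sub_cancel]
      exact le_add_of_nonneg_right (by positivity)
    rw [if_neg hT0, mul_zero, zero_add]
    push Not at hT0
    set F := (Finset.Icc 1 N).filter (fun V => ∃ r' ∈ A, S.Vf r' = V ∧ S.Tr r' = T0)
    set Fx := (Finset.Icc 1 N).filter (fun V => (l:ℝ) / 8 ≤ xw W1 V.primeFactors)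
    set Fk := F.filter (fun V => ∃ r' ∈ A, S.Vf r' = V ∧ S.Tr r' = T0 ∧
      ∃ k ∈ Hits η γ ψ q r', (l:ℝ) ≤ x2 W2 η γ q r' k)
    have hsub : F ⊆ Fx ∪ Fk := by
      intro V hV
      obtain ⟨hV', r', hr', hVf, hTr⟩ := Finset.mem_filter.1 hV
      rcases hH (q, r') (S.sub (hA r' hr').1) with h1 | ⟨k, hk, h2⟩
      swap
      · exact Finset.mem_union_right _ (Finset.mem_filter.2 ⟨hV, r', hr', hVf, hTr, k, hk, h2⟩)
      refine Finset.mem_union_left _ (Finset.mem_filter.2 ⟨hV', ?_⟩)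
      by_contra hlt
      push Not at hlt
      have hsubset : (cu q r' * cv q r').primeFactors ⊆ (S.c * S.e).primeFactors
          ∪ (S.Uf q).primeFactors ∪ S.Tl q ∪ V.primeFactors ∪ T0 := by
        intro p hp
        have hpp := Nat.prime_of_mem_primeFactors hp
        have hd := Nat.dvd_of_mem_primeFactors hp
        rw [show cu q r' = S.e * S.Uf q * ∏ p ∈ S.Tr r', p from S.cofU _ (hA r' hr').1,
          show cv q r' = S.c * S.Vf r' * ∏ p ∈ S.Tl q, p from S.cofV _ (hA r' hr').1, hVf, hTr] at hd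
        have hT0G : T0 ⊆ S.G := hTr ▸ (S.right _ (hA r' hr').1).2
        simp only [Finset.mem_union]
        rcases hpp.dvd_mul.1 hd with h | h
        · rcases hpp.dvd_mul.1 h with h | h
          · rcases hpp.dvd_mul.1 h with h | h
            · exact Or.inl (Or.inl (Or.inl (Or.inl (Nat.mem_primeFactors.2 ⟨hpp, h.mul_left _, hce0.ne'⟩))))
            · exact Or.inl (Or.inl (Or.inl (Or.inr (Nat.mem_primeFactors.2 ⟨hpp, h,
                (Nat.pos_iff_ne_zero.1 (S.left _ hqr).1)⟩))))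
          · obtain ⟨p', hp', hpd⟩ := (hpp.prime.dvd_finsetProd_iff _).1 h
            exact Or.inr ((Nat.prime_dvd_prime_iff_eq hpp (S.primeG p' (hT0G hp'))).1 hpd ▸ hp')
        · rcases hpp.dvd_mul.1 h with h | h
          · rcases hpp.dvd_mul.1 h with h | h
            · exact Or.inl (Or.inl (Or.inl (Or.inl (Nat.mem_primeFactors.2 ⟨hpp, h.mul_right _, hce0.ne'⟩))))
            · refine Or.inl (Or.inr (Nat.mem_primeFactors.2 ⟨hpp, h, ?_⟩))
              have := (Finset.mem_Icc.1 hV').1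
              omega
          · obtain ⟨p', hp', hpd⟩ := (hpp.prime.dvd_finsetProd_iff _).1 h
            exact Or.inl (Or.inl (Or.inr
              ((Nat.prime_dvd_prime_iff_eq hpp (S.primeG p' ((S.left _ hqr).2 hp'))).1 hpd ▸ hp')))
      have hx := h1.trans (xw_mono W1 hsubset)
      have u1 := xw_union_le W1 ((S.c * S.e).primeFactors ∪ (S.Uf q).primeFactors ∪ S.Tl q ∪ V.primeFactors) T0
      have u2 := xw_union_le W1 ((S.c * S.e).primeFactors ∪ (S.Uf q).primeFactors ∪ S.Tl q) V.primeFactors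
      have u3 := xw_union_le W1 ((S.c * S.e).primeFactors ∪ (S.Uf q).primeFactors) (S.Tl q)
      have u4 := xw_union_le W1 (S.c * S.e).primeFactors (S.Uf q).primeFactors
      linarith
    have hFx : (Fx.card : ℝ) ≤ (N:ℝ) * (Real.exp 4 * Eps t l) :=
      (card_xw_tail (by linarith) ((l:ℝ) / 8) N).trans (mul_le_mul_of_nonneg_left
        (mul_le_mul_of_nonneg_left hw (Real.exp_pos 4).le) hN0)
    have hFk : (Fk.card : ℝ) ≤ (N:ℝ) * (40 * Eps t l) := by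
      rcases Fk.eq_empty_or_nonempty with h0 | ⟨V0, hV0⟩
      · rw [h0, Finset.card_empty, Nat.cast_zero]; positivity
      have hlsmall : (l:ℝ) ≤ 3 + Real.log (1 + 2 * Real.log X) := by
        obtain ⟨-, r', hr', -, -, k, hk, hx⟩ := Finset.mem_filter.1 hV0
        unfold x2 xw at hx
        set Sx := ((Nat.gcd q r').primeFactors.filter (fun p : ℕ => (p:ℝ) ≤ Real.log q ∧ Coin η γ q r' k p)).filter
          (fun p : ℕ => W2 < p)
        have hlog2 : 0 ≤ Real.log (1 + 2 * Real.log X) := Real.log_nonneg (by linarith)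
        rcases Sx.eq_empty_or_nonempty with h0 | ⟨p0, hp0⟩
        · rw [h0, Finset.sum_empty] at hx; linarith
        have hmem : ∀ p ∈ Sx, 1 ≤ p ∧ (p:ℝ) ≤ Real.log q := fun p hp => by
          simp only [Sx, Finset.mem_filter] at hp
          exact ⟨(Nat.prime_of_mem_primeFactors hp.1.1).one_le, hp.1.2.1⟩
        have h1 : (1:ℝ) ≤ Real.log q := le_trans (by exact_mod_cast (hmem p0 hp0).1) (hmem p0 hp0).2
        have hfl : 1 ≤ ⌊Real.log q⌋₊ := Nat.le_floor (by push_cast; exact h1)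
        have h2 := sum_inv_le hfl (P := Sx) fun p hp => ⟨(hmem p hp).1, Nat.le_floor (hmem p hp).2⟩
        have h3 : Real.log ((⌊Real.log q⌋₊ : ℕ):ℝ) ≤ Real.log (1 + 2 * Real.log X) :=
          Real.log_le_log (by exact_mod_cast hfl) ((Nat.floor_le (by linarith)).trans (by linarith))
        linarith
      have hjX : (10 + 4 * Real.log X) ^ j ≤ X ^ (om η / 2) := by rw [hL.hj]; exact H.hB.b4 l hlsmall
      have h := lev_count (ψ := ψ) (γ := γ) (q := q) (u := S.e * S.Uf q * ∏ p ∈ T0, p) H.hη H.hη1 H.hB hqX hq8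
        hM hMX hN H.ht.le H.thi hW2 hl0 j ?_ (by linarith) hjX Fk fun V hV => ?_
      · refine h.trans (mul_le_mul_of_nonneg_left ?_ hN0)
        exact lev_terms H hL (Nat.cast_nonneg _) hjX hdZ hZ1
      · rw [div_le_iff₀ hL.hW2pos]
        have hj : (j:ℝ) = 1000000 * ((l:ℝ) + 1) := by rw [hL.hj]; norm_num [J0]
        have hJ2 : 4000000 ≤ W2 := by
          have h1 : Real.log (64 * (J0:ℝ)) ≤ Real.log W2 := by
            linarith [hL.hW2, logJ0, Real.log_nonneg (show (1:ℝ) ≤ 2 + t by linarith [H.ht])]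
          have h2 := (Real.log_le_log_iff (by norm_num [J0]) hL.hW2pos).1 h1
          have : (J0:ℝ) = 1000000 := by norm_num [J0]
          linarith
        have hl1 : (1:ℝ) ≤ l := by exact_mod_cast hL.hl
        have := mul_le_mul_of_nonneg_left hJ2 (by positivity : (0:ℝ) ≤ (l:ℝ) / 2)
        linarith
      · obtain ⟨hVF, r', hr', hVf, hTr, k, hk, hx⟩ := Finset.mem_filter.1 hV
        obtain ⟨h1, h2⟩ := Finset.mem_Icc.1 (Finset.mem_filter.1 hVF).1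
        refine ⟨h1, h2, r', ?_, k, hk, hx⟩
        rw [← hVf, ← hTr]
        exact nbr_partner H S (hA r' hr').1
    have hc : (F.card : ℝ) ≤ (Fx.card : ℝ) + (Fk.card : ℝ) := by
      exact_mod_cast (Finset.card_le_card hsub).trans (Finset.card_union_le _ _)
    rw [mul_add]
    linarith
  have hsum2 : ∑ r' ∈ A, wT S.G (S.Tr r') ≤ (N:ℝ) * (2 * Real.exp 4 * Eps t l + 40 * Eps t l) := by
    refine (sum_wT_count hG1 A N S.Vf S.Tr (fun T0 V => ∃ r' ∈ A, S.Vf r' = V ∧ S.Tr r' = T0)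
      (fun x hx => ⟨(S.right _ (hA x hx).1).1, (hA x hx).2⟩) (fun x hx => (S.right _ (hA x hx).1).2)
      (fun x hx => ⟨x, hx, rfl, rfl⟩) fun x hx y hy => S.injR _ (hA x hx).1 _ (hA y hy).1).trans ?_
    refine (Finset.sum_le_sum fun T0 _ => mul_le_mul_of_nonneg_left (hcount T0) (wT_nonneg hG1 T0)).trans ?_
    simp only [mul_add, Finset.sum_add_distrib]
    rw [← Finset.sum_mul, ← Finset.sum_mul, sum_wT]
    have e : ∑ T0 ∈ S.G.powerset, wT S.G T0 * ((N:ℝ) * (if (l:ℝ) / 8 ≤ xw W1 T0 then 1 else 0))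
        = (N:ℝ) * ∑ T0 ∈ S.G.powerset.filter (fun T0 => (l:ℝ) / 8 ≤ xw W1 T0), wT S.G T0 := by
      rw [Finset.sum_filter, Finset.mul_sum]
      exact Finset.sum_congr rfl fun T0 _ => by split_ifs <;> ring
    rw [e]
    have := mul_le_mul_of_nonneg_left ((wT_xw_tail hG1 (by linarith) ((l:ℝ) / 8)).trans
      (mul_le_mul_of_nonneg_left hw (Real.exp_pos 4).le)) hN0
    linarith
  refine (mul_le_of_le_one_right (Finset.sum_nonneg fun x _ => wT_nonneg hG1 _) hg1).trans (hsum2.trans ?_)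
  rw [mul_comm (_ * Eps t l) (N:ℝ)]
  refine mul_le_mul_of_nonneg_left ?_ hN0
  have : 0 ≤ C * Eps t l := by positivity
  have := mul_le_mul_of_nonneg_right he4 hE0
  linarith

/-- The two edge bounds coming from the gcd graph. -/
theorem edge_bounds : ∃ (P0 : ℕ) (C L : ℝ), 0 < C ∧ 1 ≤ L ∧
    ∀ (η γ X t : ℝ) (ψ μ : ℕ → ℝ) (E : Finset (ℕ × ℕ)) (Fc V0 W0 : Finset ℕ), Sys η γ X t ψ E →
      (∀ x, 0 ≤ μ x) → (∀ x, 0 ≤ ψ x) → (∀ x, μ x ≤ ψ x * lam x) → (∀ x ∈ V0 ∪ W0, 0 < x) →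
      (∀ p ∈ Fc, p.Prime) → (∀ p, p.Prime → p < P0 → p ∈ Fc) →
      ((t ≤ 1 → (∀ x ∈ E, (Hits η γ ψ x.1 x.2).Nonempty) →
          (((bandX η γ X).1 : ℝ) ≤ t ^ (-(100 : ℝ)) → (bandX η γ X).1.primeFactors ⊆ Fc) →
          EE μ E V0 W0 ^ ee ≤ C * L ^ Fc.card * (t ^ (1/8 : ℝ) * t ^ 2) * (mass μ V0 * mass μ W0) ^ (ee - 1)) ∧
        (∀ (W1 W2 : ℝ) (l j : ℕ), Lev η X t W1 W2 l j →
          (∀ x ∈ E, (l:ℝ) ≤ x1 W1 x.1 x.2 ∨ ∃ k ∈ Hits η γ ψ x.1 x.2, (l:ℝ) ≤ x2 W2 η γ x.1 x.2 k) →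
          EE μ E V0 W0 ^ ee ≤ C * L ^ Fc.card * (Eps t l * t ^ 2) * (mass μ V0 * mass μ W0) ^ (ee - 1))) := by
  obtain ⟨P0, C, L, hC, hL, hgraph⟩ := gcd_graph
  obtain ⟨C', hC', hω⟩ := pow_omega_le (L := 2) one_le_two (δ := 1/10) (by norm_num)
  refine ⟨P0, C * (100 * Real.exp 4 + C'), L, by positivity, hL,
    fun η γ X t ψ μ E Fc V0 W0 H hμ hψ hμψ hpos hFcp hFs => ⟨fun ht1 hH hFc => ?_, fun W1 W2 l j hLv hH => ?_⟩⟩
  all_goals have ht := H.ht
  all_goals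
    have hedge : ∀ x ∈ E, (cv x.1 x.2 : ℝ) * ψ x.1 ≤ t ∧ (cu x.1 x.2 : ℝ) * ψ x.2 ≤ t := fun x hx => by
      obtain ⟨P, -, -, -, -, -, htt⟩ := H.pair x hx
      rw [tt_eq P] at htt
      have h1 : 0 ≤ (cv x.1 x.2 : ℝ) * ψ x.1 := mul_nonneg (Nat.cast_nonneg _) (hψ _)
      have h2 : 0 ≤ (cu x.1 x.2 : ℝ) * ψ x.2 := mul_nonneg (Nat.cast_nonneg _) (hψ _)
      constructor <;> linarith
  · have h := hgraph μ ψ E Fc V0 W0 t ((100 * Real.exp 4 + C') * t ^ (1/8 : ℝ)) (TypHit η γ X t) hμ hψ hμψ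
      ht.le (by positivity) hpos hedge hFcp hFs
      (fun S r N A hA => (hit_atyp H ht1 Fc hC'.le hω S r N A hA).trans (by
        gcongr
        linarith [Real.one_le_exp (show (0:ℝ) ≤ 4 by norm_num)]))
      (fun S r q A hqr hT hA => (hit_nbr H hH ht1 Fc hFc hC'.le S r q A hqr hT hA).trans (by
        gcongr
        linarith [Real.one_le_exp (show (0:ℝ) ≤ 4 by norm_num)]))
    exact h.trans (le_of_eq (by ring))
  · have h := hgraph μ ψ E Fc V0 W0 t ((100 * Real.exp 4 + C') * Eps t l) (TypLev η γ X W1 W2 l j) hμ hψ hμψ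
      ht.le (mul_nonneg (by positivity) (Real.exp_pos _).le) hpos hedge hFcp hFs
      (fun S r N A hA => lev_atyp H hLv Fc hC'.le hω S r N A hA)
      (fun S r q A hqr hT hA => lev_nbr H hLv hH Fc hC'.le S r q A hqr hT hA)
    exact h.trans (le_of_eq (by ring))

end Vale.Agent.P028.Wide
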