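import Vale.Agent.P028.Wide.Param

namespace Vale.Agent.P028.Wide

open Finset
open scoped Classical

/-- The level of a pair at the scale `t`. -/
noncomputable def lvl (η γ : ℝ) (ψ : ℕ → ℝ) (t : ℝ) (q r : ℕ) : ℕ :=
  max ⌊x1 (W1f η t) q r⌋₊ ((Hits η γ ψ q r).sup fun k => ⌊x2 (W2f t) η γ q r k⌋₊)

/-- The pairs treated with the gcd graph. -/
def Mid (η γ : ℝ) (ψ : ℕ → ℝ) (q r : ℕ) : Prop :=
  q < r ∧ (q:ℝ) ^ (-tha η) < tt ψ q r ∧ tt ψ q r ≤ (q:ℝ) ^ tha η ∧ (Hits η γ ψ q r).Nonempty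

/-- The weight range of a denominator. -/
def Rng (η : ℝ) (ψ : ℕ → ℝ) (q : ℕ) : Prop :=
  QBig η q ∧ 1 / (q:ℝ) ≤ ψ q ∧ ψ q ≤ (q:ℝ) ^ (-η)

variable {η γ t : ℝ} {ψ : ℕ → ℝ} {q r : ℕ}

lemma Rng.nonneg (h : Rng η ψ q) : 0 ≤ ψ q := le_trans (by positivity) h.2.1

lemma Rng.pos (hη : 0 < η) (hη1 : η ≤ 1) (h : Rng η ψ q) : 0 < ψ q := by
  have := (h.1.facts hη hη1).1
  exact lt_of_lt_of_le (by positivity) h.2.1

lemma tt_pos (hη : 0 < η) (hη1 : η ≤ 1) (hq : Rng η ψ q) (hr : Rng η ψ r) (hqr : q < r) :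
    0 < tt ψ q r := by
  have hq3 := (hq.1.facts hη hη1).1
  have P := pairFacts (show 0 < q by omega) hqr
  rw [tt_eq P]
  exact add_pos_of_pos_of_nonneg
    (mul_pos (by exact_mod_cast lt_trans P.hu0 P.huv) (hq.pos hη hη1))
    (mul_nonneg (Nat.cast_nonneg _) hr.nonneg)

lemma x1_lt_lvl : x1 (W1f η t) q r ≤ (lvl η γ ψ t q r : ℝ) + 1 := by
  refine le_trans (Nat.lt_floor_add_one _).le ?_
  have : ⌊x1 (W1f η t) q r⌋₊ ≤ lvl η γ ψ t q r := le_max_left _ _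
  have : (⌊x1 (W1f η t) q r⌋₊ : ℝ) ≤ lvl η γ ψ t q r := by exact_mod_cast this
  linarith

lemma x2_lt_lvl {k : ℤ} (hk : k ∈ Hits η γ ψ q r) :
    x2 (W2f t) η γ q r k ≤ (lvl η γ ψ t q r : ℝ) + 1 := by
  refine le_trans (Nat.lt_floor_add_one _).le ?_
  have h : ⌊x2 (W2f t) η γ q r k⌋₊ ≤ lvl η γ ψ t q r :=
    le_trans (Finset.le_sup (f := fun k => ⌊x2 (W2f t) η γ q r k⌋₊) hk) (le_max_right _ _)
  have : (⌊x2 (W2f t) η γ q r k⌋₊ : ℝ) ≤ lvl η γ ψ t q r := by exact_mod_cast h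
  linarith

lemma lvl_witness (h : 1 ≤ lvl η γ ψ t q r) :
    (lvl η γ ψ t q r : ℝ) ≤ x1 (W1f η t) q r ∨
      ∃ k ∈ Hits η γ ψ q r, (lvl η γ ψ t q r : ℝ) ≤ x2 (W2f t) η γ q r k := by
  unfold lvl at h ⊢
  rcases max_choice ⌊x1 (W1f η t) q r⌋₊ ((Hits η γ ψ q r).sup fun k => ⌊x2 (W2f t) η γ q r k⌋₊)
    with e | e <;> rw [e] at h ⊢
  · exact Or.inl (Nat.floor_le (xw_nonneg _ _))
  · refine Or.inr ?_
    have hne : (Hits η γ ψ q r).Nonempty := by
      rcases (Hits η γ ψ q r).eq_empty_or_nonempty with h0 | h0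
      · rw [h0, Finset.sup_empty] at h; exact absurd h (by simp)
      · exact h0
    obtain ⟨k, hk, hk'⟩ := Finset.exists_mem_eq_sup _ hne fun k => ⌊x2 (W2f t) η γ q r k⌋₊
    rw [hk']
    exact ⟨k, hk, Nat.floor_le (xw_nonneg _ _)⟩

/-- The overlap at the largest scales. -/
lemma ov_huge (hη : 0 < η) (hη1 : η ≤ 1) : ∃ C : ℝ, 0 < C ∧ ∀ (γ : ℝ) (ψ : ℕ → ℝ) (q r : ℕ),
    q < r → Rng η ψ q → Rng η ψ r → (q:ℝ) ^ tha η < tt ψ q r →
      ov η γ ψ q r ≤ C * ((lam q * ψ q) * (lam r * ψ r)) := by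
  have hθ := tha_pos hη
  set K := 10 / tha η with hKdef
  have hθ1 : tha η ≤ 1 := by unfold tha om bB; linarith
  have hK : 1 ≤ K := by rw [hKdef, le_div_iff₀ hθ]; linarith
  obtain ⟨C, hC, hov⟩ := ov_bound_large hK
  refine ⟨C * Real.exp 2, by positivity, fun γ ψ q r hqr hq hr ht => ?_⟩
  obtain ⟨hq3, -, -⟩ := hq.1.facts hη hη1
  have P := pairFacts (show 0 < q by omega) hqr
  have hq0 : (0:ℝ) < q := by exact_mod_cast P.hq
  have hq1 : (1:ℝ) ≤ q := by exact_mod_cast (by omega : 1 ≤ q)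
  set T := tt ψ q r with hTdef
  have hT1 : 1 ≤ T := le_trans (Real.one_le_rpow hq1 hθ.le) ht.le
  have hlT : 0 ≤ Real.log T := Real.log_nonneg hT1
  have hlq : tha η * Real.log q ≤ Real.log T := by
    have := Real.log_le_log (Real.rpow_pos_of_pos hq0 _) ht.le
    rwa [Real.log_rpow hq0] at this
  have hv0 : 0 < cv q r := lt_trans P.hu0 P.huv
  have hx1 : x1 (K * (Real.log T + 1)) q r ≤ 1 := by
    unfold x1
    refine (xw_le_card (by positivity) _).trans ?_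
    rw [div_le_one (by positivity)]
    have hn : 0 < cu q r * cv q r := Nat.mul_pos P.hu0 hv0
    have h1 := card_primeFactors_le_log _ hn
    push_cast at h1
    rw [Real.log_mul (by exact_mod_cast P.hu0.ne') (by exact_mod_cast hv0.ne')] at h1
    have hu : Real.log (cu q r : ℝ) ≤ Real.log q :=
      Real.log_le_log (by exact_mod_cast P.hu0) (Nat.cast_le.2 (Nat.div_le_self _ _))
    have hv : Real.log (cv q r : ℝ) ≤ Real.log T + Real.log q := by
      rw [← Real.log_mul (by linarith) hq0.ne']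
      refine Real.log_le_log (by exact_mod_cast hv0) ?_
      have h2 := mul_le_mul_of_nonneg_left hq.2.1 (Nat.cast_nonneg (α := ℝ) (cv q r))
      have h3 : 0 ≤ (cu q r : ℝ) * ψ r := mul_nonneg (Nat.cast_nonneg _) hr.nonneg
      rw [mul_one_div] at h2
      rw [hTdef, tt_eq P]
      rw [← div_le_iff₀ hq0]
      linarith
    have hK' : Real.log q * 10 ≤ K * Real.log T := by
      rw [hKdef, div_mul_eq_mul_div, le_div_iff₀ hθ]; linarith
    have h2 : 10 * Real.log T ≤ K * Real.log T := mul_le_mul_of_nonneg_right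
      (by rw [hKdef, le_div_iff₀ hθ]; linarith) hlT
    have := Real.log_two_gt_d9
    have h5 : (0:ℝ) ≤ (cu q r * cv q r).primeFactors.card := Nat.cast_nonneg _
    have h6 : 1 / 2 * ((cu q r * cv q r).primeFactors.card : ℝ)
        ≤ ((cu q r * cv q r).primeFactors.card : ℝ) * Real.log 2 := by nlinarith
    linarith
  have hW2 : Real.log q ≤ K * T ^ (1/4 : ℝ) := by
    refine (Real.log_le_rpow_div hq0.le (show 0 < tha η / 4 by linarith)).trans ?_
    have h1 : (q:ℝ) ^ (tha η / 4) ≤ T ^ (1/4 : ℝ) := by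
      rw [show tha η / 4 = tha η * (1/4) by ring, Real.rpow_mul hq0.le]
      exact Real.rpow_le_rpow (by positivity) ht.le (by norm_num)
    rw [div_le_iff₀ (by linarith), hKdef]
    have e : 10 / tha η * T ^ (1/4 : ℝ) * (tha η / 4) = 5 / 2 * T ^ (1/4 : ℝ) := by field_simp; ring
    rw [e]
    linarith [Real.rpow_nonneg (by linarith : 0 ≤ T) (1/4 : ℝ)]
  have hx2 : ∀ k ∈ Hits η γ ψ q r, x2 (K * T ^ (1/4 : ℝ)) η γ q r k ≤ 0 := by
    intro k _
    unfold x2 xw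
    rw [Finset.sum_eq_zero fun p hp => ?_]
    simp only [Finset.mem_filter] at hp
    linarith [hp.1.2.1, hp.2]
  have h := hov P (by omega) hq.nonneg hr.nonneg hT1
    (W1 := K * (Real.log T + 1)) (W2 := K * T ^ (1/4 : ℝ))
    (one_le_mul_of_one_le_of_one_le hK (by linarith)) le_rfl
    (one_le_mul_of_one_le_of_one_le hK (Real.one_le_rpow hT1 (by norm_num))) le_rfl hx1 hx2
  refine h.trans (le_of_eq ?_)
  rw [show 2 * ((1:ℝ) + 0) = 2 by norm_num]
  ring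

/-- The overlap below the unit scale. -/
lemma ov_small (hη : 0 < η) (hη1 : η ≤ 1) : ∃ C : ℝ, 0 < C ∧ ∀ (γ t : ℝ) (ψ : ℕ → ℝ) (q r : ℕ),
    q < r → Rng η ψ q → Rng η ψ r → t ≤ 1 → tt ψ q r ≤ t → t ≤ 2 * tt ψ q r →
      ov η γ ψ q r ≤ C / t * Real.exp (4 * (lvl η γ ψ t q r : ℝ))
        * ((lam q * ψ q) * (lam r * ψ r)) := by
  have h1 := one_le_W1f hη hη1 (zero_le_one (α := ℝ))
  have h2 := one_le_W2f (zero_le_one (α := ℝ))
  refine ⟨4 * Real.exp 4 * 6 * ((W1f η 1 + 1) * (W2f 1 + 1)) * Real.exp 4,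
    by positivity, fun γ t ψ q r hqr hq hr ht1 hle hge => ?_⟩
  obtain ⟨hq3, -, -⟩ := hq.1.facts hη hη1
  have P := pairFacts (show 0 < q by omega) hqr
  have htt := tt_pos hη hη1 hq hr hqr
  have ht0 : 0 < t := lt_of_lt_of_le htt hle
  have hμ : 0 ≤ (lam q * ψ q) * (lam r * ψ r) := by
    have := lam_nonneg q; have := lam_nonneg r; have := hq.nonneg; have := hr.nonneg; positivity
  have hW1 := one_le_W1f hη hη1 ht0.le
  have hW2 := one_le_W2f ht0.le
  refine (ov_bound_any P (by omega) hq.nonneg hr.nonneg htt hW1 hW2 (x1_lt_lvl (γ := γ) (ψ := ψ))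
    fun k hk => x2_lt_lvl hk).trans ?_
  set l := (lvl η γ ψ t q r : ℝ)
  have hfrac : (2 * tt ψ q r + 1) / tt ψ q r ≤ 6 / t := by
    rw [div_le_div_iff₀ htt ht0]; nlinarith
  have hC1 : 0 ≤ C1 η := by linarith [C1_ge hη hη1]
  have hW : (W1f η t + 1) * (W2f t + 1) ≤ (W1f η 1 + 1) * (W2f 1 + 1) := by
    refine mul_le_mul (add_le_add ?_ le_rfl) (add_le_add ?_ le_rfl) (by linarith) (by linarith)
    · exact mul_le_mul_of_nonneg_left (add_le_add (Real.log_le_log (by linarith) (by linarith)) le_rfl) hC1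
    · exact mul_le_mul_of_nonneg_left (Real.rpow_le_rpow (by linarith) (by linarith) (by norm_num)) C2_pos.le
  refine (mul_le_mul_of_nonneg_right (mul_le_mul (mul_le_mul_of_nonneg_left hfrac (by positivity)) hW
    (by positivity) (by positivity)) (Real.exp_pos _).le).trans (le_of_eq ?_)
  rw [show 2 * (l + 1 + (l + 1)) = 4 * l + 4 by ring, Real.exp_add]
  field_simp

/-- The overlap above the unit scale. -/
lemma ov_big (hη : 0 < η) (hη1 : η ≤ 1) : ∃ C : ℝ, 0 < C ∧ ∀ (γ t : ℝ) (ψ : ℕ → ℝ) (q r : ℕ),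
    q < r → Rng η ψ q → Rng η ψ r → 1 ≤ tt ψ q r → tt ψ q r ≤ t → t ≤ 2 * tt ψ q r →
      ov η γ ψ q r ≤ C * Real.exp (4 * (lvl η γ ψ t q r : ℝ))
        * ((lam q * ψ q) * (lam r * ψ r)) := by
  have hC1 := C1_ge hη hη1
  have hK : 1 ≤ 3 * C1 η + 2 * C2 := by linarith [C2_pos]
  obtain ⟨C, hC, hov⟩ := ov_bound_large hK
  refine ⟨C * Real.exp 4, by positivity, fun γ t ψ q r hqr hq hr h1 hle hge => ?_⟩
  obtain ⟨hq3, -, -⟩ := hq.1.facts hη hη1
  have P := pairFacts (show 0 < q by omega) hqr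
  set T := tt ψ q r
  have ht0 : 0 ≤ t := by linarith
  have hlT : 0 ≤ Real.log T := Real.log_nonneg h1
  have hW1 : W1f η t ≤ (3 * C1 η + 2 * C2) * (Real.log T + 1) := by
    have h4 : Real.log (2 + t) ≤ Real.log 4 + Real.log T := by
      rw [← Real.log_mul (by norm_num) (by linarith)]
      exact Real.log_le_log (by linarith) (by linarith)
    have h5 : Real.log 4 ≤ 2 := by
      rw [show (4:ℝ) = 2 ^ 2 by norm_num, Real.log_pow]; push_cast; linarith [Real.log_two_lt_d9]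
    refine (mul_le_mul_of_nonneg_left (show Real.log (2 + t) + 1 ≤ 3 * (Real.log T + 1) by linarith)
      (by linarith : 0 ≤ C1 η)).trans ?_
    have : 0 ≤ C2 * (Real.log T + 1) := mul_nonneg C2_pos.le (by linarith)
    linarith
  have hW2 : W2f t ≤ (3 * C1 η + 2 * C2) * T ^ (1/4 : ℝ) := by
    have h4 : (2 + t) ^ (1/4 : ℝ) ≤ 2 * T ^ (1/4 : ℝ) := by
      refine (Real.rpow_le_rpow (by linarith) (show 2 + t ≤ 4 * T by linarith) (by norm_num)).trans ?_
      rw [Real.mul_rpow (by norm_num) (by linarith)]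
      refine mul_le_mul_of_nonneg_right ?_ (by positivity)
      calc (4:ℝ) ^ (1/4 : ℝ) ≤ (16:ℝ) ^ (1/4 : ℝ) := Real.rpow_le_rpow (by norm_num) (by norm_num) (by norm_num)
        _ = 2 := by rw [show (16:ℝ) = (2:ℝ) ^ (4:ℝ) by norm_num, ← Real.rpow_mul (by norm_num)]; norm_num
    refine (mul_le_mul_of_nonneg_left h4 C2_pos.le).trans ?_
    have : 0 ≤ C1 η * T ^ (1/4 : ℝ) := mul_nonneg (by linarith) (by positivity)
    linarith
  refine (hov P (by omega) hq.nonneg hr.nonneg h1 (one_le_W1f hη hη1 ht0) hW1 (one_le_W2f ht0) hW2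
    (x1_lt_lvl (γ := γ) (ψ := ψ)) fun k hk => x2_lt_lvl hk).trans (le_of_eq ?_)
  set l := (lvl η γ ψ t q r : ℝ)
  rw [show 2 * (l + 1 + (l + 1)) = 4 * l + 4 by ring, Real.exp_add]
  ring

lemma mid_band (hη : 0 < η) (hη1 : η ≤ 1) (hq : Rng η ψ q) (hr : Rng η ψ r) (h : Mid η γ ψ q r) :
    PairFacts q r ∧ Xn (nb q) ≤ q ∧ (q:ℝ) ≤ Xn (nb q) ^ (2:ℕ) ∧ Xn (nb q) ≤ r ∧
      (r:ℝ) ≤ Xn (nb q) ^ (6:ℕ) ∧ Xn (nb q) ^ (η / 3) ≤ (cv q r : ℝ) ∧
      nb r ≤ nb q + 2 ∧ nb q ≤ nb r := by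
  obtain ⟨hqr, hlo, hhi, -⟩ := h
  obtain ⟨hq3, -, hq12⟩ := hq.1.facts hη hη1
  have P := pairFacts (show 0 < q by omega) hqr
  obtain ⟨hX1, hX2⟩ := nb_spec hq3
  set X := Xn (nb q)
  have hX0 : 0 ≤ X := by simp only [X]; unfold Xn; positivity
  have hq0 : (0:ℝ) < q := by exact_mod_cast P.hq
  have hq1 : (1:ℝ) ≤ q := by exact_mod_cast (by omega : 1 ≤ q)
  have hθ := tha_pos hη
  have hθ' : tha η ≤ η / 12 := by unfold tha om bB; linarith
  have htt := tt_eq P ψ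
  have hψr : 0 ≤ (cu q r : ℝ) * ψ r := mul_nonneg (Nat.cast_nonneg _) hr.nonneg
  have hvq : (cv q r : ℝ) / q ≤ (cv q r : ℝ) * ψ q := by
    rw [← mul_one_div]; exact mul_le_mul_of_nonneg_left hq.2.1 (Nat.cast_nonneg _)
  have hr3 : (r:ℝ) ≤ (q:ℝ) ^ (3:ℕ) := by
    have e : (r:ℝ) = (Nat.gcd q r : ℝ) * (cv q r : ℝ) := by exact_mod_cast P.hv
    have h2 : (cv q r : ℝ) ≤ (q:ℝ) ^ tha η * q := by
      rw [← div_le_iff₀ hq0]; linarith
    have h3 : (q:ℝ) ^ tha η ≤ q := by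
      calc (q:ℝ) ^ tha η ≤ (q:ℝ) ^ (1:ℝ) := Real.rpow_le_rpow_of_exponent_le hq1 (by linarith)
        _ = q := Real.rpow_one _
    rw [e]
    calc (Nat.gcd q r : ℝ) * (cv q r : ℝ) ≤ (q:ℝ) * ((q:ℝ) * q) :=
          mul_le_mul (Nat.cast_le.2 (Nat.le_of_dvd P.hq (Nat.gcd_dvd_left q r)))
            (h2.trans (mul_le_mul_of_nonneg_right h3 hq0.le)) (Nat.cast_nonneg _) hq0.le
      _ = _ := by ring
  have hr6 : (r:ℝ) ≤ X ^ (6:ℕ) := by
    refine hr3.trans ((pow_le_pow_left₀ hq0.le hX2.le 3).trans (le_of_eq ?_))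
    rw [← pow_mul]
  refine ⟨P, hX1, hX2.le, hX1.trans (Nat.cast_le.2 hqr.le), hr6, ?_,
    nb_step hq3 hqr.le (by exact_mod_cast hr3), nb_mono hqr.le⟩
  refine (Real.rpow_le_rpow hX0 hX1 (by linarith)).trans ?_
  have hψr' : ψ r ≤ (q:ℝ) ^ (-η) := hr.2.2.trans
    (Real.rpow_le_rpow_of_nonpos hq0 (Nat.cast_le.2 hqr.le) (by linarith))
  have h2 := mul_le_mul_of_nonneg_left hq.2.2 (Nat.cast_nonneg (α := ℝ) (cv q r))
  have h3 := mul_le_mul (show (cu q r : ℝ) ≤ cv q r by exact_mod_cast P.huv.le) hψr' hr.nonneg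
    (Nat.cast_nonneg _)
  by_contra hlt
  push Not at hlt
  have hneg : 0 < (q:ℝ) ^ (-η) := Real.rpow_pos_of_pos hq0 _
  have h4 : tt ψ q r < 2 * ((q:ℝ) ^ (η / 3) * (q:ℝ) ^ (-η)) := by
    have := mul_lt_mul_of_pos_right hlt hneg
    linarith
  rw [← Real.rpow_add hq0] at h4
  have h5 : 2 * (q:ℝ) ^ (η / 3 + -η) ≤ (q:ℝ) ^ (-tha η) := by
    refine (mul_le_mul_of_nonneg_right hq12 (by positivity)).trans ?_
    rw [← Real.rpow_add hq0]
    exact Real.rpow_le_rpow_of_exponent_le hq1 (by linarith)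
  linarith

/-- The level never exceeds the budget of the band. -/
lemma mid_hQ (hη : 0 < η) (hη1 : η ≤ 1) (hq : Rng η ψ q) (hr : Rng η ψ r) (h : Mid η γ ψ q r)
    (ht : 0 < t) (ht' : t ≤ 2 * Xn (nb q) ^ (2 * tha η)) :
    Real.exp (30 * Real.log (2 + t) + 30 * (lvl η γ ψ t q r : ℝ)) ≤ Xn (nb q) ^ (om η / 500) := by
  obtain ⟨P, hX1, hX2, -, hr6, -, -, -⟩ := mid_band hη hη1 hq hr h
  obtain ⟨hB, hextra⟩ := big_band hη hη1 hq.1
  set X := Xn (nb q)
  have hX0 : 0 < X := by linarith [hB.hX]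
  have hX1' := hB.one_le
  have hL : 0 ≤ Real.log X := Real.log_nonneg hX1'
  have hom := om_pos hη
  rw [Real.rpow_def_of_pos hX0]
  refine Real.exp_le_exp.2 ?_
  have hb5 := Real.log_le_log (by norm_num) hB.b5
  rw [Real.log_rpow hX0, Real.log_pow] at hb5
  push_cast at hb5
  have hlog : Real.log (2 + t) ≤ Real.log 4 + 2 * tha η * Real.log X := by
    rw [← Real.log_rpow hX0, ← Real.log_mul (by norm_num) (Real.rpow_pos_of_pos hX0 _).ne']
    refine Real.log_le_log (by linarith) ?_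
    have : 1 ≤ X ^ (2 * tha η) := Real.one_le_rpow hX1' (by linarith [tha_pos hη])
    linarith
  have hθ : 2 * tha η * Real.log X = om η / 100000 * Real.log X := by unfold tha; ring
  have hq0 : (0:ℝ) < q := by exact_mod_cast P.hq
  have hlq : Real.log q ≤ 2 * Real.log X := by
    have := Real.log_le_log hq0 hX2
    rw [Real.log_pow] at this
    exact_mod_cast this
  have hx1 : x1 (W1f η t) q r ≤ 12 * Real.log X / C1 η := by
    have hC1 := C1_ge hη hη1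
    unfold x1
    refine (xw_anti (W1f_ge hη hη1 ht.le) _).trans ((xw_le_card (by linarith) _).trans ?_)
    refine div_le_div_of_nonneg_right ?_ (by linarith)
    have hv0 := lt_trans P.hu0 P.huv
    have h1 := card_primeFactors_le_log _ (Nat.mul_pos P.hu0 hv0)
    push_cast at h1
    rw [Real.log_mul (by exact_mod_cast P.hu0.ne') (by exact_mod_cast hv0.ne')] at h1
    have hu : Real.log (cu q r : ℝ) ≤ Real.log q :=
      Real.log_le_log (by exact_mod_cast P.hu0) (Nat.cast_le.2 (Nat.div_le_self _ _))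
    have hv : Real.log (cv q r : ℝ) ≤ 6 * Real.log X := by
      refine (Real.log_le_log (by exact_mod_cast hv0)
        (le_trans (Nat.cast_le.2 (Nat.div_le_self _ _)) hr6)).trans (le_of_eq ?_)
      rw [Real.log_pow]; norm_num
    have := Real.log_two_gt_d9
    have h5 : (0:ℝ) ≤ (cu q r * cv q r).primeFactors.card := Nat.cast_nonneg _
    have h6 := mul_le_mul_of_nonneg_left (show (2:ℝ) / 3 ≤ Real.log 2 by linarith) h5
    linarith
  have hx2 : ∀ k ∈ Hits η γ ψ q r, x2 (W2f t) η γ q r k ≤ 1 + Real.log (1 + 2 * Real.log X) := by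
    intro k _
    unfold x2 xw
    have hN : 1 ≤ ⌊1 + 2 * Real.log X⌋₊ := Nat.le_floor (by push_cast; linarith)
    refine (sum_inv_le hN fun p hp => ?_).trans ?_
    · simp only [Finset.mem_filter] at hp
      exact ⟨(Nat.prime_of_mem_primeFactors hp.1.1).one_le, Nat.le_floor (by linarith [hp.1.2.1])⟩
    · refine add_le_add le_rfl (Real.log_le_log (by exact_mod_cast hN) (Nat.floor_le (by linarith)))
  have e1 : 30 * (12 * Real.log X / C1 η) = om η * Real.log X * (36 / 100000) := by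
    unfold C1; field_simp; ring
  have h0 : 0 ≤ om η * Real.log X := mul_nonneg hom.le hL
  rcases Nat.eq_zero_or_pos (lvl η γ ψ t q r) with e | e
  · rw [e]; push_cast
    linarith
  rcases lvl_witness e with hl | ⟨k, hk, hl⟩
  · linarith
  · linarith [hx2 k hk]

/-- The parameters of the level bound. -/
lemma mid_lev (hη : 0 < η) (hη1 : η ≤ 1) (hq : Rng η ψ q) (hr : Rng η ψ r) (h : Mid η γ ψ q r)
    (ht : 0 < t) (ht' : t ≤ 2 * Xn (nb q) ^ (2 * tha η)) {l : ℕ} (hl : lvl η γ ψ t q r = l) (hl1 : 1 ≤ l) :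
    Lev η (Xn (nb q)) t (W1f η t) (W2f t) l (J0 * (l + 1)) where
  hl := hl1
  hj := rfl
  hW1 := mul_le_mul_of_nonneg_right (C1_ge hη hη1)
    (by linarith [Real.log_nonneg (by linarith : (1:ℝ) ≤ 2 + t)])
  hW2 := by rw [log_W2f ht.le]
  hW2pos := by linarith [one_le_W2f ht.le]
  hQ := hl ▸ mid_hQ hη hη1 hq hr h ht ht'

end Vale.Agent.P028.Wide
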