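import Vale.Agent.P028.Wide.Moment
import Vale.Agent.P028.Main

namespace Vale.Agent.P028.Wide

open Finset MeasureTheory Filter Topology
open scoped Classical

variable {η : ℝ}

/-- A weight supported on the range treated by the second moment. -/
def Good (η : ℝ) (ψ : ℕ → ℝ) : Prop := ∀ q, ψ q = 0 ∨ Rng η ψ q

lemma Good.nonneg {ψ : ℕ → ℝ} (h : Good η ψ) (q : ℕ) : 0 ≤ ψ q :=
  (h q).elim (fun e => e.ge) fun e => e.nonneg

lemma Good.half {ψ : ℕ → ℝ} (h : Good η ψ) (hη : 0 < η) (hη1 : η ≤ 1) (q : ℕ) : 2 * ψ q ≤ 1 := by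
  rcases h q with e | ⟨hQ, -, hψ⟩
  · simp [e]
  obtain ⟨hq3, hB, -⟩ := hQ.facts hη hη1
  have hq1 : (1:ℝ) ≤ q := by exact_mod_cast (by omega : 1 ≤ q)
  have h4 : (q:ℝ) ^ (-η) ≤ 1 / 4 := by
    rw [Real.rpow_neg (by linarith), one_div]
    exact inv_anti₀ (by norm_num) (hB.s2.trans (Real.rpow_le_rpow_of_exponent_le hq1 (by linarith)))
  linarith

/-- Lower bound for the selected set inside a union of cells. -/
lemma cells_lower (η γ : ℝ) (k : ℕ) (I : Finset ℕ) (hI : ∀ j ∈ I, j < 2 ^ k) :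
    ∃ Q : ℕ, ∀ (ψ : ℕ → ℝ) (q : ℕ), Q ≤ q → 0 ≤ ψ q → 2 * ψ q ≤ 1 →
      lam q * ψ q * volume.real (⋃ j ∈ I, cell k j) / 2
        ≤ volume.real (SSet η γ ψ q ∩ ⋃ j ∈ I, cell k j) := by
  have hf : ∀ j, volume (cell k j) ≠ ⊤ := fun j => by
    rw [cell, Real.volume_Ico]; exact ENNReal.ofReal_ne_top
  have h : ∀ j : ℕ, ∃ Q : ℕ, j ∈ I → ∀ (ψ : ℕ → ℝ) (q : ℕ), Q ≤ q → 0 ≤ ψ q → 2 * ψ q ≤ 1 →
      lam q * ψ q * (1 / 2 ^ k) / 2 ≤ volume.real (SSet η γ ψ q ∩ cell k j) := by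
    intro j
    by_cases hj : j ∈ I
    swap
    · exact ⟨0, fun h => absurd h hj⟩
    have hj1 : (j:ℝ) + 1 ≤ 2 ^ k := by exact_mod_cast hI j hj
    obtain ⟨Q, hQ⟩ := cell_lower η γ (α := (j:ℝ) / 2 ^ k) (β := ((j:ℝ) + 1) / 2 ^ k) (by positivity)
      (div_lt_div_of_pos_right (by linarith) (by positivity)) (by rw [div_le_one (by positivity)]; exact hj1)
    refine ⟨Q, fun _ ψ q hq h1 h2 => ?_⟩
    have := hQ ψ q hq h1 h2
    rw [show ((j:ℝ) + 1) / 2 ^ k - (j:ℝ) / 2 ^ k = 1 / 2 ^ k by ring] at this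
    exact this
  choose Q hQ using h
  refine ⟨I.sup Q, fun ψ q hq h1 h2 => ?_⟩
  have e1 : volume.real (⋃ j ∈ I, cell k j) = ∑ j ∈ I, (1:ℝ) / 2 ^ k := by
    rw [measureReal_biUnion_finset (cell_disjoint k _) (fun j _ => measurableSet_Ico) (fun j _ => hf j)]
    exact Finset.sum_congr rfl fun j _ => volume_real_cell k j
  have e2 : volume.real (SSet η γ ψ q ∩ ⋃ j ∈ I, cell k j)
      = ∑ j ∈ I, volume.real (SSet η γ ψ q ∩ cell k j) := by
    rw [Set.inter_iUnion₂]
    exact measureReal_biUnion_finset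
      (fun a ha b hb hab => ((cell_disjoint k _) ha hb hab).mono Set.inter_subset_right Set.inter_subset_right)
      (fun j _ => (measurableSet_SSet η γ ψ q).inter measurableSet_Ico)
      (fun j _ => measure_ne_top_of_subset Set.inter_subset_right (hf j))
  rw [e1, e2, Finset.mul_sum, Finset.sum_div]
  exact Finset.sum_le_sum fun j hj => hQ j hj ψ q (le_trans (Finset.le_sup hj) hq) h1 h2

/-- The points lying in infinitely many selected sets. -/
noncomputable def Lim (η γ : ℝ) (ψ : ℕ → ℝ) : Set ℝ :=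
  ⋂ N : ℕ, ⋃ q : ℕ, ⋃ (_ : N ≤ q ∧ QBig η q), SSet η γ ψ q

lemma measurableSet_Lim (η γ : ℝ) (ψ : ℕ → ℝ) : MeasurableSet (Lim η γ ψ) :=
  MeasurableSet.iInter fun _ => MeasurableSet.iUnion fun q => MeasurableSet.iUnion fun _ =>
    measurableSet_SSet η γ ψ q

lemma Lim_lower (hη : 0 < η) (hη1 : η ≤ 1) : ∃ c : ℝ, 0 < c ∧ ∀ (γ : ℝ) (ψ : ℕ → ℝ), Good η ψ →
    ¬ Summable (fun q => lam q * ψ q) →
    ∀ (k : ℕ) (I : Finset ℕ), (∀ j ∈ I, j < 2 ^ k) →
      c * volume.real (⋃ j ∈ I, cell k j) ^ 2 ≤ volume.real (Lim η γ ψ ∩ ⋃ j ∈ I, cell k j) := by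
  obtain ⟨C, hC, hsm⟩ := second_moment hη hη1
  refine ⟨1 / (24 * C), by positivity, fun γ ψ hG hs k I hI => ?_⟩
  set U := ⋃ j ∈ I, cell k j with hU
  set V := volume.real U with hV
  have hUm : MeasurableSet U := Finset.measurableSet_biUnion _ fun j _ => measurableSet_Ico
  have hUf : volume U ≠ ⊤ :=
    ((measure_biUnion_finset_le _ _).trans_lt (ENNReal.sum_lt_top.2 fun j _ => by
      rw [cell, Real.volume_Ico]; exact ENNReal.ofReal_lt_top)).ne
  obtain ⟨Q0, hQ0⟩ := cells_lower η γ k I hI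
  set T := fun N : ℕ => (⋃ q : ℕ, ⋃ (_ : N ≤ q ∧ QBig η q), SSet η γ ψ q) ∩ U with hT
  have hTm : ∀ N, MeasurableSet (T N) := fun N => (MeasurableSet.iUnion fun q =>
    MeasurableSet.iUnion fun _ => measurableSet_SSet η γ ψ q).inter hUm
  have hanti : Antitone T := by
    intro N M hNM x hx
    obtain ⟨hx1, hx2⟩ := hx
    simp only [Set.mem_iUnion] at hx1
    obtain ⟨q, ⟨h1, h2⟩, hxq⟩ := hx1
    exact ⟨Set.mem_iUnion₂.2 ⟨q, ⟨hNM.trans h1, h2⟩, hxq⟩, hx2⟩
  have hlow : ∀ N, ENNReal.ofReal (1 / (24 * C) * V ^ 2) ≤ volume (T N) := by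
    intro N
    set a := fun q => lam q * ψ q with ha
    have ha0 : ∀ q, 0 ≤ a q := fun q => mul_nonneg (lam_nonneg q) (hG.nonneg q)
    have ha1 : ∀ q, a q ≤ 1 := fun q =>
      mul_le_one₀ (lam_le_one q) (hG.nonneg q) (by linarith [hG.half hη hη1 q, hG.nonneg q])
    obtain ⟨M, hM1, hM2⟩ := exists_block a ha0 ha1 hs (max N Q0)
    set F := (Finset.Ico (max N Q0) M).filter (fun q => ψ q ≠ 0) with hF
    have hFsum : ∑ q ∈ F, a q = ∑ q ∈ Finset.Ico (max N Q0) M, a q :=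
      Finset.sum_filter_of_ne fun q _ hne => by
        contrapose! hne
        simp [ha, hne]
    have hFR : ∀ q ∈ F, Rng η ψ q := fun q hq => (hG q).resolve_left (Finset.mem_filter.1 hq).2
    set K := ∑ q ∈ F, lam q * ψ q with hK
    have hK1 : 1 ≤ K := le_of_le_of_eq hM1 hFsum.symm
    have hK2 : K ≤ 2 := le_of_eq_of_le hFsum hM2
    have hQb : ∑ q ∈ F, ∑ r ∈ F, volume.real ((SSet η γ ψ q ∩ U) ∩ (SSet η γ ψ r ∩ U)) ≤ 6 * C := by
      refine le_trans (Finset.sum_le_sum fun q _ => Finset.sum_le_sum fun r _ => ?_)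
        ((hsm γ ψ F hG.nonneg hFR (fun q _ => hG.half hη hη1 q) hK2).trans (by linarith))
      exact measureReal_mono (Set.inter_subset_inter Set.inter_subset_left Set.inter_subset_left)
        (measure_ne_top_of_subset Set.inter_subset_left (SSet_finite η γ ψ q))
    have hm : V / 2 ≤ ∑ q ∈ F, volume.real (SSet η γ ψ q ∩ U) := by
      refine le_trans ?_ (Finset.sum_le_sum fun q hq => hQ0 ψ q
        (le_trans (le_max_right _ _) (Finset.mem_Ico.1 (Finset.mem_filter.1 hq).1).1)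
        (hG.nonneg q) (hG.half hη hη1 q))
      rw [← Finset.sum_div, ← Finset.sum_mul]
      exact div_le_div_of_nonneg_right (le_mul_of_one_le_left measureReal_nonneg hK1) (by norm_num)
    have hcs := union_lower volume F (fun q => SSet η γ ψ q ∩ U)
      (fun q _ => (measurableSet_SSet η γ ψ q).inter hUm)
      (fun q _ => measure_ne_top_of_subset Set.inter_subset_right hUf)
    have hsub : (⋃ q ∈ F, SSet η γ ψ q ∩ U) ⊆ T N := by
      refine Set.iUnion₂_subset fun q hq x hx => ⟨Set.mem_iUnion₂.2 ⟨q, ?_, hx.1⟩, hx.2⟩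
      obtain ⟨h1, h2⟩ := Finset.mem_filter.1 hq
      exact ⟨le_trans (le_max_left _ _) (Finset.mem_Ico.1 h1).1, (hFR q hq).1⟩
    refine le_trans ?_ (measure_mono hsub)
    rw [← ofReal_measureReal (measure_ne_top_of_subset (hsub.trans Set.inter_subset_right) hUf)]
    apply ENNReal.ofReal_le_ofReal
    set X := volume.real (⋃ q ∈ F, SSet η γ ψ q ∩ U)
    have h1 : (V / 2) ^ 2 ≤ X * (6 * C) :=
      le_trans (pow_le_pow_left₀ (div_nonneg measureReal_nonneg (by norm_num)) hm 2)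
        (hcs.trans (mul_le_mul_of_nonneg_left hQb measureReal_nonneg))
    rw [one_div_mul_eq_div, div_le_iff₀ (by positivity)]
    linarith [show (V / 2) ^ 2 * 4 = V ^ 2 by ring]
  have hlim := tendsto_measure_iInter_atTop (μ := volume) (s := T)
    (fun N => (hTm N).nullMeasurableSet) hanti
    ⟨0, measure_ne_top_of_subset Set.inter_subset_right hUf⟩
  have e : (⋂ N, T N) = Lim η γ ψ ∩ U := by
    rw [Lim, Set.iInter_inter]
  rw [e] at hlim
  have hge := ge_of_tendsto' hlim hlow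
  exact (ENNReal.ofReal_le_iff_le_toReal (measure_ne_top_of_subset Set.inter_subset_right hUf)).1 hge

/-- Almost every point of the unit interval lies in the limsup set. -/
lemma Lim_full (hη : 0 < η) (hη1 : η ≤ 1) (γ : ℝ) (ψ : ℕ → ℝ) (hG : Good η ψ)
    (hs : ¬ Summable (fun q => lam q * ψ q)) :
    volume (Set.Ico (0:ℝ) 1 \ Lim η γ ψ) = 0 := by
  obtain ⟨c, hc, hlow⟩ := Lim_lower hη hη1
  by_contra hne
  set A := Set.Ico (0:ℝ) 1 \ Lim η γ ψ with hA
  have hAf : volume A ≠ ⊤ := measure_ne_top_of_subset Set.sdiff_subset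
    (by rw [Real.volume_Ico]; exact ENNReal.ofReal_ne_top)
  have hAm : MeasurableSet A := measurableSet_Ico.diff (measurableSet_Lim η γ ψ)
  obtain ⟨K, hKA, hK, hKpos⟩ := hAm.exists_lt_isCompact_of_ne_top hAf (pos_iff_ne_zero.2 hne)
  have hKf : volume K ≠ ⊤ := hK.measure_lt_top.ne
  set κ := volume.real K with hκ
  have hκ0 : 0 < κ := ENNReal.toReal_pos hKpos.ne' hKf
  have hstep : ∀ k : ℕ, ENNReal.ofReal (κ + c * κ ^ 2) ≤ volume (Metric.cthickening (1 / 2 ^ k) K) := by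
    intro k
    set I := (Finset.range (2 ^ k)).filter (fun j => (cell k j ∩ K).Nonempty) with hI
    set U := ⋃ j ∈ I, cell k j with hU
    have hKU : K ⊆ U := by
      intro x hx
      obtain ⟨⟨hx0, hx1⟩, -⟩ := hKA hx
      have hp : (0:ℝ) < 2 ^ k := by positivity
      have hcell : x ∈ cell k ⌊x * 2 ^ k⌋₊ := by
        rw [cell, Set.mem_Ico, div_le_iff₀ hp, lt_div_iff₀ hp]
        exact ⟨Nat.floor_le (by positivity), Nat.lt_floor_add_one _⟩
      refine Set.mem_biUnion (x := ⌊x * 2 ^ k⌋₊) ?_ hcell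
      refine Finset.mem_filter.2 ⟨Finset.mem_range.2 ?_, ⟨x, hcell, hx⟩⟩
      rw [Nat.floor_lt (by positivity)]
      push_cast
      exact mul_lt_of_lt_one_left hp hx1
    have hUth : U ⊆ Metric.cthickening (1 / 2 ^ k) K := by
      refine Set.iUnion₂_subset fun j hj y hy => ?_
      obtain ⟨x, hx, hxK⟩ := (Finset.mem_filter.1 hj).2
      refine Metric.mem_cthickening_of_dist_le y x _ _ hxK ?_
      simp only [cell, Set.mem_Ico] at hx hy
      rw [Real.dist_eq, abs_le]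
      have e : ((j:ℝ) + 1) / 2 ^ k = (j:ℝ) / 2 ^ k + 1 / 2 ^ k := add_div _ _ _
      constructor <;> linarith
    have hUf : volume U ≠ ⊤ := ((measure_biUnion_finset_le _ _).trans_lt
      (ENNReal.sum_lt_top.2 fun j _ => by rw [cell, Real.volume_Ico]; exact ENNReal.ofReal_lt_top)).ne
    have h1 := hlow γ ψ hG hs k I fun j hj => Finset.mem_range.1 (Finset.mem_filter.1 hj).1
    have hdisj : Disjoint (Lim η γ ψ ∩ U) K :=
      Set.disjoint_left.2 fun x hx hxK => (hKA hxK).2 hx.1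
    have h2 : volume.real (Lim η γ ψ ∩ U) + κ ≤ volume.real U := by
      rw [hκ, ← measureReal_union hdisj hK.isClosed.measurableSet
        (measure_ne_top_of_subset Set.inter_subset_right hUf) hKf]
      exact measureReal_mono (Set.union_subset Set.inter_subset_right hKU) hUf
    have h3 : κ ≤ volume.real U := measureReal_mono hKU hUf
    have h4 : κ + c * κ ^ 2 ≤ volume.real U := by
      have := mul_le_mul_of_nonneg_left (pow_le_pow_left₀ hκ0.le h3 2) hc.le
      linarith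
    exact ((ENNReal.ofReal_le_ofReal h4).trans (le_of_eq (ofReal_measureReal hUf))).trans (measure_mono hUth)
  have hlim := (tendsto_measure_cthickening_of_isCompact (μ := volume) hK).comp
    (show Tendsto (fun k : ℕ => (1:ℝ) / 2 ^ k) atTop (𝓝 0) from by
      have := tendsto_pow_atTop_nhds_zero_of_lt_one (by norm_num : (0:ℝ) ≤ 1/2) (by norm_num : (1:ℝ)/2 < 1)
      simpa [one_div, inv_pow] using this)
  have hge := ge_of_tendsto' hlim hstep
  have := (ENNReal.ofReal_le_iff_le_toReal hKf).1 hge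
  have : c * κ ^ 2 ≤ 0 := by simp only [hκ, Measure.real] at *; linarith
  nlinarith [mul_pos hc (pow_pos hκ0 2)]

/-- Full measure for every shift, for the part of the series below any fixed negative power. -/
theorem full_measure_power (γ : ℝ) (ψ : ℕ → NNReal) {η₀ : ℝ} (hη₀ : 0 < η₀)
    (hdiv : ¬ Summable (fun q : ℕ => lam q * min (ψ q : ℝ) ((q:ℝ) ^ (-η₀)))) :
    volume ({x : ℝ | {q : ℕ | 0 < q ∧ ∃ a : ℤ, |(q:ℝ) * x - a - γ| < (ψ q : ℝ)}.Infinite}ᶜ) = 0 := by
  set η := min η₀ 1 with hηd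
  have hη : 0 < η := lt_min hη₀ one_pos
  have hη1 : η ≤ 1 := min_le_right _ _
  set W := {x : ℝ | {q : ℕ | 0 < q ∧ ∃ a : ℤ, |(q:ℝ) * x - a - γ| < (ψ q : ℝ)}.Infinite}
  by_cases hsmall : Summable (fun q : ℕ => lam q * min (ψ q : ℝ) (1 / (q:ℝ)))
  swap
  · let ψ' : ℕ → NNReal := fun q => ⟨min (ψ q : ℝ) (1 / (q:ℝ)), le_min (NNReal.coe_nonneg _) (by positivity)⟩
    have h := P028.full_measure_of_bounded γ ψ' 1 (fun q _ => min_le_right _ _) (by
      refine fun hs => hsmall (hs.congr fun q => ?_)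
      change (q.totient : ℝ) * min (ψ q : ℝ) (1 / (q:ℝ)) / q = _
      unfold lam; ring)
    refine MeasureTheory.ae_iff.1 ?_
    filter_upwards [h] with x hx
    exact hx.mono fun q hq => ⟨hq.1, hq.2.imp fun a ha => lt_of_lt_of_le ha (min_le_left _ _)⟩
  set φ := fun q : ℕ => min (ψ q : ℝ) ((q:ℝ) ^ (-η))
  set f := fun q : ℕ => if QBig η q ∧ 1 / (q:ℝ) ≤ φ q then φ q else 0 with hf
  have hφ0 : ∀ q, 0 ≤ φ q := fun q => le_min (NNReal.coe_nonneg _) (by positivity)
  have hG : Good η f := fun q => by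
    by_cases h : QBig η q ∧ 1 / (q:ℝ) ≤ φ q
    · have e : f q = φ q := by simp only [hf]; rw [if_pos h]
      exact Or.inr ⟨h.1, e ▸ h.2, e ▸ min_le_right _ _⟩
    · exact Or.inl (by simp only [hf]; rw [if_neg h])
  have hle : ∀ q, f q ≤ (ψ q : ℝ) := fun q => by
    simp only [hf]; split_ifs
    · exact min_le_left _ _
    · exact NNReal.coe_nonneg _
  obtain ⟨Q, hQ⟩ := exists_qbig η
  have hs : ¬ Summable (fun q => lam q * f q) := by
    intro hsum
    apply hdiv
    have hfin : Summable (fun q : ℕ => if q < max Q 1 then (ψ q : ℝ) else 0) :=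
      summable_of_ne_finset_zero (s := Finset.range (max Q 1)) fun q hq => by
        rw [if_neg (by simpa using hq)]
    refine Summable.of_nonneg_of_le
      (fun q => mul_nonneg (lam_nonneg q) (le_min (NNReal.coe_nonneg _) (by positivity)))
      (fun q => ?_) ((hsum.add hsmall).add hfin)
    have hl0 := lam_nonneg q
    have h1 : 0 ≤ lam q * f q := mul_nonneg hl0 (hG.nonneg q)
    have h2 : 0 ≤ lam q * min (ψ q : ℝ) (1 / (q:ℝ)) :=
      mul_nonneg hl0 (le_min (NNReal.coe_nonneg _) (by positivity))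
    by_cases hq : q < max Q 1
    · rw [if_pos hq]
      have h3 : lam q * min (ψ q : ℝ) ((q:ℝ) ^ (-η₀)) ≤ (ψ q : ℝ) :=
        (mul_le_mul_of_nonneg_left (min_le_left _ _) hl0).trans
          (mul_le_of_le_one_left (NNReal.coe_nonneg _) (lam_le_one q))
      linarith
    rw [if_neg hq, add_zero]
    push Not at hq
    have hq1 : (1:ℝ) ≤ q := by exact_mod_cast le_trans (le_max_right _ _) hq
    have h3 : lam q * min (ψ q : ℝ) ((q:ℝ) ^ (-η₀)) ≤ lam q * φ q :=
      mul_le_mul_of_nonneg_left (min_le_min le_rfl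
        (Real.rpow_le_rpow_of_exponent_le hq1 (neg_le_neg (min_le_left _ _)))) hl0
    by_cases h : 1 / (q:ℝ) ≤ φ q
    · have e : f q = φ q := by simp only [hf]; rw [if_pos ⟨hQ q (le_trans (le_max_left _ _) hq), h⟩]
      rw [e]; linarith
    · have h4 : lam q * φ q ≤ lam q * min (ψ q : ℝ) (1 / (q:ℝ)) := by
        refine mul_le_mul_of_nonneg_left ?_ hl0
        exact le_min (min_le_left _ _) (not_le.1 h).le
      linarith
  have hsub : Lim η γ f ⊆ W := by
    intro x hx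
    refine Set.infinite_of_forall_exists_gt fun N => ?_
    obtain ⟨q, ⟨hq, hQb⟩, hxq⟩ := Set.mem_iUnion₂.1 (Set.mem_iInter.1 hx (N + 1))
    refine ⟨q, ⟨by omega, ?_⟩, by omega⟩
    obtain ⟨a, -, ha⟩ := Set.mem_iUnion₂.1 hxq
    rw [mem_J (by omega)] at ha
    exact ⟨a, ha.trans_le (hle q)⟩
  have hinv : ∀ (x : ℝ) (k : ℤ), x ∈ W → x + k ∈ W := by
    intro x k hx
    refine hx.mono fun q hq => ⟨hq.1, ?_⟩
    obtain ⟨a, ha⟩ := hq.2
    refine ⟨a + q * k, ?_⟩
    push_cast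
    rw [show (q:ℝ) * (x + k) - (a + q * k) - γ = (q:ℝ) * x - a - γ by ring]
    exact ha
  have h0 := Lim_full hη hη1 γ f hG hs
  have hcover : Wᶜ ⊆ ⋃ k : ℤ, (fun x => x + (-(k:ℝ))) ⁻¹' (Set.Ico (0:ℝ) 1 \ Lim η γ f) := by
    intro x hx
    refine Set.mem_iUnion.2 ⟨⌊x⌋, ⟨?_, ?_⟩, fun h => hx ?_⟩
    · linarith [Int.floor_le x]
    · linarith [Int.lt_floor_add_one x]
    · simpa using hinv _ ⌊x⌋ (hsub h)
  refine measure_mono_null hcover (measure_iUnion_null fun k => ?_)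
  rw [measure_preimage_add_right]
  exact h0

end Vale.Agent.P028.Wide
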