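import Vale.Agent.P028.Wide.Tiny
import Vale.Agent.P028.Wide.Large

namespace Vale.Agent.P028.Wide

open Finset
open scoped Classical

/-- The first threshold constant. -/
noncomputable def C1 (η : ℝ) : ℝ := 10 ^ 6 / om η

/-- The second threshold constant. -/
noncomputable def C2 : ℝ := Real.exp (8 * Real.log (64 * (J0:ℝ)) + 8)

/-- The first threshold at scale `t`. -/
noncomputable def W1f (η t : ℝ) : ℝ := C1 η * (Real.log (2 + t) + 1)

/-- The second threshold at scale `t`. -/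
noncomputable def W2f (t : ℝ) : ℝ := C2 * (2 + t) ^ (1/4 : ℝ)

/-- The denominators treated by the second moment. -/
def QBig (η : ℝ) (q : ℕ) : Prop := 2 * (10 ^ 9 / om η) ^ 2 ≤ Real.log q

variable {η γ X t : ℝ} {ψ : ℕ → ℝ} {q r : ℕ}

lemma om_le_one (hη : 0 < η) (hη1 : η ≤ 1) : om η ≤ 1 := by
  unfold om bB; linarith

lemma C1_ge (hη : 0 < η) (hη1 : η ≤ 1) : 12000 ≤ C1 η := by
  unfold C1
  rw [le_div_iff₀ (om_pos hη)]
  linarith [om_le_one hη hη1]

lemma one_le_C2 : 1 ≤ C2 := Real.one_le_exp (by have := logJ0; linarith)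

lemma C2_pos : 0 < C2 := Real.exp_pos _

lemma W1f_ge (hη : 0 < η) (hη1 : η ≤ 1) (ht : 0 ≤ t) : C1 η ≤ W1f η t :=
  le_mul_of_one_le_right (by linarith [C1_ge hη hη1])
    (by linarith [Real.log_nonneg (by linarith : (1:ℝ) ≤ 2 + t)])

lemma one_le_W1f (hη : 0 < η) (hη1 : η ≤ 1) (ht : 0 ≤ t) : 1 ≤ W1f η t := by
  linarith [C1_ge hη hη1, W1f_ge hη hη1 ht]

lemma one_le_W2f (ht : 0 ≤ t) : 1 ≤ W2f t :=
  one_le_mul_of_one_le_of_one_le one_le_C2 (Real.one_le_rpow (by linarith) (by norm_num))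

lemma log_W2f (ht : 0 ≤ t) :
    Real.log (W2f t) = 8 * Real.log (64 * (J0:ℝ)) + 8 + Real.log (2 + t) / 4 := by
  have h : (0:ℝ) < 2 + t := by linarith
  unfold W2f C2
  rw [Real.log_mul (Real.exp_pos _).ne' (Real.rpow_pos_of_pos h _).ne', Real.log_exp, Real.log_rpow h]
  ring

lemma two_pow_le_rpow {a : ℝ} (ha : 0 < a) {x : ℝ} (hx : 0 < x) {c : ℝ} (h : Real.log a ≤ c * Real.log x) :
    a ≤ x ^ c := by
  rw [← Real.log_le_log_iff ha (Real.rpow_pos_of_pos hx _), Real.log_rpow hx]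
  exact h

lemma sqrt_big (hη : 0 < η) {L : ℝ} (h : (10 ^ 9 / om η) ^ 2 ≤ L) :
    10 ^ 9 * Real.sqrt L ≤ om η * L ∧ 10 ^ 9 ≤ om η * Real.sqrt L ∧ 0 ≤ L := by
  have hom := om_pos hη
  have hL : 0 ≤ L := le_trans (sq_nonneg _) h
  have h1 := Real.le_sqrt_of_sq_le h
  rw [div_le_iff₀ hom] at h1
  refine ⟨?_, by linarith, hL⟩
  have h2 := mul_le_mul_of_nonneg_right h1 (Real.sqrt_nonneg L)
  rw [mul_right_comm, Real.mul_self_sqrt hL] at h2
  linarith

/-- The band conditions hold once the logarithm is large. -/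
lemma big_of_log (hη : 0 < η) (hη1 : η ≤ 1) (hX : 0 < X) (h : (10 ^ 9 / om η) ^ 2 ≤ Real.log X) :
    Big η X ∧ 30 * (2 + Real.log (1 + 2 * Real.log X)) ≤ om η / 2000 * Real.log X := by
  obtain ⟨hs, hs1, hL⟩ := sqrt_big hη h
  set L := Real.log X
  have hom := om_pos hη
  have hom1 := om_le_one hη hη1
  have hsL : 10 ^ 9 ≤ Real.sqrt L := hs1.trans (mul_le_of_le_one_left (Real.sqrt_nonneg _) hom1)
  have hsq : Real.sqrt L * Real.sqrt L = L := Real.mul_self_sqrt hL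
  have hL1 : 1 ≤ L := by nlinarith
  have hl2 := Real.log_two_lt_d9
  have hom2 : 10 ^ 9 ≤ om η * L := le_trans (by nlinarith) hs
  have hexp : X = Real.exp L := (Real.exp_log hX).symm
  have hlogU : ∀ x : ℝ, 1 ≤ x → Real.log x ≤ 4 * x ^ (1/4 : ℝ) := fun x hx => by
    have := Real.log_le_rpow_div (by linarith : 0 ≤ x) (by norm_num : (0:ℝ) < 1/4)
    linarith
  have hquart : ∀ x : ℝ, 0 ≤ x → x ^ (1/4 : ℝ) * x ^ (1/4 : ℝ) = Real.sqrt x := fun x hx => by
    rw [← Real.rpow_add' hx (by norm_num), Real.sqrt_eq_rpow]; norm_num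
  have hA : Real.sqrt (10 + 4 * L) ≤ 4 * Real.sqrt L := by
    rw [Real.sqrt_le_left (by positivity), mul_pow, Real.sq_sqrt hL]; linarith
  refine ⟨⟨?_, ?_, ?_, ?_, ?_⟩, ?_⟩
  · rw [hexp]
    have := Real.add_one_le_exp L
    have : (2:ℝ) ≤ L := by nlinarith
    linarith
  · rw [Real.rpow_def_of_pos hX, ← Real.exp_log (two_pos : (0:ℝ) < 2)]
    refine Real.exp_lt_exp.2 ?_
    have : om η ≤ bE η - 8 * bB η := by unfold om bB bE; linarith
    have := mul_le_mul_of_nonneg_left this hL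
    linarith
  · rw [Real.rpow_def_of_pos hX]
    refine Real.exp_le_exp.2 ?_
    rw [show (16:ℝ) * L = 4 ^ 2 * L by norm_num, Real.sqrt_mul (by norm_num),
      Real.sqrt_sq (by norm_num)]
    linarith [Real.sqrt_nonneg L]
  · intro l hl
    have h10 : (0:ℝ) < 10 + 4 * L := by linarith
    refine two_pow_le_rpow (by positivity) hX ?_
    rw [Real.log_pow, Nat.cast_mul, Nat.cast_add, Nat.cast_one]
    set A := (10 + 4 * L) ^ (1/4 : ℝ)
    have hA1 : 1 ≤ A := Real.one_le_rpow (by linarith) (by norm_num)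
    have a1 : Real.log (10 + 4 * L) ≤ 4 * A := hlogU _ (by linarith)
    have a2 : Real.log (1 + 2 * L) ≤ 4 * A := (hlogU _ (by linarith)).trans
      (mul_le_mul_of_nonneg_left (Real.rpow_le_rpow (by linarith) (by linarith) (by norm_num)) (by norm_num))
    have a3 : (l:ℝ) + 1 ≤ 8 * A := by linarith
    have a4 := mul_le_mul a3 a1 (Real.log_nonneg (by linarith)) (by linarith)
    have a5 : A * A ≤ 4 * Real.sqrt L := (hquart _ h10.le).trans_le hA
    have e : ((J0:ℕ):ℝ) = 1000000 := by norm_num [J0]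
    rw [e]
    nlinarith
  · refine two_pow_le_rpow (by positivity) hX ?_
    rw [Real.log_pow, show (4:ℝ) = 2 ^ 2 by norm_num, Real.log_pow]
    push_cast
    linarith
  · have a2 : Real.log (1 + 2 * L) ≤ 4 * (1 + 2 * L) ^ (1/4 : ℝ) := hlogU _ (by linarith)
    have a3 : (1 + 2 * L) ^ (1/4 : ℝ) ≤ Real.sqrt (10 + 4 * L) := by
      rw [Real.sqrt_eq_rpow]
      exact (Real.rpow_le_rpow (by linarith) (by linarith) (by norm_num)).trans
        (Real.rpow_le_rpow_of_exponent_le (by linarith) (by norm_num))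
    linarith [Real.sqrt_nonneg L]

lemma QBig.facts (hη : 0 < η) (hη1 : η ≤ 1) (h : QBig η q) :
    3 ≤ q ∧ BigQ η q ∧ 2 ≤ (q:ℝ) ^ (η / 12) := by
  unfold QBig at h
  obtain ⟨hs, hs1, -⟩ := sqrt_big hη (show (10 ^ 9 / om η) ^ 2 ≤ Real.log q by
    linarith [sq_nonneg (10 ^ 9 / om η)])
  set L := Real.log (q:ℝ) with hL
  have hom := om_pos hη
  have h1 : (1:ℝ) ≤ (10 ^ 9 / om η) ^ 2 := by
    refine one_le_pow₀ ?_
    rw [le_div_iff₀ hom]; linarith [om_le_one hη hη1]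
  have hL2 : 2 ≤ L := by linarith
  have hq0 : (0:ℝ) < q := by
    rcases Nat.eq_zero_or_pos q with e | e
    · simp [hL, e] at hL2; linarith
    · exact_mod_cast e
  have hq3 : 3 ≤ q := by
    have := Real.add_one_le_exp L
    rw [hL, Real.exp_log hq0] at this
    exact_mod_cast (show (3:ℝ) ≤ q by linarith)
  have hsL : 1 ≤ Real.sqrt L := Real.one_le_sqrt.2 (by linarith)
  have homL : 10 ^ 9 ≤ om η * L := le_trans (le_mul_of_one_le_right (by norm_num) hsL) hs
  have hl2 := Real.log_two_lt_d9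
  refine ⟨hq3, ⟨by omega, ?_, ?_⟩, ?_⟩
  · rw [Real.rpow_def_of_pos hq0, ← Real.exp_log (two_pos : (0:ℝ) < 2)]
    refine Real.exp_lt_exp.2 ?_
    have : om η ≤ bE η - bB η := by unfold om bB bE; linarith
    have := mul_le_mul_of_nonneg_left this (by linarith : 0 ≤ L)
    linarith
  · refine two_pow_le_rpow (by norm_num) hq0 ?_
    rw [show (4:ℝ) = 2 ^ 2 by norm_num, Real.log_pow]
    push_cast
    have : om η ≤ η / 8 := by unfold om bB; linarith
    have := mul_le_mul_of_nonneg_right this (by linarith : 0 ≤ L)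
    linarith
  · refine two_pow_le_rpow (by norm_num) hq0 ?_
    have : om η ≤ η / 12 := by unfold om bB; linarith
    have := mul_le_mul_of_nonneg_right this (by linarith : 0 ≤ L)
    linarith

lemma exists_qbig (η : ℝ) : ∃ Q : ℕ, ∀ q, Q ≤ q → QBig η q := by
  obtain ⟨Q, hQ⟩ := Filter.eventually_atTop.1
    ((Real.tendsto_log_atTop.comp tendsto_natCast_atTop_atTop).eventually_ge_atTop
      (2 * (10 ^ 9 / om η) ^ 2))
  exact ⟨Q, hQ⟩

/-- The index of the band of a denominator. -/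
def nb (q : ℕ) : ℕ := Nat.log 2 (Nat.log 2 q)

/-- The left end of a band. -/
noncomputable def Xn (n : ℕ) : ℝ := (2:ℝ) ^ (2 ^ n : ℕ)

lemma nb_spec (hq : 3 ≤ q) : Xn (nb q) ≤ q ∧ (q:ℝ) < Xn (nb q) ^ (2:ℕ) := by
  have h1 : 1 ≤ Nat.log 2 q := Nat.log_pos one_lt_two (by omega)
  have a1 := Nat.pow_log_le_self 2 (show Nat.log 2 q ≠ 0 by omega)
  have a2 := Nat.lt_pow_succ_log_self (b := 2) one_lt_two (Nat.log 2 q)
  have b1 := Nat.pow_log_le_self 2 (show q ≠ 0 by omega)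
  have b2 := Nat.lt_pow_succ_log_self (b := 2) one_lt_two q
  constructor
  · have : 2 ^ (2 ^ nb q) ≤ q := le_trans (Nat.pow_le_pow_right two_pos a1) b1
    unfold Xn; exact_mod_cast this
  · have : q < (2 ^ (2 ^ nb q)) ^ 2 := by
      rw [← pow_mul, ← pow_succ]
      exact lt_of_lt_of_le b2 (Nat.pow_le_pow_right two_pos a2)
    unfold Xn; exact_mod_cast this

lemma nb_mono (h : q ≤ r) : nb q ≤ nb r := Nat.log_mono_right (Nat.log_mono_right h)

lemma nb_step (hq : 3 ≤ q) (hqr : q ≤ r) (hr : r ≤ q ^ 3) : nb r ≤ nb q + 2 := by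
  obtain ⟨-, h2⟩ := nb_spec hq
  obtain ⟨h3, -⟩ := nb_spec (le_trans hq hqr)
  by_contra h
  push Not at h
  have hr' : (r:ℝ) ≤ (q:ℝ) ^ (3:ℕ) := by exact_mod_cast hr
  have h4 : (Xn (nb q) ^ (2:ℕ)) ^ (3:ℕ) ≤ Xn (nb r) := by
    unfold Xn
    rw [← pow_mul, ← pow_mul]
    refine pow_le_pow_right₀ one_le_two ?_
    have : 2 ^ nb q * 2 ^ 3 ≤ 2 ^ nb r := by
      rw [← pow_add]; exact Nat.pow_le_pow_right two_pos (by omega)
    omega
  have h5 := pow_lt_pow_left₀ h2 (Nat.cast_nonneg q) (show (3:ℕ) ≠ 0 by norm_num)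
  linarith

lemma big_band (hη : 0 < η) (hη1 : η ≤ 1) (h : QBig η q) : Big η (Xn (nb q)) ∧
    30 * (2 + Real.log (1 + 2 * Real.log (Xn (nb q)))) ≤ om η / 2000 * Real.log (Xn (nb q)) := by
  obtain ⟨hq3, -, -⟩ := h.facts hη hη1
  obtain ⟨-, h2⟩ := nb_spec hq3
  have hX : 0 < Xn (nb q) := by unfold Xn; positivity
  refine big_of_log hη hη1 hX ?_
  have hq0 : (0:ℝ) < q := by exact_mod_cast (by omega : 0 < q)
  have := Real.log_le_log hq0 h2.le
  rw [Real.log_pow] at this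
  unfold QBig at h
  push_cast at this
  linarith

end Vale.Agent.P028.Wide
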