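import Vale.Agent.P028.Wide.Cells

namespace Vale.Agent.P028.Wide

open Finset
open scoped Classical

/-- The mass of a set of vertices. -/
noncomputable def mass (μ : ℕ → ℝ) (V : Finset ℕ) : ℝ := ∑ x ∈ V, μ x

/-- The edge mass between two sets of vertices. -/
noncomputable def EE (μ : ℕ → ℝ) (E : Finset (ℕ × ℕ)) (V W : Finset ℕ) : ℝ :=
  ∑ x ∈ E.filter (fun x => x.1 ∈ V ∧ x.2 ∈ W), μ x.1 * μ x.2

/-- The quality of a pair of vertex sets. -/
noncomputable def qual (μ : ℕ → ℝ) (E : Finset (ℕ × ℕ)) (V W : Finset ℕ) : ℝ :=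
  EE μ E V W ^ ee / (mass μ V * mass μ W) ^ (ee - 1)

/-- All members of `V` have the same exponent of `p`. -/
def Fx (p : ℕ) (V : Finset ℕ) : Prop := ∀ x ∈ V, ∀ y ∈ V, x.factorization p = y.factorization p

/-- The common exponent of `p` on `V`. -/
def exV (p : ℕ) (V : Finset ℕ) : ℕ := V.sup (fun x => x.factorization p)

lemma exV_eq {p : ℕ} {V : Finset ℕ} (h : Fx p V) {x : ℕ} (hx : x ∈ V) :
    exV p V = x.factorization p :=
  le_antisymm (Finset.sup_le fun y hy => (h y hy x hx).le)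
    (Finset.le_sup (f := fun x => x.factorization p) hx)

lemma Fx_mono {p : ℕ} {V V' : Finset ℕ} (h : Fx p V) (hsub : V' ⊆ V) : Fx p V' :=
  fun x hx y hy => h x (hsub hx) y (hsub hy)

/-- The exponent of the gain at a prime. -/
noncomputable def th (Fc : Finset ℕ) (p : ℕ) : ℝ := if p ∈ Fc then 1/20 else 199/200

lemma th_pos (Fc : Finset ℕ) (p : ℕ) : 0 < th Fc p := by unfold th; split_ifs <;> norm_num

/-- The bonus of a forced prime. -/
noncomputable def bon (Fc : Finset ℕ) (L : ℝ) (p : ℕ) : ℝ := if p ∈ Fc then L else 1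

/-- The gain collected at the primes with constant exponents. -/
noncomputable def gain (Fc : Finset ℕ) (L : ℝ) (PP V W : Finset ℕ) : ℝ :=
  ∏ p ∈ PP, if Fx p V ∧ Fx p W then bon Fc L p * ((p:ℝ) ^ Nat.dist (exV p V) (exV p W)) ^ th Fc p
    else 1

variable {μ : ℕ → ℝ} {E : Finset (ℕ × ℕ)} {Fc PP : Finset ℕ} {L : ℝ}

lemma one_le_bon (hL : 1 ≤ L) (p : ℕ) : 1 ≤ bon Fc L p := by
  unfold bon; split_ifs <;> linarith

lemma one_le_pow_th {p : ℕ} (hp : 1 ≤ p) (d : ℕ) : (1:ℝ) ≤ ((p:ℝ) ^ d) ^ th Fc p :=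
  Real.one_le_rpow (one_le_pow₀ (by exact_mod_cast hp)) (th_pos Fc p).le

lemma one_le_factor (hL : 1 ≤ L) {p : ℕ} (hp : 1 ≤ p) (V W : Finset ℕ) :
    1 ≤ if Fx p V ∧ Fx p W then bon Fc L p * ((p:ℝ) ^ Nat.dist (exV p V) (exV p W)) ^ th Fc p
      else 1 := by
  split_ifs
  · exact one_le_mul_of_one_le_of_one_le (one_le_bon hL p) (one_le_pow_th hp _)
  · exact le_rfl

lemma one_le_gain (hL : 1 ≤ L) (hPP : ∀ p ∈ PP, 1 ≤ p) (V W : Finset ℕ) :
    1 ≤ gain Fc L PP V W := by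
  unfold gain
  exact Finset.one_le_prod fun p hp => one_le_factor hL (hPP p hp) V W

lemma factor_mono (hL : 1 ≤ L) {p : ℕ} (hp : 1 ≤ p) {V W V' W' : Finset ℕ} (hV : V' ⊆ V) (hW : W' ⊆ W)
    (hVn : V'.Nonempty) (hWn : W'.Nonempty) :
    (if Fx p V ∧ Fx p W then bon Fc L p * ((p:ℝ) ^ Nat.dist (exV p V) (exV p W)) ^ th Fc p else 1)
    ≤ (if Fx p V' ∧ Fx p W' then bon Fc L p * ((p:ℝ) ^ Nat.dist (exV p V') (exV p W')) ^ th Fc p
        else 1) := by
  by_cases h : Fx p V ∧ Fx p W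
  · obtain ⟨x, hx⟩ := hVn
    obtain ⟨y, hy⟩ := hWn
    have h' : Fx p V' ∧ Fx p W' := ⟨Fx_mono h.1 hV, Fx_mono h.2 hW⟩
    rw [if_pos h, if_pos h', exV_eq h.1 (hV hx), exV_eq h.2 (hW hy), exV_eq h'.1 hx, exV_eq h'.2 hy]
  · rw [if_neg h]; exact one_le_factor hL hp V' W'

lemma gain_mono (hL : 1 ≤ L) (hPP : ∀ p ∈ PP, 1 ≤ p) {V W V' W' : Finset ℕ} (hV : V' ⊆ V)
    (hW : W' ⊆ W) (hVn : V'.Nonempty) (hWn : W'.Nonempty) :
    gain Fc L PP V W ≤ gain Fc L PP V' W' :=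
  Finset.prod_le_prod (fun p hp => le_trans zero_le_one (one_le_factor hL (hPP p hp) V W))
    fun p hp => factor_mono hL (hPP p hp) hV hW hVn hWn

lemma mass_nonneg (hμ : ∀ x, 0 ≤ μ x) (V : Finset ℕ) : 0 ≤ mass μ V :=
  Finset.sum_nonneg fun x _ => hμ x

lemma EE_nonneg (hμ : ∀ x, 0 ≤ μ x) (E : Finset (ℕ × ℕ)) (V W : Finset ℕ) : 0 ≤ EE μ E V W :=
  Finset.sum_nonneg fun x _ => mul_nonneg (hμ _) (hμ _)

lemma EE_le_mass (hμ : ∀ x, 0 ≤ μ x) (E : Finset (ℕ × ℕ)) (V W : Finset ℕ) :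
    EE μ E V W ≤ mass μ V * mass μ W := by
  unfold EE mass
  rw [Finset.sum_mul_sum, ← Finset.sum_product']
  refine Finset.sum_le_sum_of_subset_of_nonneg (fun x hx => ?_) (fun x _ _ => mul_nonneg (hμ _) (hμ _))
  obtain ⟨-, h1, h2⟩ := Finset.mem_filter.1 hx
  exact Finset.mem_product.2 ⟨h1, h2⟩

lemma mass_pos_of_EE_pos (hμ : ∀ x, 0 ≤ μ x) {V W : Finset ℕ} (h : 0 < EE μ E V W) :
    0 < mass μ V ∧ 0 < mass μ W := by
  have := h.trans_le (EE_le_mass hμ E V W)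
  rcases eq_or_lt_of_le (mass_nonneg hμ V) with hv | hv
  · rw [← hv, zero_mul] at this; exact absurd this (lt_irrefl 0)
  · exact ⟨hv, pos_of_mul_pos_right this hv.le⟩

lemma nonempty_of_EE_pos (hμ : ∀ x, 0 ≤ μ x) {V W : Finset ℕ} (h : 0 < EE μ E V W) :
    V.Nonempty ∧ W.Nonempty := by
  obtain ⟨hv, hw⟩ := mass_pos_of_EE_pos hμ h
  exact ⟨Finset.nonempty_of_sum_ne_zero hv.ne', Finset.nonempty_of_sum_ne_zero hw.ne'⟩

lemma qual_nonneg (hμ : ∀ x, 0 ≤ μ x) (V W : Finset ℕ) : 0 ≤ qual μ E V W :=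
  div_nonneg (Real.rpow_nonneg (EE_nonneg hμ E V W) _)
    (Real.rpow_nonneg (mul_nonneg (mass_nonneg hμ V) (mass_nonneg hμ W)) _)

lemma qual_pos_iff (hμ : ∀ x, 0 ≤ μ x) {V W : Finset ℕ} : 0 < qual μ E V W ↔ 0 < EE μ E V W := by
  constructor
  · intro h
    rcases eq_or_lt_of_le (EE_nonneg hμ E V W) with e | e
    · rw [qual, ← e, Real.zero_rpow (by norm_num [ee]), zero_div] at h; exact absurd h (lt_irrefl 0)
    · exact e
  · intro h
    obtain ⟨hv, hw⟩ := mass_pos_of_EE_pos hμ h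
    unfold qual; positivity

/-- Solving a comparison of qualities for the edge mass. -/
lemma EE_le_of_qual_le {X Y M N R c : ℝ} (hX : 0 ≤ X) (hY : 0 ≤ Y) (hM : 0 < M) (hN : 0 < N)
    (hR : 0 ≤ R) (hc : 0 < c)
    (h : X ^ ee / (R * (M * N)) ^ (ee - 1) * c ≤ Y ^ ee / (M * N) ^ (ee - 1)) (hXR : R = 0 → X = 0) :
    X ≤ Y * R ^ sg * (c⁻¹) ^ (1 / ee) := by
  rcases eq_or_lt_of_le hR with e | hR'
  · rw [hXR e.symm]; positivity
  have he : 0 < ee := by norm_num [ee]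
  rw [Real.mul_rpow hR (by positivity)] at h
  have h' : X ^ ee ≤ Y ^ ee * R ^ (ee - 1) * c⁻¹ := by
    rw [le_div_iff₀ (by positivity), div_mul_eq_mul_div, div_mul_eq_mul_div, div_le_iff₀ (by positivity)] at h
    rw [← div_eq_mul_inv, le_div_iff₀ hc]
    exact le_of_mul_le_mul_right (le_of_le_of_eq h (by ring)) (by positivity : 0 < (M * N) ^ (ee - 1))
  have h2 := Real.rpow_le_rpow (by positivity) h' (by positivity : 0 ≤ 1 / ee)
  rw [← Real.rpow_mul hX, mul_one_div_cancel he.ne', Real.rpow_one, Real.mul_rpow (by positivity) (by positivity),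
    Real.mul_rpow (by positivity) (by positivity), ← Real.rpow_mul hY, mul_one_div_cancel he.ne',
    Real.rpow_one, ← Real.rpow_mul hR] at h2
  rwa [show (ee - 1) * (1 / ee) = sg by norm_num [ee, sg]] at h2

lemma EE_zero_of_mass_zero (hμ : ∀ x, 0 ≤ μ x) {V W : Finset ℕ} (h : mass μ V * mass μ W = 0) :
    EE μ E V W = 0 :=
  le_antisymm (h ▸ EE_le_mass hμ E V W) (EE_nonneg hμ E V W)

lemma inv_pow_th {x : ℝ} (hx : 0 < x) {d : ℕ} {t : ℝ} :
    (((x ^ d) ^ t)⁻¹) ^ (1 / ee) = (x ^ (-(t / ee))) ^ d := by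
  have h : ((x ^ d) ^ t)⁻¹ = x ^ (-((d:ℝ) * t)) := by
    rw [Real.rpow_neg hx.le, Real.rpow_mul hx.le, Real.rpow_natCast]
  rw [h, ← Real.rpow_mul hx.le, ← Real.rpow_natCast (x ^ (-(t / ee))) d, ← Real.rpow_mul hx.le]
  congr 1; ring

/-- The members of `V` with a given exponent of `p`. -/
def cellV (p : ℕ) (V : Finset ℕ) (i : ℕ) : Finset ℕ := V.filter (fun x => x.factorization p = i)

lemma cellV_subset (p : ℕ) (V : Finset ℕ) (i : ℕ) : cellV p V i ⊆ V := Finset.filter_subset _ _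

lemma Fx_cellV (p : ℕ) (V : Finset ℕ) (i : ℕ) : Fx p (cellV p V i) := fun x hx y hy => by
  rw [(Finset.mem_filter.1 hx).2, (Finset.mem_filter.1 hy).2]

/-- The cell inequality at a maximal state. -/
lemma cell_le (hμ : ∀ x, 0 ≤ μ x) (hL : 1 ≤ L) (hPP : ∀ p ∈ PP, 1 ≤ p) {V W : Finset ℕ}
    (hpos : 0 < EE μ E V W)
    (hmax : ∀ V' W', V' ⊆ V → W' ⊆ W →
      qual μ E V' W' * gain Fc L PP V' W' ≤ qual μ E V W * gain Fc L PP V W)
    {p : ℕ} (hp : p ∈ PP) (hnf : ¬ (Fx p V ∧ Fx p W)) (i j : ℕ) :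
    EE μ E (cellV p V i) (cellV p W j) ≤ EE μ E V W
      * ((mass μ (cellV p V i) / mass μ V) * (mass μ (cellV p W j) / mass μ W)) ^ sg
      * ((bon Fc L p)⁻¹ ^ (1 / ee) * ((p:ℝ) ^ (-(th Fc p / ee))) ^ Nat.dist i j) := by
  obtain ⟨hMV, hMW⟩ := mass_pos_of_EE_pos hμ hpos
  have hp0 : (0:ℝ) < p := by exact_mod_cast hPP p hp
  have hbon : 0 < bon Fc L p := lt_of_lt_of_le one_pos (one_le_bon hL p)
  set V' := cellV p V i with hV'
  set W' := cellV p W j with hW'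
  rcases eq_or_lt_of_le (EE_nonneg hμ E V' W') with h0 | h0
  · rw [← h0]
    have := mass_nonneg hμ V'; have := mass_nonneg hμ W'
    positivity
  obtain ⟨⟨x, hx⟩, ⟨y, hy⟩⟩ := nonempty_of_EE_pos hμ h0
  set c := bon Fc L p * ((p:ℝ) ^ Nat.dist i j) ^ th Fc p with hc
  have hcpos : 0 < c := by positivity
  have hg : gain Fc L PP V W * c ≤ gain Fc L PP V' W' := by
    unfold gain
    rw [← Finset.mul_prod_erase PP _ hp, if_neg hnf, one_mul, ← Finset.mul_prod_erase PP _ hp,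
      if_pos ⟨Fx_cellV p V i, Fx_cellV p W j⟩, exV_eq (Fx_cellV p V i) hx, exV_eq (Fx_cellV p W j) hy,
      (Finset.mem_filter.1 hx).2, (Finset.mem_filter.1 hy).2, mul_comm, ← hc]
    exact mul_le_mul_of_nonneg_left (Finset.prod_le_prod
      (fun q hq => le_trans zero_le_one (one_le_factor hL (hPP q (Finset.mem_of_mem_erase hq)) V W))
      fun q hq => factor_mono hL (hPP q (Finset.mem_of_mem_erase hq)) (cellV_subset p V i)
        (cellV_subset p W j) ⟨x, hx⟩ ⟨y, hy⟩) hcpos.le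
  have hq : qual μ E V' W' * c ≤ qual μ E V W := by
    refine le_of_mul_le_mul_right ?_ (lt_of_lt_of_le one_pos (one_le_gain hL hPP V W) : 0 < gain Fc L PP V W)
    refine le_trans ?_ (hmax V' W' (cellV_subset p V i) (cellV_subset p W j))
    rw [mul_assoc, mul_comm c]
    exact mul_le_mul_of_nonneg_left hg (qual_nonneg hμ V' W')
  have hR : 0 ≤ (mass μ V' / mass μ V) * (mass μ W' / mass μ W) :=
    mul_nonneg (div_nonneg (mass_nonneg hμ _) hMV.le) (div_nonneg (mass_nonneg hμ _) hMW.le)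
  have e : (mass μ V' / mass μ V) * (mass μ W' / mass μ W) * (mass μ V * mass μ W)
      = mass μ V' * mass μ W' := by field_simp
  have h := EE_le_of_qual_le (X := EE μ E V' W') (Y := EE μ E V W) h0.le hpos.le hMV hMW hR hcpos
    (by rw [e]; exact hq) (fun hz => EE_zero_of_mass_zero hμ (by rw [← e, hz, zero_mul]))
  refine h.trans (le_of_eq ?_)
  rw [hc, mul_inv, Real.mul_rpow (inv_nonneg.2 hbon.le) (inv_nonneg.2 (by positivity)),
    inv_pow_th hp0]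

lemma cellV_mass_sum (μ : ℕ → ℝ) (p : ℕ) {V : Finset ℕ} {I : Finset ℕ}
    (h : ∀ x ∈ V, x.factorization p ∈ I) : ∑ i ∈ I, mass μ (cellV p V i) = mass μ V :=
  Finset.sum_fiberwise_of_maps_to h μ

lemma EE_cells (μ : ℕ → ℝ) (E : Finset (ℕ × ℕ)) (p : ℕ) {V W I : Finset ℕ}
    (hV : ∀ x ∈ V, x.factorization p ∈ I) (hW : ∀ x ∈ W, x.factorization p ∈ I) :
    EE μ E V W = ∑ i ∈ I, ∑ j ∈ I, EE μ E (cellV p V i) (cellV p W j) := by
  unfold EE
  rw [← Finset.sum_product', ← Finset.sum_fiberwise_of_maps_to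
    (g := fun x : ℕ × ℕ => (x.1.factorization p, x.2.factorization p)) (t := I ×ˢ I)
    (fun x hx => by
      obtain ⟨-, h1, h2⟩ := Finset.mem_filter.1 hx
      exact Finset.mem_product.2 ⟨hV _ h1, hW _ h2⟩)]
  refine Finset.sum_congr rfl fun z _ => Finset.sum_congr ?_ fun _ _ => rfl
  ext x
  simp only [Finset.mem_filter, cellV, Prod.ext_iff]
  tauto

end Vale.Agent.P028.Wide
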