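import Vale.Agent.P028.Overlap

namespace Vale.Agent.P028.Wide

open Finset MeasureTheory
open scoped Classical

/-- The exponent bounding the denominator of an exceptional fraction. -/
noncomputable def bB (η : ℝ) : ℝ := η / 6400

/-- The exponent bounding the error of an exceptional fraction. -/
noncomputable def bE (η : ℝ) : ℝ := η / 64

lemma bB_pos {η : ℝ} (h : 0 < η) : 0 < bB η := by unfold bB; positivity

lemma bE_pos {η : ℝ} (h : 0 < η) : 0 < bE η := by unfold bE; positivity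

/-- A reduced fraction that is exceptionally close to `γ` at the scale `q`. -/
def IsStar (η γ : ℝ) (q : ℕ) (x : ℕ × ℤ) : Prop :=
  1 ≤ x.1 ∧ IsCoprime (x.1:ℤ) x.2 ∧ (x.1:ℝ) ≤ (q:ℝ) ^ bB η ∧ |(x.1:ℝ) * γ - x.2| ≤ (q:ℝ) ^ (-bE η)

/-- The exceptional fraction at the scale `q`, or `0/1`. -/
noncomputable def star (η γ : ℝ) (q : ℕ) : ℕ × ℤ :=
  if h : ∃ x, IsStar η γ q x then h.choose else (1, 0)

lemma star_spec (η γ : ℝ) (q : ℕ) :
    1 ≤ (star η γ q).1 ∧ IsCoprime ((star η γ q).1:ℤ) (star η γ q).2 := by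
  unfold star
  split_ifs with h
  · exact ⟨h.choose_spec.1, h.choose_spec.2.1⟩
  · exact ⟨le_rfl, by simpa using (isCoprime_one_left : IsCoprime (1:ℤ) 0)⟩

lemma frac_unique {γ : ℝ} {B B' : ℕ} {A A' : ℤ} (hB : 1 ≤ B) (hc : IsCoprime (B:ℤ) A)
    (hc' : IsCoprime (B':ℤ) A') {D e : ℝ} (hBD : (B:ℝ) ≤ D) (hBD' : (B':ℝ) ≤ D)
    (he : |(B:ℝ) * γ - A| ≤ e) (he' : |(B':ℝ) * γ - A'| ≤ e) (hsmall : 2 * D * e < 1) :
    ((B, A) : ℕ × ℤ) = (B', A') := by
  have hD : 0 ≤ D := le_trans (Nat.cast_nonneg _) hBD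
  have key : |(B:ℤ) * A' - (B':ℤ) * A| < 1 := by
    have h : |((((B:ℤ) * A' - (B':ℤ) * A : ℤ)) : ℝ)| < 1 := by
      push_cast
      rw [show (B:ℝ) * A' - (B':ℝ) * A = (B':ℝ) * ((B:ℝ) * γ - A) - (B:ℝ) * ((B':ℝ) * γ - A') by ring]
      refine lt_of_le_of_lt (abs_sub _ _) ?_
      rw [abs_mul, abs_mul, Nat.abs_cast, Nat.abs_cast]
      have h1 := mul_le_mul hBD' he (abs_nonneg _) hD
      have h2 := mul_le_mul hBD he' (abs_nonneg _) hD
      linarith
    exact_mod_cast h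
  have heq : (B:ℤ) * A' = (B':ℤ) * A := by
    have := Int.abs_lt_one_iff.1 key
    linarith
  have d1 : (B:ℤ) ∣ (B':ℤ) := hc.dvd_of_dvd_mul_right ⟨A', by rw [heq]⟩
  have d2 : (B':ℤ) ∣ (B:ℤ) := hc'.dvd_of_dvd_mul_right ⟨A, by rw [heq]⟩
  have e1 : B = B' := Nat.dvd_antisymm (Int.natCast_dvd_natCast.1 d1) (Int.natCast_dvd_natCast.1 d2)
  subst e1
  have e2 : A' = A := mul_left_cancel₀ (by exact_mod_cast (by omega : B ≠ 0)) heq
  rw [e2]

lemma star_eq {η γ : ℝ} {q : ℕ} (hq : 1 ≤ q) (hbig : 2 < (q:ℝ) ^ (bE η - bB η)) {x : ℕ × ℤ}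
    (hx : IsStar η γ q x) : star η γ q = x := by
  have hex : ∃ x, IsStar η γ q x := ⟨x, hx⟩
  have hy : IsStar η γ q (star η γ q) := by
    unfold star; rw [dif_pos hex]; exact hex.choose_spec
  set y := star η γ q
  obtain ⟨hx1, hxc, hxB, hxe⟩ := hx
  obtain ⟨hy1, hyc, hyB, hye⟩ := hy
  have hq0 : (0:ℝ) < q := by exact_mod_cast hq
  refine frac_unique hy1 hyc hxc hyB hxB hye hxe ?_
  rw [mul_assoc, ← Real.rpow_add hq0, show bB η + -bE η = -(bE η - bB η) by ring, Real.rpow_neg hq0.le,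
    ← div_eq_mul_inv, div_lt_one (by linarith)]
  exact hbig

/-- A fraction that is exceptional at every scale between `X` and `X ^ 8`. -/
def BandFrac (η γ X : ℝ) (x : ℕ × ℤ) : Prop :=
  1 ≤ x.1 ∧ IsCoprime (x.1:ℤ) x.2 ∧ (x.1:ℝ) ≤ X ^ bB η ∧ |(x.1:ℝ) * γ - x.2| ≤ X ^ (-(8 * bE η))

lemma band_star {η γ X : ℝ} (hη : 0 < η) (hX : 1 ≤ X) {x : ℕ × ℤ} (hx : BandFrac η γ X x) {q : ℕ}
    (hq : X ≤ q) (hq' : (q:ℝ) ≤ X ^ (8:ℕ)) (hbig : 2 < (q:ℝ) ^ (bE η - bB η)) : star η γ q = x := by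
  have hq1 : 1 ≤ q := by exact_mod_cast le_trans hX hq
  refine star_eq hq1 hbig ⟨hx.1, hx.2.1, hx.2.2.1.trans ?_, hx.2.2.2.trans ?_⟩
  · exact Real.rpow_le_rpow (by linarith) hq (bB_pos hη).le
  · rw [Real.rpow_neg (by linarith), Real.rpow_neg (Nat.cast_nonneg _)]
    have hq0 : (0:ℝ) < q := by exact_mod_cast hq1
    refine inv_anti₀ (Real.rpow_pos_of_pos hq0 _) ?_
    rw [show (8:ℝ) * bE η = ((8:ℕ):ℝ) * bE η by norm_num, Real.rpow_mul (by linarith), Real.rpow_natCast]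
    exact Real.rpow_le_rpow hq0.le hq' (bE_pos hη).le

lemma band_options {η : ℝ} (hη : 0 < η) (γ : ℝ) {X : ℝ} (hX : 1 ≤ X)
    (hbig : 2 < X ^ (bE η - 8 * bB η)) :
    ∃ x1 : ℕ × ℤ, ∀ q : ℕ, X ≤ q → (q:ℝ) ≤ X ^ (8:ℕ) → star η γ q = (1, 0) ∨ star η γ q = x1 := by
  by_cases h : ∃ q : ℕ, X ≤ q ∧ (q:ℝ) ≤ X ^ (8:ℕ) ∧ ∃ x, IsStar η γ q x
  · obtain ⟨q0, h0, h0', hx0⟩ := h
    refine ⟨star η γ q0, fun q hq hq' => ?_⟩
    by_cases hx : ∃ x, IsStar η γ q x
    swap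
    · exact Or.inl (dif_neg hx)
    refine Or.inr ?_
    have hs : ∀ r : ℕ, X ≤ r → (r:ℝ) ≤ X ^ (8:ℕ) → (∃ x, IsStar η γ r x) →
        ((star η γ r).1:ℝ) ≤ X ^ (8 * bB η) ∧
        |((star η γ r).1:ℝ) * γ - (star η γ r).2| ≤ X ^ (-bE η) := by
      intro r hr hr' hex
      have hy : IsStar η γ r (star η γ r) := by
        unfold star; rw [dif_pos hex]; exact hex.choose_spec
      refine ⟨hy.2.2.1.trans ?_, hy.2.2.2.trans ?_⟩
      · rw [show (8:ℝ) * bB η = ((8:ℕ):ℝ) * bB η by norm_num, Real.rpow_mul (by linarith), Real.rpow_natCast]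
        exact Real.rpow_le_rpow (Nat.cast_nonneg _) hr' (bB_pos hη).le
      · exact Real.rpow_le_rpow_of_nonpos (by linarith) hr (by linarith [bE_pos hη])
    obtain ⟨a1, a2⟩ := hs q hq hq' hx
    obtain ⟨b1, b2⟩ := hs q0 h0 h0' hx0
    refine frac_unique (star_spec η γ q).1 (star_spec η γ q).2 (star_spec η γ q0).2 a1 b1 a2 b2 ?_
    rw [mul_assoc, ← Real.rpow_add (by linarith : 0 < X),
      show 8 * bB η + -bE η = -(bE η - 8 * bB η) by ring, Real.rpow_neg (by linarith),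
      ← div_eq_mul_inv, div_lt_one (by linarith)]
    exact hbig
  · push Not at h
    exact ⟨(1, 0), fun q hq hq' => Or.inl (dif_neg fun ⟨x, hx⟩ => h q hq hq' x hx)⟩

lemma exists_cls (x : ℕ × ℤ) (p : ℕ) (hp : p.Prime) (hB : ¬ (p:ℤ) ∣ (x.1:ℤ)) :
    ∃ c : ℤ, (p:ℤ) ∣ x.2 + c * x.1 := by
  obtain ⟨u, v, huv⟩ := (Nat.prime_iff_prime_int.1 hp).coprime_iff_not_dvd.2 hB
  exact ⟨-x.2 * v, ⟨x.2 * u, by linear_combination -x.2 * huv⟩⟩

/-- The residue class modulo `p` attached to a fraction. -/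
noncomputable def cls (x : ℕ × ℤ) (p : ℕ) : ℤ :=
  if h : p.Prime ∧ ¬ (p:ℤ) ∣ (x.1:ℤ) then (exists_cls x p h.1 h.2).choose else 0

lemma cls_spec {x : ℕ × ℤ} {p : ℕ} (hp : p.Prime) (hB : ¬ (p:ℤ) ∣ (x.1:ℤ)) :
    (p:ℤ) ∣ x.2 + cls x p * x.1 := by
  unfold cls
  rw [dif_pos ⟨hp, hB⟩]
  exact (exists_cls x p hp hB).choose_spec

lemma cls_zero {x : ℕ × ℤ} {p : ℕ} (hB : (p:ℤ) ∣ (x.1:ℤ)) : cls x p = 0 := by
  unfold cls
  rw [dif_neg fun h => h.2 hB]

/-- The class removed modulo `p` at the scale `q`. -/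
noncomputable def base (η γ : ℝ) (q p : ℕ) : ℤ := cls (star η γ q) p

lemma base_kill {η γ : ℝ} {q p : ℕ} (hp : p.Prime) {b : ℤ}
    (h : (p:ℤ) ∣ (star η γ q).2 + b * (star η γ q).1) : (p:ℤ) ∣ b - base η γ q p := by
  have hpz : Prime (p:ℤ) := Nat.prime_iff_prime_int.1 hp
  have hB : ¬ (p:ℤ) ∣ ((star η γ q).1:ℤ) := fun hd => by
    have h2 : (p:ℤ) ∣ (star η γ q).2 := (Int.dvd_add_left (hd.mul_left b)).1 h
    exact hpz.not_isUnit ((star_spec η γ q).2.isUnit_of_dvd' hd h2)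
  have hc := cls_spec (x := star η γ q) hp hB
  have h3 : (p:ℤ) ∣ (b - base η γ q p) * (star η γ q).1 := by
    have := Int.dvd_sub h hc
    have e : (star η γ q).2 + b * (star η γ q).1 - ((star η γ q).2 + base η γ q p * (star η γ q).1)
        = (b - base η γ q p) * (star η γ q).1 := by ring
    rw [← e]; exact this
  exact (hpz.dvd_or_dvd h3).resolve_right hB

/-- The selected numerators in `[0, q)`. -/
noncomputable def Eset (η γ : ℝ) (q : ℕ) : Finset ℤ :=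
  (Finset.Ico 0 (q:ℤ)).filter (Avoid q.primeFactors (base η γ q))

lemma mem_Eset {η γ : ℝ} {q : ℕ} {a : ℤ} :
    a ∈ Eset η γ q ↔ (0 ≤ a ∧ a < q) ∧ Avoid q.primeFactors (base η γ q) a := by
  simp [Eset]

lemma card_Eset {q : ℕ} (η γ : ℝ) (hq : 0 < q) : ((Eset η γ q).card : ℝ) = q * lam q := by
  have hP : ∀ p ∈ q.primeFactors, p.Prime := fun p hp => Nat.prime_of_mem_primeFactors hp
  have h := (interval_avoid 0 (q:ℤ) (Nat.cast_nonneg q) q.primeFactors hP (base η γ q)).2 (fun T hT => by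
    rw [sub_zero, Int.natCast_dvd_natCast, prod_dvd_iff_forall T (fun p hp => hP p (hT hp))]
    exact fun p hp => Nat.dvd_of_mem_primeFactors (hT hp))
  unfold Eset
  rw [h, lam_eq_prod hq]
  push_cast; ring

lemma window_eventually {L : ℝ} (hL : 0 < L) : ∃ Q : ℕ, ∀ (η γ : ℝ) (q : ℕ), Q ≤ q → ∀ u v : ℤ,
    0 ≤ u → v ≤ q → L * q ≤ (v:ℝ) - u →
    ((v:ℝ) - u) * lam q / 2 ≤ (((Eset η γ q).filter (fun a => u ≤ a ∧ a < v)).card : ℝ) := by
  obtain ⟨M, hM⟩ := exists_nat_ge (((400 / L) ^ 2) ^ 2)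
  refine ⟨max M 2, fun η γ q hq u v hu hv hlen => ?_⟩
  have hq2 : 2 ≤ q := le_trans (le_max_right _ _) hq
  have hqr : (2:ℝ) ≤ q := by exact_mod_cast hq2
  have hMq : (M:ℝ) ≤ q := by exact_mod_cast le_trans (le_max_left _ _) hq
  set len := (v:ℝ) - u
  have hlen0 : 0 < len := lt_of_lt_of_le (by positivity) hlen
  have huv : u ≤ v := by
    have : (u:ℝ) ≤ v := by simp only [len] at hlen0; linarith
    exact_mod_cast this
  have hP : ∀ p ∈ q.primeFactors, p.Prime := fun p hp => Nat.prime_of_mem_primeFactors hp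
  have heq : (Eset η γ q).filter (fun a => u ≤ a ∧ a < v)
      = (Finset.Ico u v).filter (Avoid q.primeFactors (base η γ q)) := by
    ext a
    simp only [Finset.mem_filter, mem_Eset, Finset.mem_Ico]
    exact ⟨fun h => ⟨h.2, h.1.2⟩, fun h => ⟨⟨⟨by omega, by omega⟩, h.2⟩, h.1⟩⟩
  rw [heq]
  have h := (abs_le.1 (interval_avoid u v huv q.primeFactors hP (base η γ q)).1).1
  rw [← lam_eq_prod (by omega)] at h
  have h2 := two_pow_card_le (q := q) (by omega)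
  suffices 4 * Real.sqrt q ≤ len * lam q / 2 by linarith
  set r := Real.sqrt (Real.sqrt (q:ℝ))
  have hr2 : r ^ 2 = Real.sqrt q := Real.sq_sqrt (Real.sqrt_nonneg _)
  have hr4 : r ^ 4 = q := by
    rw [show r ^ 4 = (r ^ 2) ^ 2 by ring, hr2, Real.sq_sqrt (by linarith)]
  have hrM : 400 / L ≤ r := by
    apply Real.le_sqrt_of_sq_le
    apply Real.le_sqrt_of_sq_le
    linarith
  have hr1 : 1 ≤ r := by rw [Real.one_le_sqrt, Real.one_le_sqrt]; linarith
  have hω : (q.primeFactors.card : ℝ) + 1 ≤ 9 * r := by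
    have h := card_primeFactors_le_log q (by omega)
    have hl := Real.log_le_self (by linarith : 0 ≤ r)
    have e : Real.log (q:ℝ) = 4 * Real.log r := by rw [← hr4, Real.log_pow]; norm_num
    have := Real.log_two_gt_d9
    have : (0:ℝ) ≤ q.primeFactors.card := Nat.cast_nonneg _
    nlinarith
  have hlam : 1 / (9 * r) ≤ lam q :=
    le_trans (one_div_le_one_div_of_le (by positivity) hω) (lam_ge_card (by omega))
  rw [← hr2]
  have h5 : L * r ^ 4 * (1 / (9 * r)) ≤ len * lam q :=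
    mul_le_mul (by rw [hr4]; exact hlen) hlam (by positivity) hlen0.le
  have h6 : L * r ^ 4 * (1 / (9 * r)) = (L * r) * r ^ 2 / 9 := by field_simp
  have h7 : 400 ≤ L * r := by rw [div_le_iff₀ hL] at hrM; linarith
  have := mul_le_mul_of_nonneg_right h7 (sq_nonneg r)
  linarith [sq_nonneg r]

/-- The selected approximation set for the denominator `q`. -/
noncomputable def SSet (η γ : ℝ) (ψ : ℕ → ℝ) (q : ℕ) : Set ℝ := ⋃ a ∈ Eset η γ q, J γ ψ q a

lemma measurableSet_SSet (η γ : ℝ) (ψ : ℕ → ℝ) (q : ℕ) : MeasurableSet (SSet η γ ψ q) :=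
  Finset.measurableSet_biUnion _ fun _ _ => measurableSet_Ioo

lemma SSet_finite (η γ : ℝ) (ψ : ℕ → ℝ) (q : ℕ) : volume (SSet η γ ψ q) ≠ ⊤ :=
  ((measure_biUnion_finset_le _ _).trans_lt
    (ENNReal.sum_lt_top.2 fun a _ => (J_finite γ ψ q a).lt_top)).ne

lemma volume_real_SSet {η γ : ℝ} {ψ : ℕ → ℝ} {q : ℕ} (hq : 0 < q) (hψ0 : 0 ≤ ψ q) (hψ : 2 * ψ q ≤ 1) :
    volume.real (SSet η γ ψ q) = 2 * lam q * ψ q := by
  rw [SSet, measureReal_biUnion_finset (J_disjoint hq hψ _) (fun _ _ => measurableSet_Ioo)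
    (fun a _ => J_finite γ ψ q a), Finset.sum_congr rfl (fun a _ => volume_real_J hψ0 a),
    Finset.sum_const, nsmul_eq_mul, card_Eset η γ hq]
  have : (q:ℝ) ≠ 0 := by positivity
  field_simp

/-- In every subinterval of the unit interval the selected set has the expected size. -/
lemma cell_lower (η γ : ℝ) {α β : ℝ} (hα : 0 ≤ α) (hαβ : α < β) (hβ : β ≤ 1) :
    ∃ Q : ℕ, ∀ (ψ : ℕ → ℝ) (q : ℕ), Q ≤ q → 0 ≤ ψ q → 2 * ψ q ≤ 1 →
      lam q * ψ q * (β - α) / 2 ≤ volume.real (SSet η γ ψ q ∩ Set.Ico α β) := by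
  obtain ⟨Q, hQ⟩ := window_eventually (L := (β - α) / 2) (by linarith)
  obtain ⟨M, hM⟩ := exists_nat_ge ((4 * |γ| + 8) / (β - α))
  refine ⟨max (max Q M) 1, fun ψ q hq hψ0 hψ => ?_⟩
  have hq1 : 1 ≤ q := le_trans (le_max_right _ _) hq
  have hqr : (1:ℝ) ≤ q := by exact_mod_cast hq1
  have hbig : 4 * |γ| + 8 ≤ (β - α) * q := by
    have h1 : (M:ℝ) ≤ q := by
      exact_mod_cast le_trans (le_trans (le_max_right _ _) (le_max_left _ _)) hq
    have := (div_le_iff₀ (by linarith : (0:ℝ) < β - α)).1 hM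
    nlinarith
  set u : ℤ := max 0 ⌈α * q - γ + 1⌉ with hu
  set v : ℤ := min (q:ℤ) ⌊β * q - γ - 1⌋ with hv
  have hlen : (β - α) / 2 * q ≤ (v:ℝ) - u := by
    have h1 : (u:ℝ) ≤ α * q + |γ| + 2 := by
      rw [hu]; push_cast
      have := Int.ceil_lt_add_one (α * q - γ + 1)
      have := neg_abs_le γ
      refine max_le ?_ ?_
      · have : 0 ≤ α * q := by positivity
        have := abs_nonneg γ
        linarith
      · linarith
    have h2 : β * q - |γ| - 2 ≤ (v:ℝ) := by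
      rw [hv]; push_cast
      have := Int.sub_one_lt_floor (β * q - γ - 1)
      have := le_abs_self γ
      refine le_min ?_ ?_
      · have : β * q ≤ q := mul_le_of_le_one_left (by linarith) hβ
        have := abs_nonneg γ
        linarith
      · linarith
    linarith
  have hcount := hQ η γ q (le_trans (le_trans (le_max_left _ _) (le_max_left _ _)) hq) u v
    (le_max_left _ _) (min_le_left _ _) hlen
  set G := (Eset η γ q).filter (fun a => u ≤ a ∧ a < v)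
  have hsub : (⋃ a ∈ G, J γ ψ q a) ⊆ SSet η γ ψ q ∩ Set.Ico α β := by
    refine Set.iUnion₂_subset fun a ha x hx => ⟨?_, ?_⟩
    · exact Set.mem_biUnion (Finset.mem_filter.1 ha).1 hx
    · obtain ⟨h1, h2⟩ := (Finset.mem_filter.1 ha).2
      rw [mem_J hq1, abs_lt] at hx
      have e1 : α * q - γ + 1 ≤ (a:ℝ) := Int.ceil_le.1 (le_trans (le_max_right _ _) h1)
      have e2 : (a:ℝ) ≤ β * q - γ - 1 := Int.le_floor.1 (le_trans h2.le (min_le_right _ _))
      constructor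
      · by_contra hlt
        have := mul_lt_mul_of_pos_right (not_le.1 hlt) (by linarith : (0:ℝ) < q)
        linarith
      · by_contra hlt
        have := mul_le_mul_of_nonneg_right (not_lt.1 hlt) (by linarith : (0:ℝ) ≤ q)
        linarith
  refine le_trans ?_ (measureReal_mono hsub
    (measure_ne_top_of_subset Set.inter_subset_left (SSet_finite η γ ψ q)))
  rw [measureReal_biUnion_finset (J_disjoint hq1 hψ _) (fun _ _ => measurableSet_Ioo)
    (fun a _ => J_finite γ ψ q a), Finset.sum_congr rfl (fun a _ => volume_real_J hψ0 a),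
    Finset.sum_const, nsmul_eq_mul]
  refine le_trans ?_ (mul_le_mul_of_nonneg_right hcount (by positivity))
  calc lam q * ψ q * (β - α) / 2 = lam q * ψ q / q * ((β - α) / 2 * q) := by
        field_simp
    _ ≤ lam q * ψ q / q * ((v:ℝ) - u) :=
        mul_le_mul_of_nonneg_left hlen (by have := lam_nonneg q; positivity)
    _ = _ := by ring

end Vale.Agent.P028.Wide
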