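import Vale.Agent.P028.Wide.Quality
import Vale.Agent.P028.Overlap

namespace Vale.Agent.P028.Wide

open Finset
open scoped Classical

/-- The exponent of the loss at a generic prime. -/
noncomputable def lossExp : ℝ := 199/200 / ee * (51/25)

lemma lossExp_gt : 1 < lossExp := by norm_num [lossExp, ee]

lemma graph_constants : ∃ (P0 : ℕ) (L : ℝ), 2 ≤ P0 ∧ 1 ≤ L ∧
    (∀ ρ : ℝ, 0 ≤ ρ → ρ ≤ (2:ℝ) ^ (-(1/20 / ee)) → 2 / (1 - ρ) * L⁻¹ ^ (1 / ee) < 1) ∧
    ∃ ρ0 C : ℝ, (∀ (ρ : ℝ), 0 ≤ ρ → ρ ≤ ρ0 →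
      ∀ (I : Finset ℕ) (a b : ℕ → ℝ), (∀ i, 0 ≤ a i) → (∀ j, 0 ≤ b j) →
        ∑ i ∈ I, a i = 1 → ∑ i ∈ I, b i = 1 →
        1 ≤ ∑ i ∈ I, ∑ j ∈ I, (a i * b j) ^ sg * ρ ^ Nat.dist i j →
        ∃ i0 ∈ I, ∀ S : Finset (ℕ × ℕ), S ⊆ I ×ˢ I → (∀ x ∈ S, ¬ AllowedCell i0 x.1 x.2) →
          ∑ x ∈ S, (a x.1 * b x.2) ^ sg * ρ ^ Nat.dist x.1 x.2 ≤ C * ρ ^ (51/25 : ℝ)) ∧
      (∀ p : ℕ, P0 ≤ p → (p:ℝ) ^ (-(199/200 / ee)) ≤ ρ0) ∧
      (∀ S : Finset ℕ, (∀ p ∈ S, P0 ≤ p) → ∑ p ∈ S, C * ((p:ℝ) ^ (-(199/200 / ee))) ^ (51/25 : ℝ) ≤ 1/2) := by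
  obtain ⟨ρ0, C, hρ0, hC, hcon⟩ := concentrated
  have hee : 0 < ee := by norm_num [ee]
  set ρF := (2:ℝ) ^ (-(1/20 / ee)) with hρF
  have hρF1 : ρF < 1 := Real.rpow_lt_one_of_one_lt_of_neg (by norm_num) (by norm_num [ee])
  set CF := 2 / (1 - ρF) with hCF
  have hCF0 : 0 < CF := div_pos (by norm_num) (by linarith)
  have hsum : Summable (fun p : ℕ => C * (p:ℝ) ^ (-lossExp)) :=
    (Real.summable_nat_rpow.2 (by linarith [lossExp_gt])).mul_left C
  obtain ⟨s, hs⟩ := hsum.vanishing (Iio_mem_nhds (by norm_num : (0:ℝ) < 1/2))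
  have hlim : Filter.Tendsto (fun p : ℕ => (p:ℝ) ^ (-(199/200 / ee))) Filter.atTop (nhds 0) :=
    (tendsto_rpow_neg_atTop (by norm_num [ee])).comp tendsto_natCast_atTop_atTop
  obtain ⟨N1, hN1⟩ := Filter.eventually_atTop.1 (hlim.eventually (ge_mem_nhds hρ0))
  refine ⟨max (max N1 (s.sup id + 1)) 2, (CF + 1) ^ ee, le_max_right _ _,
    Real.one_le_rpow (by linarith) hee.le, fun ρ hρ hρle => ?_, ρ0, C, hcon, fun p hp => ?_, fun S hS => ?_⟩
  · have hC1 : 0 ≤ CF + 1 := by linarith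
    rw [Real.inv_rpow (Real.rpow_nonneg hC1 _), ← Real.rpow_mul hC1, mul_one_div_cancel hee.ne',
      Real.rpow_one, ← div_eq_mul_inv, div_lt_one (by linarith)]
    refine lt_of_le_of_lt ?_ (lt_add_one CF)
    exact div_le_div_of_nonneg_left (by norm_num) (by linarith) (by linarith)
  · exact hN1 p (le_trans (le_trans (le_max_left _ _) (le_max_left _ _)) hp)
  · have h : Disjoint S s := Finset.disjoint_left.2 fun p hp hps => by
      have h1 := hS p hp
      have h2 : p ≤ s.sup id := Finset.le_sup (f := id) hps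
      have : s.sup id + 1 ≤ p := le_trans (le_trans (le_max_right _ _) (le_max_left _ _)) h1
      omega
    have h2 := le_of_lt (Set.mem_Iio.1 (hs S h))
    refine le_trans (le_of_eq (Finset.sum_congr rfl fun p _ => ?_)) h2
    rw [← Real.rpow_mul (Nat.cast_nonneg p)]
    congr 2
    unfold lossExp; ring

variable {μ : ℕ → ℝ} {E : Finset (ℕ × ℕ)} {Fc PP : Finset ℕ} {L : ℝ}

/-- The edges allowed by the base exponents. -/
noncomputable def goodEdges (E : Finset (ℕ × ℕ)) (PP V W : Finset ℕ) (bs : ℕ → ℕ) : Finset (ℕ × ℕ) :=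
  E.filter (fun x => x.1 ∈ V ∧ x.2 ∈ W ∧
    ∀ p ∈ PP, ¬ (Fx p V ∧ Fx p W) → AllowedCell (bs p) (x.1.factorization p) (x.2.factorization p))

/-- The structure of a maximal state. -/
lemma max_state : ∃ (P0 : ℕ) (L : ℝ), 2 ≤ P0 ∧ 1 ≤ L ∧
    ∀ (μ : ℕ → ℝ) (E : Finset (ℕ × ℕ)) (Fc PP V0 W0 : Finset ℕ), (∀ x, 0 ≤ μ x) →
      (∀ p ∈ PP, p.Prime) → (∀ p ∈ PP, p < P0 → p ∈ Fc) →
      0 < EE μ E V0 W0 →
      ∃ (V W : Finset ℕ) (bs : ℕ → ℕ), V ⊆ V0 ∧ W ⊆ W0 ∧ 0 < EE μ E V W ∧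
        qual μ E V0 W0 ≤ qual μ E V W * gain Fc L PP V W ∧
        (∀ p ∈ PP, p ∈ Fc → Fx p V ∧ Fx p W) ∧
        EE μ E V W ≤ 2 * EE μ (goodEdges E PP V W bs) V W := by
  obtain ⟨P0, L, hP0, hL, hforced, ρ0, C, hcon, hρ0, hsum⟩ := graph_constants
  refine ⟨P0, L, hP0, hL, fun μ E Fc PP V0 W0 hμ hPPp hsmall hE => ?_⟩
  have hPP : ∀ p ∈ PP, 1 ≤ p := fun p hp => (hPPp p hp).one_le
  have hne : (V0.powerset ×ˢ W0.powerset).Nonempty :=
    ⟨(V0, W0), Finset.mem_product.2 ⟨Finset.mem_powerset_self _, Finset.mem_powerset_self _⟩⟩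
  obtain ⟨⟨V, W⟩, hVW, hmax⟩ := Finset.exists_max_image (V0.powerset ×ˢ W0.powerset)
    (fun z => qual μ E z.1 z.2 * gain Fc L PP z.1 z.2) hne
  obtain ⟨hV, hW⟩ := Finset.mem_product.1 hVW
  rw [Finset.mem_powerset] at hV hW
  have hq0 : qual μ E V0 W0 ≤ qual μ E V W * gain Fc L PP V W :=
    (le_mul_of_one_le_right (qual_nonneg hμ V0 W0) (one_le_gain hL hPP V0 W0)).trans
      (hmax (V0, W0) (Finset.mem_product.2 ⟨Finset.mem_powerset_self _, Finset.mem_powerset_self _⟩))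
  have hgpos : 0 < gain Fc L PP V W := lt_of_lt_of_le one_pos (one_le_gain hL hPP V W)
  have hpos : 0 < EE μ E V W := (qual_pos_iff hμ).1
    (pos_of_mul_pos_left (lt_of_lt_of_le ((qual_pos_iff hμ).2 hE) hq0) hgpos.le)
  obtain ⟨hMV, hMW⟩ := mass_pos_of_EE_pos hμ hpos
  have hmax' : ∀ V' W', V' ⊆ V → W' ⊆ W →
      qual μ E V' W' * gain Fc L PP V' W' ≤ qual μ E V W * gain Fc L PP V W := fun V' W' h1 h2 =>
    hmax (V', W') (Finset.mem_product.2 ⟨Finset.mem_powerset.2 (h1.trans hV), Finset.mem_powerset.2 (h2.trans hW)⟩)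
  set I := fun p => (V ∪ W).image (fun x => x.factorization p)
  set α := fun p i => mass μ (cellV p V i) / mass μ V
  set β := fun p i => mass μ (cellV p W i) / mass μ W
  have hIV : ∀ p, ∀ x ∈ V, x.factorization p ∈ I p := fun p x hx =>
    Finset.mem_image_of_mem _ (Finset.mem_union_left _ hx)
  have hIW : ∀ p, ∀ x ∈ W, x.factorization p ∈ I p := fun p x hx =>
    Finset.mem_image_of_mem _ (Finset.mem_union_right _ hx)
  have hα0 : ∀ p i, 0 ≤ α p i := fun p i => div_nonneg (mass_nonneg hμ _) hMV.le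
  have hβ0 : ∀ p i, 0 ≤ β p i := fun p i => div_nonneg (mass_nonneg hμ _) hMW.le
  have hα1 : ∀ p, ∑ i ∈ I p, α p i = 1 := fun p => by
    rw [← Finset.sum_div, cellV_mass_sum μ p (hIV p), div_self hMV.ne']
  have hβ1 : ∀ p, ∑ i ∈ I p, β p i = 1 := fun p => by
    rw [← Finset.sum_div, cellV_mass_sum μ p (hIW p), div_self hMW.ne']
  set ρ := fun p : ℕ => (p:ℝ) ^ (-(th Fc p / ee))
  have hρnn : ∀ p, 0 ≤ ρ p := fun p => Real.rpow_nonneg (Nat.cast_nonneg p) _
  have hcell : ∀ p ∈ PP, ¬ (Fx p V ∧ Fx p W) → ∀ i j,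
      EE μ E (cellV p V i) (cellV p W j) ≤ EE μ E V W * (α p i * β p j) ^ sg
        * ((bon Fc L p)⁻¹ ^ (1 / ee) * ρ p ^ Nat.dist i j) := fun p hp hnf i j =>
    cell_le hμ hL hPP hpos hmax' hp hnf i j
  have hone : ∀ p ∈ PP, ¬ (Fx p V ∧ Fx p W) →
      1 ≤ (bon Fc L p)⁻¹ ^ (1 / ee) * ∑ i ∈ I p, ∑ j ∈ I p, (α p i * β p j) ^ sg * ρ p ^ Nat.dist i j := by
    intro p hp hnf
    have h := EE_cells μ E p (hIV p) (hIW p)
    have h2 := Finset.sum_le_sum fun i (_ : i ∈ I p) => Finset.sum_le_sum fun j (_ : j ∈ I p) =>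
      hcell p hp hnf i j
    rw [← h] at h2
    refine le_of_mul_le_mul_left ?_ hpos
    rw [mul_one]
    refine h2.trans (le_of_eq ?_)
    simp only [Finset.mul_sum]
    exact Finset.sum_congr rfl fun i _ => Finset.sum_congr rfl fun j _ => by ring
  have hforced' : ∀ p ∈ PP, p ∈ Fc → Fx p V ∧ Fx p W := by
    intro p hp hpc
    by_contra hnf
    have h := hone p hp hnf
    have hb : bon Fc L p = L := by unfold bon; rw [if_pos hpc]
    have hr : ρ p ≤ (2:ℝ) ^ (-(1/20 / ee)) := by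
      simp only [ρ, th, if_pos hpc]
      exact Real.rpow_le_rpow_of_nonpos (by norm_num) (by exact_mod_cast (hPPp p hp).two_le) (by norm_num [ee])
    have hlt : ρ p < 1 := lt_of_le_of_lt hr (Real.rpow_lt_one_of_one_lt_of_neg (by norm_num) (by norm_num [ee]))
    have h2 := forced_le (hρnn p) hlt (I p) (I p) (α p) (β p) (hα0 p) (hβ0 p) (hα1 p).le (hβ1 p).le
    have h3 := hforced (ρ p) (hρnn p) hr
    rw [hb] at h
    have h4 := h.trans (mul_le_mul_of_nonneg_left h2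
      (Real.rpow_nonneg (inv_nonneg.2 (by linarith)) _))
    linarith
  have hbase : ∀ p, ∃ i0 : ℕ, p ∈ PP → ¬ (Fx p V ∧ Fx p W) →
      EE μ (E.filter (fun x => ¬ AllowedCell i0 (x.1.factorization p) (x.2.factorization p))) V W
        ≤ EE μ E V W * (C * ((p:ℝ) ^ (-(199/200 / ee))) ^ (51/25 : ℝ)) := by
    intro p
    by_cases hp : p ∈ PP ∧ ¬ (Fx p V ∧ Fx p W)
    swap
    · exact ⟨0, fun h1 h2 => absurd ⟨h1, h2⟩ hp⟩
    obtain ⟨hp, hnf⟩ := hp
    have hpc : p ∉ Fc := fun h => hnf (hforced' p hp h)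
    have hb : bon Fc L p = 1 := by unfold bon; rw [if_neg hpc]
    have hρe : ρ p = (p:ℝ) ^ (-(199/200 / ee)) := by simp only [ρ, th, if_neg hpc]
    have hge : P0 ≤ p := by
      by_contra h
      exact hpc (hsmall p hp (not_le.1 h))
    have h1 := hone p hp hnf
    rw [hb, inv_one, Real.one_rpow, one_mul] at h1
    obtain ⟨i0, -, hi0⟩ := hcon (ρ p) (hρnn p) (hρe ▸ hρ0 p hge) (I p) (α p) (β p) (hα0 p) (hβ0 p)
      (hα1 p) (hβ1 p) h1
    refine ⟨i0, fun _ _ => ?_⟩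
    set E' := E.filter (fun x => ¬ AllowedCell i0 (x.1.factorization p) (x.2.factorization p))
    set S := (I p ×ˢ I p).filter (fun z => ¬ AllowedCell i0 z.1 z.2)
    have hle : EE μ E' V W ≤ ∑ z ∈ S, EE μ E (cellV p V z.1) (cellV p W z.2) := by
      rw [EE_cells μ E' p (hIV p) (hIW p), ← Finset.sum_product', Finset.sum_filter]
      refine Finset.sum_le_sum fun z _ => ?_
      by_cases hz : AllowedCell i0 z.1 z.2
      · rw [if_neg (by simpa using hz)]
        refine le_of_eq (Finset.sum_eq_zero fun x hx => ?_)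
        obtain ⟨hxE, hx1, hx2⟩ := Finset.mem_filter.1 hx
        obtain ⟨-, hbad⟩ := Finset.mem_filter.1 hxE
        rw [(Finset.mem_filter.1 hx1).2, (Finset.mem_filter.1 hx2).2] at hbad
        exact absurd hz hbad
      · rw [if_pos hz]
        exact Finset.sum_le_sum_of_subset_of_nonneg
          (Finset.filter_subset_filter _ (Finset.filter_subset _ _)) (fun x _ _ => mul_nonneg (hμ _) (hμ _))
    refine hle.trans ?_
    have h2 : ∀ z ∈ S, EE μ E (cellV p V z.1) (cellV p W z.2)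
        ≤ EE μ E V W * ((α p z.1 * β p z.2) ^ sg * ρ p ^ Nat.dist z.1 z.2) := fun z _ => by
      have := hcell p hp hnf z.1 z.2
      rwa [hb, inv_one, Real.one_rpow, one_mul, mul_assoc] at this
    refine (Finset.sum_le_sum h2).trans ?_
    rw [← Finset.mul_sum, ← hρe]
    exact mul_le_mul_of_nonneg_left
      (hi0 S (Finset.filter_subset _ _) fun z hz => (Finset.mem_filter.1 hz).2) hpos.le
  choose bs hbs using hbase
  refine ⟨V, W, bs, hV, hW, hpos, hq0, hforced', ?_⟩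
  set G := PP.filter (fun p => ¬ (Fx p V ∧ Fx p W))
  have hunion : EE μ E V W ≤ EE μ (goodEdges E PP V W bs) V W + ∑ p ∈ G,
      EE μ (E.filter (fun x => ¬ AllowedCell (bs p) (x.1.factorization p) (x.2.factorization p))) V W := by
    simp only [EE, Finset.sum_filter, goodEdges]
    rw [Finset.sum_comm, ← Finset.sum_add_distrib]
    refine Finset.sum_le_sum fun x hxE => ?_
    have hx : 0 ≤ μ x.1 * μ x.2 := mul_nonneg (hμ _) (hμ _)
    have hnn : ∀ q : ℕ, 0 ≤ (if ¬ AllowedCell (bs q) (x.1.factorization q) (x.2.factorization q) then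
        μ x.1 * μ x.2 else 0) := fun q => by
      split_ifs <;> simp_all
    by_cases hm : x.1 ∈ V ∧ x.2 ∈ W
    swap
    · simp [hm]
    by_cases hall : ∀ p ∈ PP, ¬ (Fx p V ∧ Fx p W) →
        AllowedCell (bs p) (x.1.factorization p) (x.2.factorization p)
    · rw [if_pos hm, if_pos ⟨hm.1, hm.2, hall⟩]
      exact le_add_of_nonneg_right (Finset.sum_nonneg fun q _ => hnn q)
    · rw [if_pos hm, if_neg (fun h => hall h.2.2)]
      push Not at hall
      obtain ⟨p, hp, hpf, hbad⟩ := hall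
      rw [zero_add]
      refine le_trans ?_ (Finset.single_le_sum (fun q _ => hnn q) (Finset.mem_filter.2 ⟨hp, fun h => hpf h.1 h.2⟩ : p ∈ G))
      rw [if_pos hbad]
  have hG : ∀ p ∈ G, P0 ≤ p := fun p hp => by
    obtain ⟨h1, h2⟩ := Finset.mem_filter.1 hp
    by_contra h
    exact h2 (hforced' p h1 (hsmall p h1 (not_le.1 h)))
  have h3 : ∑ p ∈ G,
      EE μ (E.filter (fun x => ¬ AllowedCell (bs p) (x.1.factorization p) (x.2.factorization p))) V W
      ≤ EE μ E V W * (1/2) := by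
    refine (Finset.sum_le_sum fun p hp => hbs p (Finset.mem_filter.1 hp).1 (Finset.mem_filter.1 hp).2).trans ?_
    rw [← Finset.mul_sum]
    exact mul_le_mul_of_nonneg_left (hsum G hG) hpos.le
  linarith

/-- Restricting to the most efficient subsets makes every degree large. -/
lemma prune (hμ : ∀ x, 0 ≤ μ x) {V W : Finset ℕ} (hpos : 0 < EE μ E V W) :
    ∃ V' W', V' ⊆ V ∧ W' ⊆ W ∧ 0 < EE μ E V' W' ∧ qual μ E V W ≤ qual μ E V' W' ∧
      (∀ q ∈ V', 0 < μ q →
        sg * EE μ E V' W' / mass μ V' ≤ ∑ r ∈ W'.filter (fun r => (q, r) ∈ E), μ r) ∧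
      (∀ r ∈ W', 0 < μ r →
        sg * EE μ E V' W' / mass μ W' ≤ ∑ q ∈ V'.filter (fun q => (q, r) ∈ E), μ q) := by
  obtain ⟨⟨V', W'⟩, hVW, hmax⟩ := Finset.exists_max_image (V.powerset ×ˢ W.powerset)
    (fun z => qual μ E z.1 z.2) ⟨(V, W), Finset.mem_product.2 ⟨Finset.mem_powerset_self _, Finset.mem_powerset_self _⟩⟩
  obtain ⟨hV, hW⟩ := Finset.mem_product.1 hVW
  rw [Finset.mem_powerset] at hV hW
  have hq : qual μ E V W ≤ qual μ E V' W' :=
    hmax (V, W) (Finset.mem_product.2 ⟨Finset.mem_powerset_self _, Finset.mem_powerset_self _⟩)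
  have hp' : 0 < EE μ E V' W' := (qual_pos_iff hμ).1 (lt_of_lt_of_le ((qual_pos_iff hμ).2 hpos) hq)
  obtain ⟨hMV, hMW⟩ := mass_pos_of_EE_pos hμ hp'
  have key : ∀ (V'' W'' : Finset ℕ) (d x M : ℝ), V'' ⊆ V' → W'' ⊆ W' → 0 < x → 0 < M →
      EE μ E V'' W'' = EE μ E V' W' - x * d →
      mass μ V'' * mass μ W'' = (1 - x / M) * (mass μ V' * mass μ W') → 0 ≤ 1 - x / M →
      sg * EE μ E V' W' / M ≤ d := by
    intro V'' W'' d x M h1 h2 hx hM hE hmass hnn
    have hq' := hmax (V'', W'') (Finset.mem_product.2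
      ⟨Finset.mem_powerset.2 (h1.trans hV), Finset.mem_powerset.2 (h2.trans hW)⟩)
    simp only [qual] at hq'
    rw [hmass] at hq'
    have h3 := EE_le_of_qual_le (c := 1) (EE_nonneg hμ E V'' W'') hp'.le hMV hMW hnn one_pos
      (by rw [mul_one]; exact hq') (fun hz => EE_zero_of_mass_zero hμ (by rw [hmass, hz, zero_mul]))
    rw [inv_one, Real.one_rpow, mul_one, hE] at h3
    have h4 : (1 - x / M) ^ sg ≤ 1 - sg * (x / M) := by
      have := rpow_one_add_le_one_add_mul_self (s := -(x / M)) (by linarith) sg_pos.le (by norm_num [sg])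
      rw [← sub_eq_add_neg] at this
      linarith
    have h5 := h3.trans (mul_le_mul_of_nonneg_left h4 hp'.le)
    rw [div_le_iff₀ hM]
    refine le_of_mul_le_mul_left ?_ hx
    have h6 : EE μ E V' W' * (sg * (x / M)) * M = x * (sg * EE μ E V' W') := by field_simp
    nlinarith [mul_le_mul_of_nonneg_right h5 hM.le]
  refine ⟨V', W', hV, hW, hp', hq, fun q hq hμq => ?_, fun r hr hμr => ?_⟩
  · refine key (V'.erase q) W' _ (μ q) (mass μ V') (Finset.erase_subset _ _) subset_rfl hμq hMV ?_ ?_ ?_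
    · simp only [EE, Finset.sum_filter, Finset.mul_sum]
      rw [eq_sub_iff_add_eq]
      have e : ∀ r ∈ W', (if (q, r) ∈ E then μ q * μ r else 0)
          = ∑ x ∈ E, if x = (q, r) then μ x.1 * μ x.2 else 0 := fun r _ => by
        rw [Finset.sum_ite_eq']
      have e' : ∀ r, μ q * (if (q, r) ∈ E then μ r else 0) = if (q, r) ∈ E then μ q * μ r else 0 :=
        fun r => by split_ifs <;> simp
      simp only [e']
      rw [Finset.sum_congr rfl e, Finset.sum_comm, ← Finset.sum_add_distrib]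
      refine Finset.sum_congr rfl fun x _ => ?_
      by_cases h1 : x.1 = q
      · have hx : ∀ r, (x = (q, r)) ↔ (r = x.2) := fun r => by rw [Prod.ext_iff]; simp [h1, eq_comm]
        simp only [hx, Finset.sum_ite_eq', h1, Finset.notMem_erase, false_and, if_false, hq, true_and]
        split_ifs <;> simp
      · have hx : ∀ r, ¬ x = (q, r) := fun r h => h1 (by rw [h])
        simp [hx, Finset.mem_erase, h1]
    · have : mass μ (V'.erase q) = mass μ V' - μ q := Finset.sum_erase_eq_sub hq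
      rw [this]; field_simp
    · rw [sub_nonneg, div_le_one hMV]; exact Finset.single_le_sum (fun y _ => hμ y) hq
  · refine key V' (W'.erase r) _ (μ r) (mass μ W') subset_rfl (Finset.erase_subset _ _) hμr hMW ?_ ?_ ?_
    · simp only [EE, Finset.sum_filter, Finset.mul_sum]
      rw [eq_sub_iff_add_eq]
      have e : ∀ q ∈ V', (if (q, r) ∈ E then μ q * μ r else 0)
          = ∑ x ∈ E, if x = (q, r) then μ x.1 * μ x.2 else 0 := fun q _ => by
        rw [Finset.sum_ite_eq']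
      have e' : ∀ q, μ r * (if (q, r) ∈ E then μ q else 0) = if (q, r) ∈ E then μ q * μ r else 0 :=
        fun q => by split_ifs <;> ring
      simp only [e']
      rw [Finset.sum_congr rfl e, Finset.sum_comm, ← Finset.sum_add_distrib]
      refine Finset.sum_congr rfl fun x _ => ?_
      by_cases h1 : x.2 = r
      · have hx : ∀ q, (x = (q, r)) ↔ (q = x.1) := fun q => by rw [Prod.ext_iff]; simp [h1, eq_comm]
        simp only [hx, Finset.sum_ite_eq', h1, Finset.notMem_erase, and_false, if_false, hr, and_true]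
        split_ifs <;> simp
      · have hx : ∀ q, ¬ x = (q, r) := fun q h => h1 (by rw [h])
        simp [hx, Finset.mem_erase, h1]
    · have : mass μ (W'.erase r) = mass μ W' - μ r := Finset.sum_erase_eq_sub hr
      rw [this]; field_simp
    · rw [sub_nonneg, div_le_one hMW]; exact Finset.single_le_sum (fun y _ => hμ y) hr

end Vale.Agent.P028.Wide
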