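import Vale.Agent.P028.Wide.LCount

namespace Vale.Agent.P028.Wide

open Finset
open scoped Classical

/-- The saving in the tiny range. -/
noncomputable def cT (η : ℝ) : ℝ := min (tha η) (bB η ^ 2)

lemma cT_pos {η : ℝ} (h : 0 < η) : 0 < cT η := lt_min (tha_pos h) (pow_pos (bB_pos h) 2)

/-- The conditions on a denominator for the tiny range. -/
structure BigQ (η : ℝ) (q : ℕ) : Prop where
  q2 : 2 ≤ q
  s1 : 2 < (q:ℝ) ^ (bE η - bB η)
  s2 : 4 ≤ (q:ℝ) ^ (η / 8)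

/-- A pair in the tiny range. -/
def TinyPair (η γ : ℝ) (ψ : ℕ → ℝ) (q r : ℕ) : Prop :=
  q < r ∧ BigQ η q ∧ 1 / (q:ℝ) ≤ ψ q ∧ ψ q ≤ (q:ℝ) ^ (-η) ∧ 0 ≤ ψ r ∧ ψ r ≤ (r:ℝ) ^ (-η) ∧
    tt ψ q r ≤ (q:ℝ) ^ (-tha η) ∧ (Hits η γ ψ q r).Nonempty

variable {η γ : ℝ} {ψ : ℕ → ℝ} {q r : ℕ}

lemma tt_le_one (hη : 0 < η) (h : TinyPair η γ ψ q r) : tt ψ q r ≤ 1 :=
  h.2.2.2.2.2.2.1.trans (Real.rpow_le_one_of_one_le_of_nonpos
    (by exact_mod_cast (le_trans one_le_two h.2.1.q2 : 1 ≤ q)) (by linarith [tha_pos hη]))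

lemma tiny_basic (hη : 0 < η) (h : TinyPair η γ ψ q r) :
    PairFacts q r ∧ cv q r ≤ q ∧ (r:ℝ) ≤ (q:ℝ) ^ (2:ℕ) := by
  have h1 := tt_le_one hη h
  obtain ⟨hlt, hB, hψl, -, hψr, -, -, -⟩ := h
  have P := pairFacts (by linarith [hB.q2] : 0 < q) hlt
  have hq0 : (0:ℝ) < q := by exact_mod_cast P.hq
  rw [tt_eq P] at h1
  have h2 := mul_le_mul_of_nonneg_left hψl (Nat.cast_nonneg (α := ℝ) (cv q r))
  have h3 : 0 ≤ (cu q r : ℝ) * ψ r := mul_nonneg (Nat.cast_nonneg _) hψr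
  rw [mul_one_div] at h2
  have hv : (cv q r : ℝ) ≤ q := by
    have : (cv q r : ℝ) / q ≤ 1 := by linarith
    rwa [div_le_one hq0] at this
  refine ⟨P, by exact_mod_cast hv, ?_⟩
  have e : (r:ℝ) = (Nat.gcd q r : ℝ) * (cv q r : ℝ) := by exact_mod_cast P.hv
  rw [e, sq]
  exact mul_le_mul (by exact_mod_cast Nat.le_of_dvd P.hq (Nat.gcd_dvd_left q r)) hv (Nat.cast_nonneg _) hq0.le

/-- A degenerate hit makes the cofactor large. -/
lemma cv_large (hη : 0 < η) (h : TinyPair η γ ψ q r) (hlarge : (r:ℝ) ^ (-bE η) < tt ψ q r) :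
    (q:ℝ) ^ (η / 2) < (cv q r : ℝ) := by
  obtain ⟨P, -, hr2⟩ := tiny_basic hη h
  obtain ⟨hlt, hB, hψl, hψu, hψr, hψru, -, -⟩ := h
  have hq1 : (1:ℝ) ≤ q := by exact_mod_cast (le_trans one_le_two hB.q2 : 1 ≤ q)
  have hr0 : (0:ℝ) < r := by exact_mod_cast P.hr
  have hψq0 : 0 ≤ ψ q := le_trans (by positivity) hψl
  rw [tt_eq P] at hlarge
  have hψr' : ψ r ≤ (q:ℝ) ^ (-η) := hψru.trans
    (Real.rpow_le_rpow_of_nonpos (by linarith) (by exact_mod_cast hlt.le) (by linarith))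
  have h1 : (cu q r : ℝ) ≤ cv q r := by exact_mod_cast P.huv.le
  have hv0 : (0:ℝ) ≤ cv q r := Nat.cast_nonneg _
  have h2 := mul_le_mul_of_nonneg_left hψu hv0
  have h3 := mul_le_mul h1 hψr' hψr hv0
  have h4 : (q:ℝ) ^ (-(2 * bE η)) ≤ (r:ℝ) ^ (-bE η) := by
    refine le_trans (le_of_eq ?_) (Real.rpow_le_rpow_of_nonpos hr0 hr2 (by linarith [bE_pos hη]))
    rw [← Real.rpow_natCast, ← Real.rpow_mul (by linarith)]
    ring_nf
  by_contra hle
  push Not at hle
  have h5 : (q:ℝ) ^ (-(2 * bE η)) < 2 * ((q:ℝ) ^ (η / 2) * (q:ℝ) ^ (-η)) := by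
    have := mul_le_mul_of_nonneg_right hle (show 0 ≤ (q:ℝ) ^ (-η) by positivity)
    linarith
  have hq0 : (0:ℝ) < q := by linarith
  rw [← Real.rpow_add hq0] at h5
  have h6 : 2 * (q:ℝ) ^ (η / 2 + -η) ≤ (q:ℝ) ^ (-(2 * bE η)) := by
    calc 2 * (q:ℝ) ^ (η / 2 + -η) ≤ (q:ℝ) ^ (η / 8) * (q:ℝ) ^ (η / 2 + -η) :=
          mul_le_mul_of_nonneg_right (by linarith [hB.s2]) (by positivity)
      _ = (q:ℝ) ^ (η / 8 + (η / 2 + -η)) := (Real.rpow_add hq0 _ _).symm
      _ ≤ _ := Real.rpow_le_rpow_of_exponent_le hq1 (by unfold bE; linarith)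
  linarith

lemma star_mono (hη : 0 < η) (P : PairFacts q r) (hB : BigQ η q) : 2 < (r:ℝ) ^ (bE η - bB η) := by
  refine lt_of_lt_of_le hB.s1 (Real.rpow_le_rpow (Nat.cast_nonneg _) ?_ (by unfold bE bB; linarith))
  have h : q ≤ r := by
    have h1 := Nat.mul_le_mul_left (Nat.gcd q r) P.huv.le
    rwa [← P.hu, ← P.hv] at h1
  exact_mod_cast h

/-- The cofactor in the tiny range is never small. -/
lemma cv_lower (hη : 0 < η) (h : TinyPair η γ ψ q r) :
    (q:ℝ) ^ bB η ≤ (cv q r : ℝ) := by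
  obtain ⟨P, -, -⟩ := tiny_basic hη h
  have hB := h.2.1
  have hq1 : (1:ℝ) ≤ q := by exact_mod_cast (le_trans one_le_two hB.q2 : 1 ≤ q)
  by_contra hlt
  push Not at hlt
  by_cases hlarge : (r:ℝ) ^ (-bE η) < tt ψ q r
  · have := Real.rpow_le_rpow_of_exponent_le hq1 (show bB η ≤ η / 2 by unfold bB; linarith)
    linarith [cv_large hη h hlarge]
  push Not at hlarge
  obtain ⟨k, hk⟩ := h.2.2.2.2.2.2.2
  have hn : 0 < cv q r - cu q r := by have := P.huv; omega
  obtain ⟨f1, f2, f3, f4, f5, f6⟩ := frac_spec k (cv q r - cu q r) hn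
  set n := cv q r - cu q r
  set B := (frac k n).1
  set A := (frac k n).2
  have hnear := hits_near P hk
  have hstar : IsStar η γ r (B, A) := by
    refine ⟨f1, f3, ?_, ?_⟩
    · refine le_trans ?_ (hlt.le.trans (Real.rpow_le_rpow (by linarith) ?_ (bB_pos hη).le))
      · exact_mod_cast f2.trans (Nat.sub_le _ _)
      · exact_mod_cast h.1.le
    · refine le_trans ?_ (hnear.le.trans hlarge)
      have e : (k:ℝ) + γ * (n:ℝ) = (Int.gcd k n : ℝ) * ((B:ℝ) * γ - A) := by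
        have e1 : (k:ℝ) = -((Int.gcd k n : ℝ) * (A:ℝ)) := by exact_mod_cast f4
        have e2 : (n:ℝ) = (Int.gcd k n : ℝ) * (B:ℝ) := by exact_mod_cast f5
        rw [e2]; nth_rewrite 1 [e1]; ring
      rw [e, abs_mul, Nat.abs_cast]
      exact le_mul_of_one_le_left (abs_nonneg _) (by exact_mod_cast f6)
  have hs := star_eq (by linarith [P.hr] : 1 ≤ r) (star_mono hη P hB) hstar
  have hk' := kill P hk
  rw [hs] at hk'
  apply hk'
  have e : ((cv q r : ℤ) - cu q r) = (n:ℤ) := by simp only [n]; rw [Nat.cast_sub P.huv.le]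
  rw [e]
  simp only
  linear_combination (B:ℤ) * f4 + A * f5

/-- Few partners share a dyadic range in the tiny range. -/
lemma tiny_share (hη : 0 < η) (hη1 : η ≤ 1) (g q : ℕ) (i : ℕ) (S : Finset ℕ)
    (hS : ∀ r ∈ S, TinyPair η γ ψ q r ∧ Nat.gcd q r = g ∧ Nat.log 2 (cv q r) = i) :
    (S.card : ℝ) ≤ 50 * (2:ℝ) ^ i * (q:ℝ) ^ (-cT η) := by
  rcases S.eq_empty_or_nonempty with h0 | ⟨r0, hr0⟩
  · rw [h0, Finset.card_empty, Nat.cast_zero]; positivity
  have hβ := bB_pos hη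
  obtain ⟨hT0, -, -⟩ := hS r0 hr0
  have hB := hT0.2.1
  have hq1 : (1:ℝ) ≤ q := by exact_mod_cast (le_trans one_le_two hB.q2 : 1 ≤ q)
  set V := (2:ℝ) ^ i with hV
  have hV1 : 1 ≤ V := one_le_pow₀ (by norm_num)
  set u := q / g
  -- the cofactors
  have hcu : ∀ r ∈ S, cu q r = u ∧ (cv q r : ℝ) < 2 * V ∧ V ≤ cv q r := fun r hr => by
    obtain ⟨hT, hg, hl⟩ := hS r hr
    obtain ⟨P, -, -⟩ := tiny_basic hη hT
    have hv0 : cv q r ≠ 0 := by have := P.hu0; have := P.huv; omega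
    refine ⟨by unfold cu; rw [hg], ?_, ?_⟩
    · have := Nat.lt_pow_succ_log_self (b := 2) one_lt_two (cv q r)
      rw [hl, pow_succ] at this
      have h' : ((cv q r : ℕ):ℝ) < ((2 ^ i * 2 : ℕ):ℝ) := by exact_mod_cast this
      push_cast at h'
      linarith
    · have := Nat.pow_log_le_self 2 hv0
      rw [hl] at this
      simp only [V]
      exact_mod_cast this
  set s := S.image (fun r => cv q r)
  have hcard : S.card = s.card := (Finset.card_image_of_injOn fun x hx y hy he => by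
    obtain ⟨hTx, hgx, -⟩ := hS x hx
    obtain ⟨hTy, hgy, -⟩ := hS y hy
    rw [(tiny_basic hη hTx).1.hv, (tiny_basic hη hTy).1.hv, hgx, hgy]
    exact congrArg _ he).symm
  rw [hcard]
  set N := 2 ^ (i + 1)
  have hN : (N:ℝ) = 2 * V := by simp only [N, V]; push_cast; ring
  set τ := (q:ℝ) ^ (-tha η)
  have hτ : 0 ≤ τ := by positivity
  set R0 := ⌊Real.sqrt V⌋₊
  have hR0 : 0 < R0 := Nat.floor_pos.2 (Real.one_le_sqrt.2 hV1)
  obtain ⟨b, a, hb, hbN, hco, happ⟩ := exists_approx γ R0 hR0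
  have hsq : Real.sqrt V * Real.sqrt V = V := Real.mul_self_sqrt (by linarith)
  have hs1 : 1 ≤ Real.sqrt V := Real.one_le_sqrt.2 hV1
  have hR0lt : Real.sqrt V < (R0:ℝ) + 1 := Nat.lt_floor_add_one _
  have hR0le : (R0:ℝ) ≤ Real.sqrt V := Nat.floor_le (Real.sqrt_nonneg _)
  have happ2 : |(b:ℝ) * γ - a| ≤ 1 / Real.sqrt V :=
    happ.trans (one_div_le_one_div_of_le (by linarith) hR0lt.le)
  have hVq : (q:ℝ) ^ bB η ≤ 2 * V := (cv_lower hη hT0).trans (hcu r0 hr0).2.1.le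
  have hkey : (s.card : ℝ) ≤ 24 * τ * V + 11 * V ^ (1 - bB η) := by
    have hVp : Real.sqrt V ≤ V ^ (1 - bB η) := by
      rw [Real.sqrt_eq_rpow]
      exact Real.rpow_le_rpow_of_exponent_le hV1 (by unfold bB; linarith)
    by_cases hbig : V ^ bB η < (b:ℝ)
    · have h := count_minor γ (γ * u) τ hτ N b a hb ((R0:ℝ) + 1) (by
          have : (b:ℝ) ≤ R0 := by exact_mod_cast hbN
          linarith) (by rw [hN]; nlinarith) hco happ s fun v hv => ?_
      · refine h.trans ?_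
        rw [hN]
        have h1 : 4 * (2 * V) / ((R0:ℝ) + 1) ≤ 8 * Real.sqrt V := by
          rw [div_le_iff₀ (by positivity)]
          have := mul_le_mul_of_nonneg_left hR0lt.le (Real.sqrt_nonneg V)
          linarith
        have h2 : 2 * V / (b:ℝ) ≤ 2 * V ^ (1 - bB η) := by
          rw [Real.rpow_sub (by linarith), Real.rpow_one, mul_div_assoc]
          exact mul_le_mul_of_nonneg_left (div_le_div_of_nonneg_left (by linarith) (by positivity) hbig.le) (by norm_num)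
        have h3 : (1:ℝ) ≤ V ^ (1 - bB η) := Real.one_le_rpow hV1 (by unfold bB; linarith)
        have : 0 ≤ τ * V := by positivity
        linarith
      obtain ⟨r, hr, rfl⟩ := Finset.mem_image.1 hv
      obtain ⟨hT, -, -⟩ := hS r hr
      obtain ⟨P, -, -⟩ := tiny_basic hη hT
      obtain ⟨hu, hv1, hv2⟩ := hcu r hr
      refine ⟨lt_trans P.hu0 P.huv, ?_, ?_⟩
      · have : ((cv q r : ℕ):ℝ) ≤ (N:ℝ) := by rw [hN]; exact hv1.le
        exact_mod_cast this
      obtain ⟨k, hk⟩ := hT.2.2.2.2.2.2.2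
      refine ⟨k, ?_⟩
      have h := lt_of_lt_of_le (hits_near P hk) hT.2.2.2.2.2.2.1
      rw [Nat.cast_sub P.huv.le, hu] at h
      refine lt_of_eq_of_lt ?_ h
      congr 1
      ring
    · push Not at hbig
      have h := count_major γ b a hb hco 1 u le_rfl τ hτ N 1 le_rfl (Nat.coprime_one_left b) s fun v hv => ?_
      · simp only [Nat.cast_one, one_mul, div_one] at h
        refine h.trans ?_
        set R := (b:ℝ) * τ + (N:ℝ) * |(b:ℝ) * γ - a|
        have hR : R ≤ V ^ (1 - bB η) + 2 * Real.sqrt V := by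
          refine add_le_add ?_ ?_
          · have hτ1 : τ ≤ 1 := Real.rpow_le_one_of_one_le_of_nonpos hq1 (by linarith [tha_pos hη])
            refine (mul_le_of_le_one_right (Nat.cast_nonneg _) hτ1).trans (hbig.trans ?_)
            exact Real.rpow_le_rpow_of_exponent_le hV1 (by unfold bB; linarith)
          · rw [hN]
            refine (mul_le_mul_of_nonneg_left happ2 (by linarith)).trans (le_of_eq ?_)
            rw [mul_one_div, mul_div_assoc, Real.div_sqrt]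
        have hx : 0 ≤ τ * V := by positivity
        have h3 : (1:ℝ) ≤ V ^ (1 - bB η) := Real.one_le_rpow hV1 (by unfold bB; linarith)
        have hR00 : 0 ≤ R := by positivity
        split_ifs with hR1
        · have h4 : (Nat.gcd b 1 : ℝ) * min ((N:ℝ) / b) (4 * τ * N / R) ≤ 8 * τ * V := by
            rw [Nat.gcd_one_right, Nat.cast_one, one_mul]
            refine (min_le_right _ _).trans ((div_le_self (by positivity) hR1).trans (le_of_eq ?_))
            rw [hN]; ring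
          rw [hN] at h4 ⊢
          linarith
        · rw [hN]; linarith
      obtain ⟨r, hr, rfl⟩ := Finset.mem_image.1 hv
      obtain ⟨hT, -, -⟩ := hS r hr
      obtain ⟨P, -, hr2⟩ := tiny_basic hη hT
      obtain ⟨hu, hv1, hv2⟩ := hcu r hr
      refine ⟨lt_trans P.hu0 P.huv, ?_, ?_, ?_⟩
      · have : ((cv q r : ℕ):ℝ) ≤ (N:ℝ) := by rw [hN]; exact hv1.le
        exact_mod_cast this
      · rw [one_mul, ← hu]; exact P.huv
      obtain ⟨k, hk⟩ := hT.2.2.2.2.2.2.2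
      have hnear := hits_near P hk
      refine ⟨k, ?_, ?_, by simp⟩
      · have h := lt_of_lt_of_le hnear hT.2.2.2.2.2.2.1
        rw [Nat.cast_sub P.huv.le, hu] at h
        refine lt_of_eq_of_lt ?_ h
        congr 1
        push_cast; ring
      intro hJ
      push_cast at hJ
      rw [one_mul] at hJ
      have hn : 0 < cv q r - cu q r := by have := P.huv; omega
      set n := cv q r - cu q r
      have e : ((cv q r : ℤ) - cu q r) = (n:ℤ) := by simp only [n]; rw [Nat.cast_sub P.huv.le]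
      rw [← hu, e] at hJ
      have hb0 : 0 < b := hb
      have hf := frac_eq_of_mul_eq hn hb0 hco hJ
      obtain ⟨-, -, -, f4, f5, f6⟩ := frac_spec k n hn
      rw [hf] at f4 f5
      have herr : |(b:ℝ) * γ - a| ≤ (r:ℝ) ^ (-bE η) := by
        by_cases hlarge : (r:ℝ) ^ (-bE η) < tt ψ q r
        · refine happ2.trans ?_
          have hq0 : (0:ℝ) < q := by linarith
          have hcl := cv_large hη hT hlarge
          have h1 : (q:ℝ) ^ (η / 2) ≤ 2 * V := by linarith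
          have h2 : (q:ℝ) ^ (η / 4) ≤ 2 * Real.sqrt V := by
            have e : (q:ℝ) ^ (η / 4) = Real.sqrt ((q:ℝ) ^ (η / 2)) := by
              rw [Real.sqrt_eq_rpow, ← Real.rpow_mul hq0.le]; ring_nf
            rw [e]
            refine (Real.sqrt_le_sqrt h1).trans ?_
            rw [Real.sqrt_mul (by norm_num)]
            refine mul_le_mul_of_nonneg_right ?_ (Real.sqrt_nonneg _)
            rw [Real.sqrt_le_left (by norm_num)]
            norm_num
          refine le_trans ?_ (Real.rpow_le_rpow_of_nonpos (by exact_mod_cast P.hr) hr2 (by linarith [bE_pos hη]))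
          rw [← Real.rpow_natCast, ← Real.rpow_mul hq0.le, mul_neg, Real.rpow_neg hq0.le, one_div]
          refine inv_anti₀ (by positivity) ?_
          have h3 : (q:ℝ) ^ (((2:ℕ):ℝ) * bE η) * 4 ≤ (q:ℝ) ^ (η / 4) := by
            refine (mul_le_mul_of_nonneg_left hB.s2 (by positivity)).trans ?_
            rw [← Real.rpow_add hq0]
            exact Real.rpow_le_rpow_of_exponent_le hq1 (by unfold bE; push_cast; linarith)
          have h0 : 0 ≤ (q:ℝ) ^ (((2:ℕ):ℝ) * bE η) := by positivity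
          simp only [Nat.cast_ofNat] at h3 h0 ⊢
          linarith
        · refine le_trans ?_ (hnear.le.trans (not_lt.1 hlarge))
          have e : (k:ℝ) + γ * (n:ℝ) = (Int.gcd k n : ℝ) * ((b:ℝ) * γ - a) := by
            have e1 : (k:ℝ) = -((Int.gcd k n : ℝ) * (a:ℝ)) := by exact_mod_cast f4
            have e2 : (n:ℝ) = (Int.gcd k n : ℝ) * (b:ℝ) := by exact_mod_cast f5
            rw [e2]; nth_rewrite 1 [e1]; ring
          rw [e, abs_mul, Nat.abs_cast]
          exact le_mul_of_one_le_left (abs_nonneg _) (by exact_mod_cast f6)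
      have hstar : IsStar η γ r (b, a) := by
        refine ⟨hb, hco, hbig.trans (Real.rpow_le_rpow (by linarith) ?_ hβ.le), herr⟩
        refine hv2.trans ?_
        exact_mod_cast Nat.div_le_self r (Nat.gcd q r)
      have hs := star_eq (by linarith [P.hr] : 1 ≤ r) (star_mono hη P hB) hstar
      have hk' := kill P hk
      rw [hs, e] at hk'
      exact hk' hJ
  refine hkey.trans ?_
  have h1 : τ ≤ (q:ℝ) ^ (-cT η) :=
    Real.rpow_le_rpow_of_exponent_le hq1 (by simp only [cT]; linarith [min_le_left (tha η) (bB η ^ 2)])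
  have hq0 : (0:ℝ) < q := by linarith
  have h2 : V ^ (1 - bB η) ≤ 2 * V * (q:ℝ) ^ (-cT η) := by
    have h3 : (q:ℝ) ^ cT η ≤ 2 * V ^ bB η := by
      calc (q:ℝ) ^ cT η ≤ ((q:ℝ) ^ bB η) ^ bB η := by
            rw [← Real.rpow_mul hq0.le]
            exact Real.rpow_le_rpow_of_exponent_le hq1 (by simp only [cT]; rw [← sq]; exact min_le_right _ _)
        _ ≤ (2 * V) ^ bB η := Real.rpow_le_rpow (by positivity) hVq hβ.le
        _ ≤ _ := by
            rw [Real.mul_rpow (by norm_num) (by linarith)]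
            refine mul_le_mul_of_nonneg_right ?_ (by positivity)
            exact (Real.rpow_le_rpow_of_exponent_le one_le_two (by unfold bB; linarith : bB η ≤ 1)).trans
              (le_of_eq (Real.rpow_one 2))
    rw [Real.rpow_sub (by linarith), Real.rpow_one, Real.rpow_neg hq0.le, ← div_eq_mul_inv,
      div_le_div_iff₀ (by positivity) (by positivity)]
    have := mul_le_mul_of_nonneg_left h3 (by linarith : 0 ≤ V)
    linarith
  have h4 := mul_le_mul_of_nonneg_left h1 (by linarith : 0 ≤ V)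
  have : 0 ≤ V * (q:ℝ) ^ (-cT η) := by positivity
  linarith

lemma ov_tiny (hη : 0 < η) (h : TinyPair η γ ψ q r) :
    ov η γ ψ q r ≤ 6 * min (ψ q / (cu q r : ℝ)) (ψ r / (cv q r : ℝ)) := by
  obtain ⟨P, -, -⟩ := tiny_basic hη h
  have ht := tt_le_one hη h
  obtain ⟨-, -, hψl, -, hψr, -, -, -⟩ := h
  have hψq : 0 ≤ ψ q := le_trans (by positivity) hψl
  refine (ov_le_card P.hq P.hr hψq hψr).trans ?_
  have hg : (0:ℝ) < (Nat.gcd q r : ℝ) := by exact_mod_cast P.hg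
  have hc : ((EPairs η γ ψ q r).card : ℝ) ≤ (Nat.gcd q r : ℝ) * 3 := by
    rw [Finset.card_eq_sum_card_fiberwise (t := Hits η γ ψ q r) (fun x hx => Finset.mem_image_of_mem
      (fun x : ℤ × ℤ => x.1 * (cv q r : ℤ) - x.2 * (cu q r : ℤ)) hx)]
    push_cast
    refine (Finset.sum_le_card_nsmul _ _ (Nat.gcd q r : ℝ) fun k _ => (fibre_le P k).trans ?_).trans ?_
    · have hexc : ∀ p, (excl η γ q r k p : ℝ) ≤ 2 := fun p => by
        exact_mod_cast (show excl η γ q r k p ≤ 2 by unfold excl; split_ifs <;> norm_num)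
      refine mul_le_of_le_one_right (Nat.cast_nonneg _) (Finset.prod_le_one (fun p hp => ?_) fun p hp => ?_)
      all_goals have h2 : (2:ℝ) ≤ p := by exact_mod_cast two_le_pf hp
      all_goals have he := hexc p
      · have : (excl η γ q r k p : ℝ) / p ≤ 1 := by rw [div_le_one (by linarith)]; linarith
        linarith
      · have : 0 ≤ (excl η γ q r k p : ℝ) / p := by positivity
        linarith
    · rw [nsmul_eq_mul, mul_comm]
      refine mul_le_mul_of_nonneg_left ?_ hg.le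
      linarith [hits_card_le (η := η) (γ := γ) P hψq hψr]
  refine (mul_le_mul_of_nonneg_left hc (by positivity)).trans (le_of_eq ?_)
  have e1 : (q:ℝ) = (Nat.gcd q r : ℝ) * (cu q r : ℝ) := by exact_mod_cast P.hu
  have e2 : (r:ℝ) = (Nat.gcd q r : ℝ) * (cv q r : ℝ) := by exact_mod_cast P.hv
  have hu : (cu q r : ℝ) ≠ 0 := by exact_mod_cast P.hu0.ne'
  have hv : (cv q r : ℝ) ≠ 0 := by exact_mod_cast (lt_trans P.hu0 P.huv).ne'
  have f1 : ψ q / (cu q r : ℝ) = ψ q / q * (Nat.gcd q r : ℝ) := by rw [e1]; field_simp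
  have f2 : ψ r / (cv q r : ℝ) = ψ r / r * (Nat.gcd q r : ℝ) := by rw [e2]; field_simp
  rw [f1, f2, ← min_mul_of_nonneg _ _ hg.le]
  ring

lemma min_le_weighted {a b w : ℝ} (ha : 0 ≤ a) (hb : 0 ≤ b) (hw : 0 < w) : min a b ≤ w * a + b / w := by
  rcases le_total 1 w with h | h
  · refine (min_le_left _ _).trans ?_
    have := le_mul_of_one_le_left ha h
    have : 0 ≤ b / w := by positivity
    linarith
  · refine (min_le_right _ _).trans ?_
    have : b ≤ b / w := by rw [le_div_iff₀ hw]; exact mul_le_of_le_one_right hb h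
    have : 0 ≤ w * a := by positivity
    linarith

/-- The key of a pair. -/
def tkey (x : ℕ × ℕ) : ℕ × ℕ × ℕ :=
  (Nat.gcd x.1 x.2, Nat.log 2 (cu x.1 x.2), Nat.log 2 (cv x.1 x.2))

/-- One key of the tiny range. -/
lemma tiny_key (hη : 0 < η) (hη1 : η ≤ 1) (P : Finset (ℕ × ℕ)) (hP : ∀ x ∈ P, TinyPair η γ ψ x.1 x.2)
    (κ : ℕ × ℕ × ℕ) :
    ∑ x ∈ P.filter (fun x => tkey x = κ), min (ψ x.1 / (cu x.1 x.2 : ℝ)) (ψ x.2 / (cv x.1 x.2 : ℝ))
      ≤ 200 * ∑ q ∈ (P.filter (fun x => tkey x = κ)).image Prod.fst, ψ q * (q:ℝ) ^ (-(cT η / 4))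
        + 8 * ∑ r ∈ (P.filter (fun x => tkey x = κ)).image Prod.snd, ψ r * (r:ℝ) ^ (-(cT η / 4)) := by
  obtain ⟨g, a, b⟩ := κ
  set Pk := P.filter (fun x => tkey x = (g, a, b))
  have hc := cT_pos hη
  have hc2 : cT η ≤ 1 := by
    refine (min_le_right _ _).trans ?_
    unfold bB
    nlinarith
  have hmem : ∀ x ∈ Pk, TinyPair η γ ψ x.1 x.2 ∧ PairFacts x.1 x.2 ∧ Nat.gcd x.1 x.2 = g ∧
      Nat.log 2 (cu x.1 x.2) = a ∧ Nat.log 2 (cv x.1 x.2) = b := fun x hx => by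
    obtain ⟨h1, h2⟩ := Finset.mem_filter.1 hx
    simp only [tkey, Prod.mk.injEq] at h2
    exact ⟨hP x h1, (tiny_basic hη (hP x h1)).1, h2⟩
  set U := (2:ℝ) ^ a
  set V := (2:ℝ) ^ b
  have hU : 0 < U := by positivity
  have hV : 0 < V := by positivity
  rcases Pk.eq_empty_or_nonempty with h0 | ⟨x0, hx0⟩
  · rw [h0]; simp
  have hg0 : (1:ℝ) ≤ g := by
    obtain ⟨-, P0, hg, -⟩ := hmem x0 hx0
    exact_mod_cast (hg ▸ P0.hg : 0 < g)
  set σ := ((g:ℝ) * U) ^ (-(cT η / 2))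
  have hσ : 0 < σ := by positivity
  set w := U / (V * σ)
  have hw : 0 < w := by positivity
  have hbase : ∀ x ∈ Pk, (g:ℝ) * U ≤ x.1 ∧ (x.1:ℝ) ≤ 2 * ((g:ℝ) * U) ∧ 1 / (cu x.1 x.2 : ℝ) ≤ 1 / U ∧
      1 / (cv x.1 x.2 : ℝ) ≤ 1 / V ∧ (cu x.1 x.2 : ℝ) ≤ 2 * U ∧ 0 ≤ ψ x.1 ∧ 0 ≤ ψ x.2 := by
    intro x hx
    obtain ⟨hT, P0, hg, ha, hb⟩ := hmem x hx
    have hv0 : cv x.1 x.2 ≠ 0 := (lt_trans P0.hu0 P0.huv).ne'
    have u1 : U ≤ cu x.1 x.2 := by
      have := Nat.pow_log_le_self 2 P0.hu0.ne'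
      rw [ha] at this; simp only [U]; exact_mod_cast this
    have u2 : (cu x.1 x.2 : ℝ) ≤ 2 * U := by
      have := (Nat.lt_pow_succ_log_self (b := 2) one_lt_two (cu x.1 x.2)).le
      rw [ha, pow_succ] at this
      have h' : ((cu x.1 x.2 : ℕ):ℝ) ≤ ((2 ^ a * 2 : ℕ):ℝ) := by exact_mod_cast this
      push_cast at h'; simp only [U]; linarith
    have v1 : V ≤ cv x.1 x.2 := by
      have := Nat.pow_log_le_self 2 hv0
      rw [hb] at this; simp only [V]; exact_mod_cast this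
    have e : (x.1:ℝ) = (g:ℝ) * (cu x.1 x.2 : ℝ) := by
      rw [← hg]; exact_mod_cast P0.hu
    refine ⟨?_, ?_, one_div_le_one_div_of_le hU u1, one_div_le_one_div_of_le hV v1, u2,
      le_trans (by positivity) hT.2.2.1, hT.2.2.2.2.1⟩
    · rw [e]; exact mul_le_mul_of_nonneg_left u1 (by linarith)
    · rw [e]
      calc (g:ℝ) * (cu x.1 x.2 : ℝ) ≤ (g:ℝ) * (2 * U) := mul_le_mul_of_nonneg_left u2 (by linarith)
        _ = _ := by ring
  have hσq : ∀ x ∈ Pk, σ ≤ 2 * (x.1:ℝ) ^ (-(cT η / 4)) ∧ σ ≤ 2 * (x.2:ℝ) ^ (-(cT η / 4)) ∧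
      (x.1:ℝ) ^ (-cT η) ≤ σ * σ := by
    intro x hx
    obtain ⟨h1, h2, -⟩ := hbase x hx
    obtain ⟨hT, P0, -⟩ := hmem x hx
    have hr2 := (tiny_basic hη hT).2.2
    have hgU : 0 < (g:ℝ) * U := by positivity
    have hq0 : (0:ℝ) < x.1 := by exact_mod_cast P0.hq
    have hq1 : (1:ℝ) ≤ x.1 := by exact_mod_cast P0.hq
    have hmain : σ ≤ 2 * (x.1:ℝ) ^ (-(cT η / 2)) := by
      calc σ ≤ ((x.1:ℝ) / 2) ^ (-(cT η / 2)) :=
            Real.rpow_le_rpow_of_nonpos (by positivity) (by linarith) (by linarith)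
        _ = (2:ℝ) ^ (cT η / 2) * (x.1:ℝ) ^ (-(cT η / 2)) := by
            rw [Real.div_rpow hq0.le (by norm_num), Real.rpow_neg (by norm_num : (0:ℝ) ≤ 2), div_inv_eq_mul, mul_comm]
        _ ≤ _ := mul_le_mul_of_nonneg_right ((Real.rpow_le_rpow_of_exponent_le one_le_two (by linarith : cT η / 2 ≤ 1)).trans
            (le_of_eq (Real.rpow_one 2))) (by positivity)
    refine ⟨hmain.trans ?_, hmain.trans ?_, ?_⟩
    · exact mul_le_mul_of_nonneg_left (Real.rpow_le_rpow_of_exponent_le hq1 (by linarith)) (by norm_num)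
    · refine mul_le_mul_of_nonneg_left ?_ (by norm_num)
      refine le_trans (le_of_eq ?_) (Real.rpow_le_rpow_of_nonpos (by exact_mod_cast P0.hr) hr2 (by linarith))
      rw [← Real.rpow_natCast, ← Real.rpow_mul hq0.le]
      ring_nf
    · rw [← Real.rpow_add hgU]
      refine (Real.rpow_le_rpow_of_nonpos hgU h1 (by linarith)).trans (le_of_eq ?_)
      ring_nf
  refine (Finset.sum_le_sum fun x hx => min_le_weighted
    (div_nonneg (hbase x hx).2.2.2.2.2.1 (Nat.cast_nonneg _))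
    (div_nonneg (hbase x hx).2.2.2.2.2.2 (Nat.cast_nonneg _)) hw).trans ?_
  rw [Finset.sum_add_distrib]
  refine add_le_add ?_ ?_
  · rw [Finset.mul_sum, ← Finset.sum_fiberwise_of_maps_to (g := Prod.fst) fun x hx => Finset.mem_image_of_mem _ hx]
    refine Finset.sum_le_sum fun q hq => ?_
    obtain ⟨xq, hxq, hxq1⟩ := Finset.mem_image.1 hq
    have hq0 : 0 ≤ ψ q := hxq1 ▸ (hbase xq hxq).2.2.2.2.2.1
    refine (Finset.sum_le_card_nsmul _ _ (w * (ψ q * (1 / U))) fun x hx => ?_).trans ?_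
    · obtain ⟨h1, h2⟩ := Finset.mem_filter.1 hx
      refine mul_le_mul_of_nonneg_left ?_ hw.le
      rw [h2, div_eq_mul_one_div]
      exact mul_le_mul_of_nonneg_left (h2 ▸ (hbase x h1).2.2.1) hq0
    have hshare : (((Pk.filter (fun x => x.1 = q)).card : ℕ):ℝ) ≤ 50 * V * (q:ℝ) ^ (-cT η) := by
      have hc' : (Pk.filter (fun x => x.1 = q)).card = ((Pk.filter (fun x => x.1 = q)).image Prod.snd).card :=
        (Finset.card_image_of_injOn fun x hx y hy he =>
          Prod.ext ((Finset.mem_filter.1 hx).2.trans (Finset.mem_filter.1 hy).2.symm) he).symm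
      rw [hc']
      refine tiny_share (η := η) (γ := γ) (ψ := ψ) hη hη1 g q b _ fun r hr => ?_
      obtain ⟨x, hx, rfl⟩ := Finset.mem_image.1 hr
      obtain ⟨h1, h2⟩ := Finset.mem_filter.1 hx
      obtain ⟨hT, -, hg, -, hb⟩ := hmem x h1
      rw [h2] at hT hg hb
      exact ⟨hT, hg, hb⟩
    rw [nsmul_eq_mul]
    refine (mul_le_mul_of_nonneg_right hshare (by positivity)).trans ?_
    obtain ⟨hs1, -, hs3⟩ := hσq xq hxq
    rw [hxq1] at hs1 hs3
    calc 50 * V * (q:ℝ) ^ (-cT η) * (w * (ψ q * (1 / U)))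
        = 50 * ψ q * ((q:ℝ) ^ (-cT η) / σ) := by simp only [w]; field_simp
      _ ≤ 50 * ψ q * σ := mul_le_mul_of_nonneg_left (by rw [div_le_iff₀ hσ]; exact hs3) (by positivity)
      _ ≤ 50 * ψ q * (2 * (q:ℝ) ^ (-(cT η / 4))) := mul_le_mul_of_nonneg_left hs1 (by positivity)
      _ ≤ _ := by
          have : 0 ≤ ψ q * (q:ℝ) ^ (-(cT η / 4)) := by positivity
          linarith
  · rw [Finset.mul_sum, ← Finset.sum_fiberwise_of_maps_to (g := Prod.snd) fun x hx => Finset.mem_image_of_mem _ hx]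
    refine Finset.sum_le_sum fun r hr => ?_
    obtain ⟨xr, hxr, hxr1⟩ := Finset.mem_image.1 hr
    have hr0 : 0 ≤ ψ r := hxr1 ▸ (hbase xr hxr).2.2.2.2.2.2
    refine (Finset.sum_le_card_nsmul _ _ (ψ r * (1 / V) / w) fun x hx => ?_).trans ?_
    · obtain ⟨h1, h2⟩ := Finset.mem_filter.1 hx
      refine div_le_div_of_nonneg_right ?_ hw.le
      rw [h2, div_eq_mul_one_div]
      exact mul_le_mul_of_nonneg_left (h2 ▸ (hbase x h1).2.2.2.1) hr0
    have hcount : (((Pk.filter (fun x => x.2 = r)).card : ℕ):ℝ) ≤ 2 * U := by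
      have h : (Pk.filter (fun x => x.2 = r)).card ≤ (Finset.Icc 1 (2 * 2 ^ a)).card := by
        refine Finset.card_le_card_of_injOn (fun x => cu x.1 x.2) (fun x hx => ?_) fun x hx y hy he => ?_
        · obtain ⟨h1, -⟩ := Finset.mem_filter.1 hx
          refine Finset.mem_Icc.2 ⟨(hmem x h1).2.1.hu0, ?_⟩
          have h5 : (cu x.1 x.2 : ℝ) ≤ ((2 * 2 ^ a : ℕ):ℝ) := by push_cast; exact (hbase x h1).2.2.2.2.1
          exact_mod_cast h5
        · obtain ⟨h1, h2⟩ := Finset.mem_filter.1 hx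
          obtain ⟨h3, h4⟩ := Finset.mem_filter.1 hy
          obtain ⟨-, Px, hgx, -⟩ := hmem x h1
          obtain ⟨-, Py, hgy, -⟩ := hmem y h3
          simp only at he
          exact Prod.ext (by rw [Px.hu, Py.hu, hgx, hgy, he]) (h2.trans h4.symm)
      rw [Nat.card_Icc, Nat.add_sub_cancel] at h
      have h' : (((Pk.filter (fun x => x.2 = r)).card : ℕ):ℝ) ≤ ((2 * 2 ^ a : ℕ):ℝ) := by exact_mod_cast h
      push_cast at h'
      exact h'
    rw [nsmul_eq_mul]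
    refine (mul_le_mul_of_nonneg_right hcount (by positivity)).trans ?_
    obtain ⟨-, hs2, -⟩ := hσq xr hxr
    rw [hxr1] at hs2
    calc 2 * U * (ψ r * (1 / V) / w) = 2 * ψ r * σ := by simp only [w]; field_simp
      _ ≤ 2 * ψ r * (2 * (r:ℝ) ^ (-(cT η / 4))) := mul_le_mul_of_nonneg_left hs2 (by positivity)
      _ ≤ _ := by
          have : 0 ≤ ψ r * (r:ℝ) ^ (-(cT η / 4)) := by positivity
          linarith

lemma small_factor (hη : 0 < η) : ∃ C : ℝ, 0 < C ∧ ∀ x : ℕ, 2 ≤ x →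
    (x.divisors.card : ℝ) * ((Nat.log 2 x : ℝ) + 1) * (x:ℝ) ^ (-(cT η / 4)) ≤ C * lam x := by
  set c := cT η / 16 with hc
  have hc0 : 0 < c := by have := cT_pos hη; positivity
  obtain ⟨C1, hC1, hτ⟩ := card_divisors_le hc0
  refine ⟨C1 * (2 / c + 1) * (2 / c + 1), by positivity, fun x hx => ?_⟩
  have hx0 : (0:ℝ) < x := by exact_mod_cast (by omega : 0 < x)
  have hx1 : (1:ℝ) ≤ x := by exact_mod_cast (by omega : 1 ≤ x)
  have hl0 : 0 ≤ Real.log x := Real.log_nonneg hx1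
  have hl2 := Real.log_two_gt_d9
  have hlog : Real.log x ≤ (x:ℝ) ^ c / c := Real.log_le_rpow_div hx0.le hc0
  have hp1 : (1:ℝ) ≤ (x:ℝ) ^ c := Real.one_le_rpow hx1 hc0.le
  have hbound : ∀ y : ℝ, 0 ≤ y → y * Real.log 2 ≤ Real.log x → y + 1 ≤ (2 / c + 1) * (x:ℝ) ^ c := by
    intro y hy h
    have h1 : y ≤ 2 * Real.log x := by nlinarith
    have h2 : 2 * ((x:ℝ) ^ c / c) = 2 / c * (x:ℝ) ^ c := by ring
    linarith
  have h1 : ((Nat.log 2 x : ℝ) + 1) ≤ (2 / c + 1) * (x:ℝ) ^ c := hbound _ (Nat.cast_nonneg _) (by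
    rw [← Real.log_pow]
    refine Real.log_le_log (by positivity) ?_
    exact_mod_cast Nat.pow_log_le_self 2 (by omega))
  have h2 : (x.primeFactors.card : ℝ) + 1 ≤ (2 / c + 1) * (x:ℝ) ^ c :=
    hbound _ (Nat.cast_nonneg _) (card_primeFactors_le_log x (by omega))
  have hlam : 1 ≤ (2 / c + 1) * (x:ℝ) ^ c * lam x := by
    have h := lam_ge_card (n := x) (by omega)
    rw [div_le_iff₀ (by positivity)] at h
    exact h.trans (by rw [mul_comm]; exact mul_le_mul_of_nonneg_right h2 (lam_nonneg x))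
  calc (x.divisors.card : ℝ) * ((Nat.log 2 x : ℝ) + 1) * (x:ℝ) ^ (-(cT η / 4))
      ≤ C1 * (x:ℝ) ^ c * ((2 / c + 1) * (x:ℝ) ^ c) * (x:ℝ) ^ (-(cT η / 4)) * 1 := by
        rw [mul_one]
        exact mul_le_mul_of_nonneg_right (mul_le_mul (hτ x (by omega)) h1 (by positivity) (by positivity))
          (by positivity)
    _ ≤ C1 * (x:ℝ) ^ c * ((2 / c + 1) * (x:ℝ) ^ c) * (x:ℝ) ^ (-(cT η / 4)) * ((2 / c + 1) * (x:ℝ) ^ c * lam x) :=
        mul_le_mul_of_nonneg_left hlam (by positivity)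
    _ = C1 * (2 / c + 1) * (2 / c + 1) * lam x *
          ((x:ℝ) ^ c * (x:ℝ) ^ c * (x:ℝ) ^ c * (x:ℝ) ^ (-(cT η / 4))) := by ring
    _ ≤ C1 * (2 / c + 1) * (2 / c + 1) * lam x * 1 := by
        refine mul_le_mul_of_nonneg_left ?_ (by have := lam_nonneg x; positivity)
        rw [← Real.rpow_add hx0, ← Real.rpow_add hx0, ← Real.rpow_add hx0]
        exact Real.rpow_le_one_of_one_le_of_nonpos hx1 (by rw [hc]; linarith [cT_pos hη])
    _ = _ := mul_one _

/-- The pairs in the tiny range cost a multiple of the first moment. -/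
theorem tiny_total (hη : 0 < η) (hη1 : η ≤ 1) : ∃ C : ℝ, 0 < C ∧ ∀ (γ : ℝ) (ψ : ℕ → ℝ) (F : Finset ℕ)
    (P : Finset (ℕ × ℕ)), (∀ x ∈ P, x.1 ∈ F ∧ x.2 ∈ F ∧ TinyPair η γ ψ x.1 x.2) → (∀ q ∈ F, 0 ≤ ψ q) →
      ∑ x ∈ P, ov η γ ψ x.1 x.2 ≤ C * ∑ q ∈ F, lam q * ψ q := by
  obtain ⟨C, hC, hsf⟩ := small_factor hη
  refine ⟨6 * 208 * C, by positivity, fun γ ψ F P hP hψ => ?_⟩
  refine (Finset.sum_le_sum fun x hx => ov_tiny hη (hP x hx).2.2).trans ?_
  rw [← Finset.mul_sum, ← Finset.sum_fiberwise_of_maps_to (g := tkey) fun x hx => Finset.mem_image_of_mem _ hx]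
  refine (mul_le_mul_of_nonneg_left (Finset.sum_le_sum fun κ _ =>
    tiny_key hη hη1 P (fun x hx => (hP x hx).2.2) κ) (by norm_num : (0:ℝ) ≤ 6)).trans ?_
  rw [Finset.sum_add_distrib, ← Finset.mul_sum, ← Finset.mul_sum]
  have hproj : ∀ pr : ℕ × ℕ → ℕ, (∀ x ∈ P, pr x ∈ F ∧ 2 ≤ pr x) →
      (∀ y : ℕ, (((P.filter (fun x => pr x = y)).image tkey).card : ℝ)
        ≤ (y.divisors.card : ℝ) * ((Nat.log 2 y : ℝ) + 1)) →
      ∑ κ ∈ P.image tkey, ∑ y ∈ (P.filter (fun x => tkey x = κ)).image pr, ψ y * (y:ℝ) ^ (-(cT η / 4))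
        ≤ C * ∑ q ∈ F, lam q * ψ q := by
    intro pr hmemF hcount
    have e : ∑ κ ∈ P.image tkey, ∑ y ∈ (P.filter (fun x => tkey x = κ)).image pr, ψ y * (y:ℝ) ^ (-(cT η / 4))
        = ∑ y ∈ P.image pr, (((P.filter (fun x => pr x = y)).image tkey).card : ℝ) * (ψ y * (y:ℝ) ^ (-(cT η / 4))) := by
      rw [Finset.sum_comm' (t' := P.image pr) (s' := fun y => (P.filter (fun x => pr x = y)).image tkey)]
      · refine Finset.sum_congr rfl fun y _ => ?_
        rw [Finset.sum_const, nsmul_eq_mul]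
      · intro κ y
        simp only [Finset.mem_image, Finset.mem_filter]
        constructor
        · rintro ⟨-, x, ⟨hx, hk⟩, hy⟩; exact ⟨⟨x, ⟨hx, hy⟩, hk⟩, x, hx, hy⟩
        · rintro ⟨⟨x, ⟨hx, hy⟩, hk⟩, -⟩; exact ⟨⟨x, hx, hk⟩, x, ⟨hx, hk⟩, hy⟩
    rw [e, Finset.mul_sum]
    refine (Finset.sum_le_sum (g := fun y => C * (lam y * ψ y)) fun y hy => ?_).trans ?_
    · obtain ⟨x, hx, hxy⟩ := Finset.mem_image.1 hy
      obtain ⟨hyF, hy2⟩ := hxy ▸ hmemF x hx
      refine (mul_le_mul_of_nonneg_right (hcount y) (mul_nonneg (hψ y hyF) (by positivity))).trans ?_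
      have := mul_le_mul_of_nonneg_right (hsf y hy2) (hψ y hyF)
      linarith
    · refine Finset.sum_le_sum_of_subset_of_nonneg (fun y hy => ?_) fun y hy _ => ?_
      · obtain ⟨x, hx, hxy⟩ := Finset.mem_image.1 hy; exact hxy ▸ (hmemF x hx).1
      · exact mul_nonneg hC.le (mul_nonneg (lam_nonneg y) (hψ y hy))
  have hq : ∀ x ∈ P, 2 ≤ x.1 ∧ 2 ≤ x.2 := fun x hx => by
    obtain ⟨-, -, hT⟩ := hP x hx
    exact ⟨hT.2.1.q2, le_trans hT.2.1.q2 hT.1.le⟩
  have hA := hproj Prod.fst (fun x hx => ⟨(hP x hx).1, (hq x hx).1⟩) fun y => by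
    have h : ((P.filter (fun x => x.1 = y)).image tkey).card
        ≤ (y.divisors ×ˢ Finset.range (Nat.log 2 y + 1)).card := by
      refine Finset.card_le_card_of_injOn (fun κ => (κ.1, κ.2.2)) ?_ ?_
      · intro κ hκ
        obtain ⟨x, hx, rfl⟩ := Finset.mem_image.1 hκ
        obtain ⟨h1, h2⟩ := Finset.mem_filter.1 hx
        obtain ⟨P0, hv, -⟩ := tiny_basic hη (hP x h1).2.2
        subst h2
        exact Finset.mem_product.2 ⟨Nat.mem_divisors.2 ⟨Nat.gcd_dvd_left _ _, P0.hq.ne'⟩,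
          Finset.mem_range.2 (Nat.lt_succ_of_le (Nat.log_mono_right (b := 2) hv))⟩
      · intro κ hκ κ' hκ' he
        obtain ⟨x, hx, rfl⟩ := Finset.mem_image.1 hκ
        obtain ⟨x', hx', rfl⟩ := Finset.mem_image.1 hκ'
        obtain ⟨h1, h2⟩ := Finset.mem_filter.1 hx
        obtain ⟨h3, h4⟩ := Finset.mem_filter.1 hx'
        simp only [tkey, Prod.mk.injEq] at he ⊢
        refine ⟨he.1, ?_, he.2⟩
        unfold cu; rw [he.1, h2, h4]
    rw [Finset.card_product, Finset.card_range] at h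
    exact_mod_cast h
  have hB := hproj Prod.snd (fun x hx => ⟨(hP x hx).2.1, (hq x hx).2⟩) fun y => by
    have h : ((P.filter (fun x => x.2 = y)).image tkey).card
        ≤ (y.divisors ×ˢ Finset.range (Nat.log 2 y + 1)).card := by
      refine Finset.card_le_card_of_injOn (fun κ => (κ.1, κ.2.1)) ?_ ?_
      · intro κ hκ
        obtain ⟨x, hx, rfl⟩ := Finset.mem_image.1 hκ
        obtain ⟨h1, h2⟩ := Finset.mem_filter.1 hx
        obtain ⟨P0, -, -⟩ := tiny_basic hη (hP x h1).2.2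
        subst h2
        refine Finset.mem_product.2 ⟨Nat.mem_divisors.2 ⟨Nat.gcd_dvd_right _ _, P0.hr.ne'⟩,
          Finset.mem_range.2 (Nat.lt_succ_of_le (Nat.log_mono_right (b := 2) ?_))⟩
        exact le_trans P0.huv.le (Nat.div_le_self _ _)
      · intro κ hκ κ' hκ' he
        obtain ⟨x, hx, rfl⟩ := Finset.mem_image.1 hκ
        obtain ⟨x', hx', rfl⟩ := Finset.mem_image.1 hκ'
        obtain ⟨h1, h2⟩ := Finset.mem_filter.1 hx
        obtain ⟨h3, h4⟩ := Finset.mem_filter.1 hx'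
        simp only [tkey, Prod.mk.injEq] at he ⊢
        refine ⟨he.1, he.2, ?_⟩
        unfold cv; rw [he.1, h2, h4]
    rw [Finset.card_product, Finset.card_range] at h
    exact_mod_cast h
  linarith

end Vale.Agent.P028.Wide
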